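import Vale.Agent.P140.Slab.Basic

/-!
# Weighted moment balance of a slab solution

A weight `a` that decreases in time at the rate `b` gives an exact identity between extended
nonnegative integrals. The collisional excess of a weight is bounded pair by pair.
-/

open MeasureTheory Real Set Filter
open scoped RealInnerProductSpace ENNReal

namespace Vale.Agent.P140.Slab

open Vale.Agent.P140 Vale.Agent.P140.Renorm

/-- Fubini on a triangle of times. -/
lemma lintegral_triangle_Ioc {p t : ℝ} {k : ℝ → ℝ → ℝ≥0∞}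
    (hk : Measurable (Function.uncurry k)) :
    ∫⁻ r in Ioc p t, ∫⁻ s in Ioc p r, k r s = ∫⁻ s in Ioc p t, ∫⁻ r in Ioc s t, k r s := by
  have hset : MeasurableSet {w : ℝ × ℝ | p < w.2 ∧ w.2 ≤ w.1 ∧ w.1 ≤ t} :=
    (measurableSet_lt measurable_const measurable_snd).inter
      ((measurableSet_le measurable_snd measurable_fst).inter
        (measurableSet_le measurable_fst measurable_const))
  set F : ℝ × ℝ → ℝ≥0∞ :=
    {w : ℝ × ℝ | p < w.2 ∧ w.2 ≤ w.1 ∧ w.1 ≤ t}.indicator (Function.uncurry k) with hF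
  have hl : ∀ r, (Ioc p t).indicator (fun r => ∫⁻ s in Ioc p r, k r s) r = ∫⁻ s, F (r, s) := by
    intro r
    by_cases hr : r ∈ Ioc p t
    · rw [indicator_of_mem hr, ← lintegral_indicator measurableSet_Ioc]
      refine lintegral_congr fun s => ?_
      simp only [hF, indicator_apply, mem_Ioc, mem_ofPred_eq, hr.2, and_true, Function.uncurry]
    · rw [indicator_of_notMem hr, eq_comm, ← lintegral_zero]
      refine lintegral_congr fun s => ?_
      simp only [hF, indicator_apply, mem_ofPred_eq]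
      exact if_neg fun h => hr ⟨h.1.trans_le h.2.1, h.2.2⟩
  rw [← lintegral_indicator measurableSet_Ioc, lintegral_congr hl,
    lintegral_lintegral_swap (f := fun r s => F (r, s)) (hk.indicator hset).aemeasurable,
    ← lintegral_indicator measurableSet_Ioc]
  refine lintegral_congr_ae ?_
  filter_upwards with s
  by_cases hs : s ∈ Ioc p t
  · rw [indicator_of_mem hs, ← lintegral_indicator measurableSet_Ioc]
    refine lintegral_congr_ae ?_
    filter_upwards [Measure.ae_ne volume s] with r hr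
    simp only [hF, indicator_apply, mem_Ioc, mem_ofPred_eq, hs.1, true_and, Function.uncurry]
    exact if_congr ⟨fun h => ⟨lt_of_le_of_ne h.1 (Ne.symm hr), h.2⟩,
      fun h => ⟨h.1.le, h.2⟩⟩ rfl rfl
  · rw [indicator_of_notMem hs, ← lintegral_zero]
    refine lintegral_congr fun r => ?_
    simp only [hF, indicator_apply, mem_ofPred_eq]
    exact if_neg fun h => hs ⟨h.1, h.2.1.trans h.2.2⟩

variable {θ T : ℝ} {f : ℝ → Prof}

/-- The mild equation in extended nonnegative numbers. -/
lemma line_identity (h : IsSlabSol θ T f) :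
    ∀ᵐ q : ℝ × V3, ∀ r ∈ Icc 0 T,
      sl (f r) (q.1 + r * q.2 0) q.2 + ∫⁻ s in Ioc 0 r, ls (f s) (q.1 + s * q.2 0) q.2 =
        sl (f 0) q.1 q.2 + ∫⁻ s in Ioc 0 r, gs (f s) (q.1 + s * q.2 0) q.2 := by
  filter_upwards [h.mild] with q hq r hr
  have along : ∀ F : ℝ × ℝ × V3 → ℝ≥0∞, Measurable F →
      Measurable fun s : ℝ => F (s, q.1 + s * q.2 0, q.2) := fun F hF => by fun_prop
  have hG : Measurable fun s => gs (f s) (q.1 + s * q.2 0) q.2 := by
    simpa only [] using along (fun w => gs (f w.1) w.2.1 w.2.2) (measurable_gs_param h.measurable)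
  have hL : Measurable fun s => ls (f s) (q.1 + s * q.2 0) q.2 := by
    simpa only [] using along (fun w => ls (f w.1) w.2.1 w.2.2) (measurable_ls_param h.measurable)
  have hfin := hq.1
  rw [lintegral_add_left hG] at hfin
  obtain ⟨hGT, hLT⟩ := ENNReal.add_ne_top.1 hfin
  have hsub : Ioc 0 r ⊆ Ioc 0 T := Ioc_subset_Ioc le_rfl hr.2
  have hGf := ne_top_of_le_ne_top hGT (lintegral_mono_set hsub)
  have hLf := ne_top_of_le_ne_top hLT (lintegral_mono_set hsub)
  have hGi := integrable_toReal_of_lintegral_ne_top hG.aemeasurable hGf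
  have hLi := integrable_toReal_of_lintegral_ne_top hL.aemeasurable hLf
  have e := hq.2 r hr
  rw [intervalIntegral.integral_of_le hr.1] at e
  unfold qs at e
  rw [integral_sub hGi hLi, integral_toReal hG.aemeasurable (ae_lt_top hG hGf),
    integral_toReal hL.aemeasurable (ae_lt_top hL hLf)] at e
  simp only [sl]
  rw [← ENNReal.toReal_eq_toReal_iff' (ENNReal.add_ne_top.2 ⟨ENNReal.ofReal_ne_top, hLf⟩)
      (ENNReal.add_ne_top.2 ⟨ENNReal.ofReal_ne_top, hGf⟩),
    ENNReal.toReal_add ENNReal.ofReal_ne_top hLf, ENNReal.toReal_add ENNReal.ofReal_ne_top hGf,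
    ENNReal.toReal_ofReal (h.nonneg _ _ _), ENNReal.toReal_ofReal (h.nonneg _ _ _)]
  linarith

/-- Integration over one period in coordinates moving with the particles. -/
lemma lintegral_moving {F : ℝ → ℝ → V3 → ℝ≥0∞}
    (hF : Measurable fun w : ℝ × ℝ × V3 => F w.1 w.2.1 w.2.2)
    (hp : ∀ s v, Function.Periodic (fun y => F s y v) 1) (S : Set ℝ) :
    ∫⁻ v, ∫⁻ y in Ioc (0 : ℝ) 1, ∫⁻ s in S, F s (y + s * v 0) v =
      ∫⁻ s in S, ∫⁻ y in Ioc (0 : ℝ) 1, ∫⁻ v, F s y v := by
  have h1 : ∀ v, ∫⁻ y in Ioc (0 : ℝ) 1, ∫⁻ s in S, F s (y + s * v 0) v =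
      ∫⁻ s in S, ∫⁻ y in Ioc (0 : ℝ) 1, F s y v := fun v => by
    have hm : Measurable fun w : ℝ × ℝ => F w.2 (w.1 + w.2 * v 0) v :=
      hF.comp (f := fun w : ℝ × ℝ => (w.2, w.1 + w.2 * v 0, v)) (by fun_prop)
    rw [lintegral_lintegral_swap hm.aemeasurable]
    exact lintegral_congr fun s => lintegral_period_shift (hp s v) (s * v 0)
  simp_rw [h1]
  have hm2 : Measurable fun w : V3 × ℝ => ∫⁻ y in Ioc (0 : ℝ) 1, F w.2 y w.1 :=
    Measurable.lintegral_prod_right' (f := fun w : (V3 × ℝ) × ℝ => F w.1.2 w.2 w.1.1)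
      (hF.comp (f := fun w : (V3 × ℝ) × ℝ => (w.1.2, w.2, w.1.1)) (by fun_prop))
  rw [lintegral_lintegral_swap hm2.aemeasurable]
  refine lintegral_congr fun s => lintegral_lintegral_swap ?_
  exact (hF.comp (f := fun w : V3 × ℝ => (s, w.2, w.1)) (by fun_prop)).aemeasurable

/-- The balance of a decreasing weight. -/
theorem balance (h : IsSlabSol θ T f) {a b : ℝ → V3 → ℝ≥0∞}
    (ha : Measurable (Function.uncurry a)) (hb : Measurable (Function.uncurry b)) {t : ℝ}
    (ht : t ∈ Icc 0 T)
    (hab : ∀ s ∈ Icc 0 t, ∀ v, a s v = a t v + ∫⁻ r in Ioc s t, b r v) :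
    xint (a t) (f t) + (∫⁻ r in Ioc 0 t, xint (b r) (f r)) +
        (∫⁻ s in Ioc 0 t, ∫⁻ y in Ioc (0 : ℝ) 1, ∫⁻ v, a s v * ls (f s) y v) =
      xint (a 0) (f 0) + ∫⁻ s in Ioc 0 t, ∫⁻ y in Ioc (0 : ℝ) 1, ∫⁻ v, a s v * gs (f s) y v := by
  set G : ℝ → ℝ × V3 → ℝ≥0∞ := fun s q => gs (f s) (q.1 + s * q.2 0) q.2 with hGdef
  set L : ℝ → ℝ × V3 → ℝ≥0∞ := fun s q => ls (f s) (q.1 + s * q.2 0) q.2 with hLdef
  set P : ℝ → ℝ × V3 → ℝ≥0∞ := fun s q => sl (f s) (q.1 + s * q.2 0) q.2 with hPdef
  have along : ∀ F : ℝ × ℝ × V3 → ℝ≥0∞, Measurable F →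
      Measurable fun w : ℝ × ℝ × V3 => F (w.1, w.2.1 + w.1 * w.2.2 0, w.2.2) := fun F hF => by
    fun_prop
  have hGm : Measurable fun w : ℝ × ℝ × V3 => G w.1 w.2 := by
    simpa only [hGdef] using
      along (fun w => gs (f w.1) w.2.1 w.2.2) (measurable_gs_param h.measurable)
  have hLm : Measurable fun w : ℝ × ℝ × V3 => L w.1 w.2 := by
    simpa only [hLdef] using
      along (fun w => ls (f w.1) w.2.1 w.2.2) (measurable_ls_param h.measurable)
  have hPm : Measurable fun w : ℝ × ℝ × V3 => P w.1 w.2 := by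
    simpa only [hPdef, sl] using
      along (fun w => sl (f w.1) w.2.1 w.2.2) h.measurable.ennreal_ofReal
  have key : ∀ᵐ q : ℝ × V3, a t q.2 * P t q + (∫⁻ r in Ioc 0 t, b r q.2 * P r q) +
      (∫⁻ s in Ioc 0 t, a s q.2 * L s q) =
        a 0 q.2 * sl (f 0) q.1 q.2 + ∫⁻ s in Ioc 0 t, a s q.2 * G s q := by
    filter_upwards [line_identity h] with q hq
    have hbq : Measurable fun r => b r q.2 := hb.comp measurable_prodMk_right
    have split : ∀ K : ℝ → ℝ≥0∞, Measurable K →
        ∫⁻ s in Ioc 0 t, a s q.2 * K s =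
          a t q.2 * (∫⁻ s in Ioc 0 t, K s) +
            ∫⁻ r in Ioc 0 t, b r q.2 * ∫⁻ s in Ioc 0 r, K s := by
      intro K hK
      have e1 : ∫⁻ s in Ioc 0 t, a s q.2 * K s =
          ∫⁻ s in Ioc 0 t, (a t q.2 * K s + ∫⁻ r in Ioc s t, b r q.2 * K s) := by
        refine setLIntegral_congr_fun measurableSet_Ioc fun s hs => ?_
        rw [hab s (Ioc_subset_Icc_self hs), add_mul, lintegral_mul_const _ hbq]
      have e2 : ∀ r, b r q.2 * ∫⁻ s in Ioc 0 r, K s = ∫⁻ s in Ioc 0 r, b r q.2 * K s :=
        fun r => (lintegral_const_mul _ hK).symm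
      rw [e1, lintegral_add_left (f := fun s => a t q.2 * K s) (measurable_const.mul hK),
        lintegral_const_mul _ hK]
      simp_rw [e2]
      rw [lintegral_triangle_Ioc]
      exact (hbq.comp measurable_fst).mul (hK.comp measurable_snd)
    have sec : ∀ F : ℝ × ℝ × V3 → ℝ≥0∞, Measurable F → Measurable fun s : ℝ => F (s, q) :=
      fun F hF => by fun_prop
    have hG1 : Measurable fun s => G s q := sec (fun w => G w.1 w.2) hGm
    have hL1 : Measurable fun s => L s q := sec (fun w => L w.1 w.2) hLm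
    have hP1 : Measurable fun s => P s q := sec (fun w => P w.1 w.2) hPm
    have hbP : Measurable fun r => b r q.2 * P r q := hbq.mul hP1
    have hbL : Measurable fun r => b r q.2 * ∫⁻ s in Ioc 0 r, L s q := by
      refine hbq.mul ?_
      have : Monotone fun r => ∫⁻ s in Ioc 0 r, L s q :=
        fun r r' hr => lintegral_mono_set (Ioc_subset_Ioc le_rfl hr)
      exact this.measurable
    rw [split _ hG1, split _ hL1, hab 0 (left_mem_Icc.2 ht.1)]
    have e3 : (∫⁻ r in Ioc 0 t, b r q.2 * P r q) +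
        (∫⁻ r in Ioc 0 t, b r q.2 * ∫⁻ s in Ioc 0 r, L s q) =
        (∫⁻ r in Ioc 0 t, b r q.2) * sl (f 0) q.1 q.2 +
          ∫⁻ r in Ioc 0 t, b r q.2 * ∫⁻ s in Ioc 0 r, G s q := by
      rw [← lintegral_add_left hbP, ← lintegral_mul_const _ hbq,
        ← lintegral_add_left (f := fun r => b r q.2 * sl (f 0) q.1 q.2) (hbq.mul measurable_const)]
      refine setLIntegral_congr_fun measurableSet_Ioc fun r hr => ?_
      rw [← mul_add, ← mul_add, hq r ⟨hr.1.le, hr.2.trans ht.2⟩]
    calc _ = a t q.2 * (P t q + ∫⁻ s in Ioc 0 t, L s q) +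
          ((∫⁻ r in Ioc 0 t, b r q.2 * P r q) +
            ∫⁻ r in Ioc 0 t, b r q.2 * ∫⁻ s in Ioc 0 r, L s q) := by ring
      _ = _ := by rw [e3, hq t ht]; ring
  set μ := ((volume : Measure ℝ).restrict (Ioc 0 1)).prod (volume : Measure V3) with hμ
  have hkey : ∀ᵐ q ∂μ, a t q.2 * P t q + (∫⁻ r in Ioc 0 t, b r q.2 * P r q) +
      (∫⁻ s in Ioc 0 t, a s q.2 * L s q) =
        a 0 q.2 * sl (f 0) q.1 q.2 + ∫⁻ s in Ioc 0 t, a s q.2 * G s q := by
    refine ae_mono ?_ key
    rw [hμ, ← Measure.restrict_univ (μ := (volume : Measure V3)), Measure.prod_restrict,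
      ← Measure.volume_eq_prod]
    exact Measure.restrict_le_self
  have he := lintegral_congr_ae hkey
  have swap : ∀ c : ℝ → V3 → ℝ≥0∞, Measurable (Function.uncurry c) →
      ∀ F : ℝ → ℝ → V3 → ℝ≥0∞, Measurable (fun w : ℝ × ℝ × V3 => F w.1 w.2.1 w.2.2) →
      (∀ s v, Function.Periodic (fun y => F s y v) 1) →
      Measurable (fun q : ℝ × V3 => ∫⁻ s in Ioc 0 t, c s q.2 * F s (q.1 + s * q.2 0) q.2) ∧
      ∫⁻ q, (∫⁻ s in Ioc 0 t, c s q.2 * F s (q.1 + s * q.2 0) q.2) ∂μ =
        ∫⁻ s in Ioc 0 t, ∫⁻ y in Ioc (0 : ℝ) 1, ∫⁻ v, c s v * F s y v := by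
    intro c hc F hF hFp
    have hm : Measurable fun q : ℝ × V3 =>
        ∫⁻ s in Ioc 0 t, c s q.2 * F s (q.1 + s * q.2 0) q.2 :=
      Measurable.lintegral_prod_right' (f := fun w : (ℝ × V3) × ℝ =>
        c w.2 w.1.2 * F w.2 (w.1.1 + w.2 * w.1.2 0) w.1.2)
        ((hc.comp (measurable_snd.prodMk (measurable_snd.comp measurable_fst))).mul
          (hF.comp (f := fun w : (ℝ × V3) × ℝ => (w.2, w.1.1 + w.2 * w.1.2 0, w.1.2))
            (by fun_prop)))
    refine ⟨hm, ?_⟩
    rw [hμ, lintegral_prod_symm' _ hm]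
    exact lintegral_moving (F := fun s y v => c s v * F s y v)
      ((hc.comp (measurable_fst.prodMk (measurable_snd.comp measurable_snd))).mul hF)
      (fun s v y => congrArg (c s v * ·) (hFp s v y)) (Ioc 0 t)
  obtain ⟨mb, eb⟩ := swap b hb (fun s y v => sl (f s) y v) h.measurable.ennreal_ofReal
    (fun s v y => congrFun (sl_periodic (h.periodic s) y) v)
  obtain ⟨mL, eL⟩ := swap a ha (fun s y v => ls (f s) y v) (measurable_ls_param h.measurable)
    (fun s v y => ls_periodic (h.periodic s) y v)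
  obtain ⟨mG, eG⟩ := swap a ha (fun s y v => gs (f s) y v) (measurable_gs_param h.measurable)
    (fun s v y => gs_periodic (h.periodic s) y v)
  have hsingle : ∀ r, Measurable (fun q : ℝ × V3 => a r q.2 * P r q) ∧
      ∫⁻ q, a r q.2 * P r q ∂μ = xint (a r) (f r) := by
    intro r
    have har : Measurable (a r) := ha.comp measurable_prodMk_left
    have hm : Measurable fun q : ℝ × V3 => a r q.2 * P r q :=
      (har.comp measurable_snd).mul (Measurable.comp (g := fun w : ℝ × ℝ × V3 => P w.1 w.2)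
        (f := fun q : ℝ × V3 => (r, q)) hPm (measurable_const.prodMk measurable_id))
    refine ⟨hm, ?_⟩
    have hs : Measurable fun q : ℝ × V3 => a r q.2 * sl (f r) q.1 q.2 :=
      (har.comp measurable_snd).mul (measurable_sl (h.measurable_time r))
    calc ∫⁻ q, a r q.2 * P r q ∂μ
        = ∫⁻ v, ∫⁻ y in Ioc (0 : ℝ) 1, a r v * sl (f r) (y + r * v 0) v := by
          rw [hμ, lintegral_prod_symm' _ hm]
      _ = ∫⁻ v, ∫⁻ y in Ioc (0 : ℝ) 1, a r v * sl (f r) y v :=
          lintegral_congr fun v => lintegral_period_shift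
            (p := fun y => a r v * sl (f r) y v)
            (fun y => by simp only [sl_periodic (h.periodic r) y]) _
      _ = xint (a r) (f r) := (lintegral_lintegral_swap hs.aemeasurable).symm
  obtain ⟨mt, et⟩ := hsingle t
  obtain ⟨m0, e0⟩ := hsingle 0
  have hP0 : ∀ q : ℝ × V3, P 0 q = sl (f 0) q.1 q.2 := fun q => by simp [hPdef]
  simp only [hP0] at m0 e0
  rw [lintegral_add_left (f := fun q => a t q.2 * P t q + ∫⁻ r in Ioc 0 t, b r q.2 * P r q)
      (mt.add mb),
    lintegral_add_left (f := fun q => a t q.2 * P t q) mt, lintegral_add_left m0, et, e0] at he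
  simp only [hPdef, hLdef, hGdef] at he
  rw [eb, eL, eG] at he
  exact he

/-- A pairwise bound on the excess of the gain of a weight over its loss. -/
theorem pair_excess {a : V3 → ℝ≥0∞} {D : V3 → V3 → ℝ≥0∞} {g : V3 → ℝ≥0∞} (ha : Measurable a)
    (hD : Measurable (Function.uncurry D)) (hg : Measurable g)
    (hΔ : ∀ v (p : V3 × S2), a (postV v p) + a (postW v p) ≤ a v + a p.1 + D v p.1) :
    2 * ∫⁻ v, a v * gain g g v ≤ 2 * (∫⁻ v, a v * (g v * lossRate g v)) +
      surface univ * ∫⁻ v, ∫⁻ u, ENNReal.ofReal (‖v‖ + ‖u‖) * D v u * g v * g u := by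
  set k : V3 → V3 × S2 → ℝ≥0∞ := fun v p => ENNReal.ofReal |impact v p| * g v * g p.1 with hk
  have hswap : ∀ v (p : V3 × S2), k p.1 (v, p.2) = k v p := fun v p => by
    simp only [hk, impact_swap, abs_neg]; ring
  have hA : Measurable (Function.uncurry fun v p => a (postV v p) * k v p) := by
    simp only [hk]; fun_prop
  have hB : Measurable (Function.uncurry fun v p => a v * k v p) := by
    simp only [hk]; fun_prop
  have hA2 := lintegral_swap_velocities hA
  simp only [postV_swap, hswap] at hA2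
  have hB2 := lintegral_swap_velocities hB
  simp only [hswap] at hB2
  have hl : ∀ v, a v * (g v * lossRate g v) =
      ∫⁻ p, a v * k v p ∂((volume : Measure V3).prod surface) := by
    intro v
    rw [lossRate, ← lintegral_const_mul _ (by fun_prop), ← lintegral_const_mul _ (by fun_prop)]
    exact lintegral_congr fun p => by simp only [hk]; ring
  rw [lintegral_mul_gain hg hg ha, lintegral_congr hl]
  have mA : Measurable fun v => ∫⁻ p, a (postV v p) * k v p ∂((volume : Measure V3).prod surface) :=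
    Measurable.lintegral_prod_right hA
  have mB : Measurable fun v => ∫⁻ p, a v * k v p ∂((volume : Measure V3).prod surface) :=
    Measurable.lintegral_prod_right hB
  have mA' : ∀ v, Measurable fun p : V3 × S2 => a (postV v p) * k v p :=
    fun v => hA.comp measurable_prodMk_left
  have mB' : ∀ v, Measurable fun p : V3 × S2 => a v * k v p :=
    fun v => hB.comp measurable_prodMk_left
  have hC : Measurable (Function.uncurry fun v (p : V3 × S2) => a p.1 * k v p) := by
    simp only [hk]; fun_prop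
  have hE : Measurable (Function.uncurry fun v (p : V3 × S2) => D v p.1 * k v p) := by
    simp only [hk]; fun_prop
  calc _ = (∫⁻ v, ∫⁻ p, a (postV v p) * k v p ∂((volume : Measure V3).prod surface)) +
        ∫⁻ v, ∫⁻ p, a (postW v p) * k v p ∂((volume : Measure V3).prod surface) := by
          rw [hA2, two_mul]
    _ ≤ (∫⁻ v, ∫⁻ p, a v * k v p ∂((volume : Measure V3).prod surface)) +
        (∫⁻ v, ∫⁻ p, a p.1 * k v p ∂((volume : Measure V3).prod surface)) +
        ∫⁻ v, ∫⁻ p, D v p.1 * k v p ∂((volume : Measure V3).prod surface) := by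
          rw [← lintegral_add_left mA, ← lintegral_add_left mB, ← lintegral_add_left]
          · refine lintegral_mono fun v => ?_
            rw [← lintegral_add_left (mA' v), ← lintegral_add_left (mB' v), ← lintegral_add_left]
            · refine lintegral_mono fun p => ?_
              rw [← add_mul, ← add_mul, ← add_mul]
              exact mul_le_mul' (hΔ v p) le_rfl
            · exact (mB' v).add (hC.comp measurable_prodMk_left)
          · exact mB.add (Measurable.lintegral_prod_right hC)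
    _ ≤ _ := by
          rw [hB2, ← two_mul]
          refine add_le_add le_rfl ?_
          have hsm : ∀ v, Measurable fun u => ENNReal.ofReal (‖v‖ + ‖u‖) * D v u * g v * g u :=
            fun v => by fun_prop
          have hm2 : Measurable fun v => ∫⁻ u, ENNReal.ofReal (‖v‖ + ‖u‖) * D v u * g v * g u :=
            Measurable.lintegral_prod_right' (f := fun w : V3 × V3 =>
              ENNReal.ofReal (‖w.1‖ + ‖w.2‖) * D w.1 w.2 * g w.1 * g w.2) (by fun_prop)
          rw [← lintegral_const_mul _ hm2]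
          refine lintegral_mono fun v => ?_
          rw [← lintegral_const_mul _ (hsm v), lintegral_prod (fun p : V3 × S2 => D v p.1 * k v p)
            (hE.comp measurable_prodMk_left).aemeasurable]
          refine lintegral_mono fun u => ?_
          calc ∫⁻ ω, D v u * k v (u, ω) ∂surface
              ≤ ∫⁻ _, ENNReal.ofReal (‖v‖ + ‖u‖) * D v u * g v * g u ∂surface := by
                refine lintegral_mono fun ω => ?_
                simp only [hk]
                calc D v u * (ENNReal.ofReal |impact v (u, ω)| * g v * g u)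
                    = ENNReal.ofReal |impact v (u, ω)| * D v u * g v * g u := by ring
                  _ ≤ _ := by
                    gcongr
                    refine (abs_real_inner_le_norm _ _).trans ?_
                    rw [norm_omega, mul_one]
                    exact norm_sub_le _ _
            _ = _ := by rw [lintegral_const, mul_comm]

end Vale.Agent.P140.Slab
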