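import Vale.Agent.P140.Slab.EntropyDefs
import Vale.Agent.P140.Renorm.Collision

/-!
# Slab profiles

A slab profile depends on the position through one periodic coordinate `x`, lifted to the line, and
on the full velocity. Its landing envelope at `(t,x)` adds to the free datum the gain collected
along the line that lands there.
-/

open MeasureTheory Real Set
open scoped RealInnerProductSpace ENNReal

namespace Vale.Agent.P140.Slab

open Vale.Agent.P140 Vale.Agent.P140.Renorm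

/-- A slab profile at a fixed time. -/
abbrev Prof := ℝ → V3 → ℝ

/-- The velocity profile at `y`. -/
noncomputable def sl (g : Prof) (y : ℝ) : V3 → ℝ≥0∞ := fun v => ENNReal.ofReal (g y v)

/-- The gain term. -/
noncomputable def gs (g : Prof) (y : ℝ) (v : V3) : ℝ≥0∞ := gain (sl g y) (sl g y) v

/-- The loss term. -/
noncomputable def ls (g : Prof) (y : ℝ) (v : V3) : ℝ≥0∞ := sl g y v * lossRate (sl g y) v

/-- The collision term, meaningful where both parts are finite. -/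
noncomputable def qs (g : Prof) (y : ℝ) (v : V3) : ℝ := (gs g y v).toReal - (ls g y v).toReal

/-- Velocity moment at `y`. -/
noncomputable def mom (W : V3 → ℝ≥0∞) (g : Prof) (y : ℝ) : ℝ≥0∞ := ∫⁻ v, W v * sl g y v

/-- Velocity moment over one period. -/
noncomputable def xint (W : V3 → ℝ≥0∞) (g : Prof) : ℝ≥0∞ := ∫⁻ y in Ioc (0 : ℝ) 1, mom W g y

/-- The number of collisions per unit time. -/
noncomputable def nrate (g : Prof) : ℝ≥0∞ := ∫⁻ y in Ioc (0 : ℝ) 1, ∫⁻ v, gs g y v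

/-- `ℋ_M` over one period. -/
noncomputable def slabEnt (g : Prof) : ℝ≥0∞ :=
  ∫⁻ y in Ioc (0 : ℝ) 1, ∫⁻ v, ENNReal.ofReal (g y v * log (g y v / M0 v) - g y v + M0 v)

/-- Entropy dissipation over one period. -/
noncomputable def slabDiss (g : Prof) : ℝ≥0∞ :=
  ∫⁻ y in Ioc (0 : ℝ) 1, ∫⁻ v, ∫⁻ p : V3 × S2, ENNReal.ofReal |impact v p| *
    dissDen (g y (postV v p) * g y (postW v p)) (g y v * g y p.1)
    ∂((volume : Measure V3).prod surface)

/-- The gain collected for times in `(t₀, min t₁ t]` along the line landing at `(t,x)`. -/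
noncomputable def landGain (W : V3 → ℝ≥0∞) (f : ℝ → Prof) (t₀ t₁ t x : ℝ) : ℝ≥0∞ :=
  ∫⁻ s in Ioc t₀ (min t₁ t), ∫⁻ v, W v * gs (f s) (x - (t - s) * v 0) v

/-- The landing envelope. -/
noncomputable def env (f : ℝ → Prof) (t₁ t x : ℝ) (v : V3) : ℝ≥0∞ :=
  sl (f 0) (x - t * v 0) v + ∫⁻ s in Ioc 0 (min t₁ t), gs (f s) (x - (t - s) * v 0) v

/-- The largest weighted envelope among landing times in `[0,T]`. -/
noncomputable def landSup (W : ℝ → V3 → ℝ≥0∞) (f : ℝ → Prof) (T t₁ : ℝ) : ℝ≥0∞ :=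
  ⨆ t ∈ Icc 0 T, ⨆ x : ℝ, ∫⁻ v, W t v * env f t₁ t x v

/-- The weight one. -/
def one : ℝ → V3 → ℝ≥0∞ := fun _ _ => 1

/-- The rate of the Gaussian weight at time `t`. -/
noncomputable def theta (θ t : ℝ) : ℝ := θ * exp (-t)

/-- The Gaussian weight at time `t`. -/
noncomputable def gw (θ t : ℝ) (v : V3) : ℝ≥0∞ := ENNReal.ofReal (exp (theta θ t * ‖v‖ ^ 2))

/-- `(1 + |s|)^(-3/2)`. -/
noncomputable def dec (s : ℝ) : ℝ≥0∞ := ENNReal.ofReal ((1 + |s|) ^ (-(3 / 2) : ℝ))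

/-- The weighted distribution of `v₀` is below `C dec` along every graph `y = ξ(v₀)`. -/
def SliceLE (W : V3 → ℝ≥0∞) (C : ℝ≥0∞) (g : Prof) : Prop :=
  ∀ (ξ : ℝ → ℝ) (ψ : ℝ → ℝ≥0∞), Measurable ξ → Measurable ψ →
    ∫⁻ v, ψ (v 0) * W v * sl g (ξ (v 0)) v ≤ C * ∫⁻ s, ψ s * dec s

/-- A mild slab solution on `[0,T]` with locally bounded Gaussian slice norm. -/
structure IsSlabSol (θ T : ℝ) (f : ℝ → Prof) : Prop where
  measurable : Measurable fun q : ℝ × ℝ × V3 => f q.1 q.2.1 q.2.2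
  nonneg : ∀ t x v, 0 ≤ f t x v
  periodic : ∀ t x v, f t (x + 1) v = f t x v
  bounded : ∃ C : ℝ≥0∞, C ≠ ⊤ ∧ ∀ t ∈ Icc 0 T, SliceLE (gw θ t) C (f t)
  le_env : ∀ t ∈ Icc 0 T, ∀ x v, sl (f t) x v ≤ env f t t x v
  mild : ∀ᵐ q : ℝ × V3,
    (∫⁻ s in Ioc 0 T, gs (f s) (q.1 + s * q.2 0) q.2 + ls (f s) (q.1 + s * q.2 0) q.2) ≠ ⊤ ∧
    ∀ t ∈ Icc 0 T, f t (q.1 + t * q.2 0) q.2 =
      f 0 q.1 q.2 + ∫ s in (0 : ℝ)..t, qs (f s) (q.1 + s * q.2 0) q.2

end Vale.Agent.P140.Slab
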