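import Vale.Agent.P140.Slab.Pins

/-!
# Elementary lemmas on slab profiles, periods and envelopes
-/

open MeasureTheory Real Set Filter
open scoped RealInnerProductSpace ENNReal

namespace Vale.Agent.P140.Slab

open Vale.Agent.P140 Vale.Agent.P140.Renorm

/-! ### Measurability -/

lemma measurable_coord : Measurable (fun v : V3 => v 0) :=
  (by fun_prop : Continuous fun v : V3 => v 0).measurable

lemma measurable_sl {g : Prof} (hg : Measurable (Function.uncurry g)) :
    Measurable fun q : ℝ × V3 => sl g q.1 q.2 :=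
  hg.ennreal_ofReal

lemma measurable_sl_at {g : Prof} (hg : Measurable (Function.uncurry g)) (y : ℝ) :
    Measurable (sl g y) :=
  (measurable_sl hg).comp measurable_prodMk_left

lemma measurable_gs_param {ι : Type*} [MeasurableSpace ι] {g : ι → Prof}
    (hg : Measurable fun q : ι × ℝ × V3 => g q.1 q.2.1 q.2.2) :
    Measurable fun q : ι × ℝ × V3 => gs (g q.1) q.2.1 q.2.2 := by
  have hs : Measurable fun q : ι × ℝ × V3 => sl (g q.1) q.2.1 q.2.2 := hg.ennreal_ofReal
  have hi : Measurable fun q : (ι × ℝ × V3) × V3 × S2 => |impact q.1.2.2 q.2| :=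
    (measurable_impact.comp
      ((measurable_snd.comp measurable_snd).comp measurable_fst |>.prodMk measurable_snd)).abs
  have ha : ∀ pf : V3 → V3 × S2 → V3, Measurable (fun q : V3 × V3 × S2 => pf q.1 q.2) →
      Measurable fun q : (ι × ℝ × V3) × V3 × S2 => sl (g q.1.1) q.1.2.1 (pf q.1.2.2 q.2) :=
    fun pf hπ => hs.comp ((measurable_fst.comp measurable_fst).prodMk
      (((measurable_fst.comp measurable_snd).comp measurable_fst).prodMk
        (hπ.comp (((measurable_snd.comp measurable_snd).comp measurable_fst).prodMk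
          measurable_snd))))
  exact Measurable.lintegral_prod_right'
    ((hi.ennreal_ofReal.mul (ha postV measurable_postV)).mul (ha postW measurable_postW))

lemma measurable_ls_param {ι : Type*} [MeasurableSpace ι] {g : ι → Prof}
    (hg : Measurable fun q : ι × ℝ × V3 => g q.1 q.2.1 q.2.2) :
    Measurable fun q : ι × ℝ × V3 => ls (g q.1) q.2.1 q.2.2 := by
  have hs : Measurable fun q : ι × ℝ × V3 => sl (g q.1) q.2.1 q.2.2 := hg.ennreal_ofReal
  have hi : Measurable fun q : (ι × ℝ × V3) × V3 × S2 => |impact q.1.2.2 q.2| :=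
    (measurable_impact.comp
      ((measurable_snd.comp measurable_snd).comp measurable_fst |>.prodMk measurable_snd)).abs
  exact hs.mul (Measurable.lintegral_prod_right'
    (hi.ennreal_ofReal.mul (hs.comp ((measurable_fst.comp measurable_fst).prodMk
      (((measurable_fst.comp measurable_snd).comp measurable_fst).prodMk
        (measurable_fst.comp measurable_snd))))))

lemma measurable_qs_param {ι : Type*} [MeasurableSpace ι] {g : ι → Prof}
    (hg : Measurable fun q : ι × ℝ × V3 => g q.1 q.2.1 q.2.2) :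
    Measurable fun q : ι × ℝ × V3 => qs (g q.1) q.2.1 q.2.2 :=
  (measurable_gs_param hg).ennreal_toReal.sub (measurable_ls_param hg).ennreal_toReal

lemma measurable_gs_line {f : ℝ → Prof}
    (hf : Measurable fun q : ℝ × ℝ × V3 => f q.1 q.2.1 q.2.2) :
    Measurable fun q : ℝ × ℝ × ℝ × V3 =>
      gs (f q.1) (q.2.2.1 - (q.2.1 - q.1) * q.2.2.2 0) q.2.2.2 := by
  have h2 : Measurable fun q : ℝ × ℝ × ℝ × V3 => q.2.2.2 := by fun_prop
  exact (measurable_gs_param hf).comp
    (measurable_fst.prodMk (((measurable_fst.comp (measurable_snd.comp measurable_snd)).sub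
      (((measurable_fst.comp measurable_snd).sub measurable_fst).mul
        (measurable_coord.comp h2))).prodMk h2))

lemma IsSlabSol.measurable_time {θ T : ℝ} {f : ℝ → Prof} (h : IsSlabSol θ T f) (t : ℝ) :
    Measurable (Function.uncurry (f t)) :=
  h.measurable.comp (measurable_const.prodMk measurable_id)

lemma measurable_env {f : ℝ → Prof}
    (hf : Measurable fun q : ℝ × ℝ × V3 => f q.1 q.2.1 q.2.2) (t₁ : ℝ) :
    Measurable fun q : ℝ × ℝ × V3 => env f t₁ q.1 q.2.1 q.2.2 := by
  have h0 : Measurable fun q : ℝ × ℝ × V3 => sl (f 0) (q.2.1 - q.1 * q.2.2 0) q.2.2 :=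
    (measurable_sl (g := f 0) (hf.comp (measurable_const.prodMk measurable_id))).comp
      (((measurable_fst.comp measurable_snd).sub
        (measurable_fst.mul (measurable_coord.comp (measurable_snd.comp measurable_snd)))).prodMk
        (measurable_snd.comp measurable_snd))
  refine h0.add ?_
  have hi : ∀ q : ℝ × ℝ × V3,
      (∫⁻ s in Ioc 0 (min t₁ q.1), gs (f s) (q.2.1 - (q.1 - s) * q.2.2 0) q.2.2) =
        ∫⁻ s, {r : ℝ × ℝ × ℝ × V3 | 0 < r.1 ∧ r.1 ≤ min t₁ r.2.1}.indicator
          (fun r => gs (f r.1) (r.2.2.1 - (r.2.1 - r.1) * r.2.2.2 0) r.2.2.2) (s, q) := by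
    intro q
    rw [← lintegral_indicator measurableSet_Ioc]
    exact lintegral_congr fun s => rfl
  simp only [hi]
  exact Measurable.lintegral_prod_left' ((measurable_gs_line hf).indicator
    ((measurableSet_lt measurable_const measurable_fst).inter
      (measurableSet_le measurable_fst (measurable_const.min
        (measurable_fst.comp measurable_snd)))))

lemma measurable_env_at {f : ℝ → Prof}
    (hf : Measurable fun q : ℝ × ℝ × V3 => f q.1 q.2.1 q.2.2) (t₁ t : ℝ) :
    Measurable fun q : ℝ × V3 => env f t₁ t q.1 q.2 :=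
  (measurable_env hf t₁).comp (measurable_const.prodMk measurable_id)

/-! ### Periodicity and periods -/

lemma sl_periodic {g : Prof} (hg : ∀ x v, g (x + 1) v = g x v) (y : ℝ) :
    sl g (y + 1) = sl g y :=
  funext fun v => congrArg ENNReal.ofReal (hg y v)

lemma gs_periodic {g : Prof} (hg : ∀ x v, g (x + 1) v = g x v) (y : ℝ) (v : V3) :
    gs g (y + 1) v = gs g y v := by rw [gs, gs, sl_periodic hg]

lemma ls_periodic {g : Prof} (hg : ∀ x v, g (x + 1) v = g x v) (y : ℝ) (v : V3) :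
    ls g (y + 1) v = ls g y v := by rw [ls, ls, sl_periodic hg]

lemma env_periodic {f : ℝ → Prof} (hf : ∀ t x v, f t (x + 1) v = f t x v) (t₁ t x : ℝ) (v : V3) :
    env f t₁ t (x + 1) v = env f t₁ t x v := by
  unfold env
  rw [show x + 1 - t * v 0 = (x - t * v 0) + 1 by ring, sl_periodic (hf 0)]
  congr 1
  refine lintegral_congr fun s => ?_
  rw [show x + 1 - (t - s) * v 0 = (x - (t - s) * v 0) + 1 by ring, gs_periodic (hf s)]

variable {p : ℝ → ℝ≥0∞}

lemma lintegral_period (hp : Function.Periodic p 1) (a : ℝ) :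
    ∫⁻ y in Ioc a (a + 1), p y = ∫⁻ y in Ioc (0 : ℝ) 1, p y := by
  have e : ∀ b : ℝ, ∫⁻ y in Ioc b (b + 1), p y = ∫⁻ z : UnitAddCircle, hp.lift z := fun b => by
    rw [← UnitAddCircle.lintegral_preimage b hp.lift]
    rfl
  rw [e a, ← e 0, zero_add]

lemma lintegral_period_shift (hp : Function.Periodic p 1) (c : ℝ) :
    ∫⁻ y in Ioc (0 : ℝ) 1, p (y + c) = ∫⁻ y in Ioc (0 : ℝ) 1, p y := by
  have h := (measurePreserving_add_right volume c).setLIntegral_comp_preimage_emb
    (MeasurableEquiv.addRight c).measurableEmbedding p (Ioc c (c + 1))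
  rw [preimage_add_const_Ioc] at h
  simp only [sub_self, add_sub_cancel_left] at h
  rw [h, lintegral_period hp c]

lemma lintegral_window (hp : Function.Periodic p 1) (a : ℝ) {l : ℝ} (hl : 0 ≤ l) :
    ∫⁻ y in Icc a (a + l), p y ≤ ENNReal.ofReal (l + 1) * ∫⁻ y in Ioc (0 : ℝ) 1, p y := by
  have hn : ∀ n : ℕ, ∫⁻ y in Ioc a (a + n), p y ≤ n * ∫⁻ y in Ioc (0 : ℝ) 1, p y := by
    intro n
    induction n with
    | zero => simp
    | succ n ih =>
      calc ∫⁻ y in Ioc a (a + (n + 1 : ℕ)), p y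
          ≤ ∫⁻ y in Ioc a (a + n) ∪ Ioc (a + n) (a + n + 1), p y := by
            refine lintegral_mono_set fun y hy => ?_
            rcases le_or_gt y (a + n) with h | h
            · exact Or.inl ⟨hy.1, h⟩
            · exact Or.inr ⟨h, by push_cast at hy; linarith [hy.2]⟩
        _ ≤ (∫⁻ y in Ioc a (a + n), p y) + ∫⁻ y in Ioc (a + n) (a + n + 1), p y :=
            lintegral_union_le _ _ _
        _ ≤ (n + 1 : ℕ) * ∫⁻ y in Ioc (0 : ℝ) 1, p y := by
            rw [lintegral_period hp (a + n), Nat.cast_succ, add_mul, one_mul]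
            exact add_le_add ih le_rfl
  calc ∫⁻ y in Icc a (a + l), p y = ∫⁻ y in Ioc a (a + l), p y :=
        setLIntegral_congr Ioc_ae_eq_Icc.symm
    _ ≤ ∫⁻ y in Ioc a (a + ⌈l⌉₊), p y :=
        lintegral_mono_set (Ioc_subset_Ioc le_rfl (by linarith [Nat.le_ceil l]))
    _ ≤ ⌈l⌉₊ * ∫⁻ y in Ioc (0 : ℝ) 1, p y := hn _
    _ ≤ _ := by
        gcongr
        rw [← ENNReal.ofReal_natCast]
        exact ENNReal.ofReal_le_ofReal (Nat.ceil_lt_add_one hl).le

lemma mom_periodic {g : Prof} (hg : ∀ x v, g (x + 1) v = g x v) (W : V3 → ℝ≥0∞) :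
    Function.Periodic (mom W g) 1 := fun y => by rw [mom, mom, sl_periodic hg]

lemma measurable_mom {g : Prof} (hg : Measurable (Function.uncurry g)) {W : V3 → ℝ≥0∞}
    (hW : Measurable W) : Measurable (mom W g) :=
  Measurable.lintegral_prod_right' (f := fun q : ℝ × V3 => W q.2 * sl g q.1 q.2)
    ((hW.comp measurable_snd).mul (measurable_sl hg))

/-! ### Envelopes -/

variable {θ T : ℝ} {f : ℝ → Prof} {W : ℝ → V3 → ℝ≥0∞}

lemma env_mono {a b : ℝ} (hab : a ≤ b) (t x : ℝ) (v : V3) : env f a t x v ≤ env f b t x v :=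
  add_le_add le_rfl (lintegral_mono_set (Ioc_subset_Ioc le_rfl (min_le_min_right t hab)))

lemma landSup_mono {a b : ℝ} (hab : a ≤ b) : landSup W f T a ≤ landSup W f T b :=
  iSup₂_mono fun t _ => iSup_mono fun x => lintegral_mono fun v => by
    gcongr
    exact env_mono hab t x v

lemma lintegral_env_le_landSup {t : ℝ} (ht : t ∈ Icc 0 T) (t₁ x : ℝ) :
    ∫⁻ v, W t v * env f t₁ t x v ≤ landSup W f T t₁ :=
  le_iSup₂_of_le t ht (le_iSup (fun x => ∫⁻ v, W t v * env f t₁ t x v) x)

lemma sl_le_env (h : IsSlabSol θ T f) {s t₁ t : ℝ} (hs : s ∈ Icc 0 T) (hs1 : s ≤ min t₁ t)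
    (y : ℝ) (v : V3) : sl (f s) y v ≤ env f t₁ t (y + (t - s) * v 0) v := by
  refine (h.le_env s hs y v).trans ?_
  unfold env
  rw [show y + (t - s) * v 0 - t * v 0 = y - s * v 0 by ring, min_self]
  refine add_le_add le_rfl ((lintegral_mono_set (Ioc_subset_Ioc le_rfl hs1)).trans_eq' ?_)
  refine lintegral_congr fun r => ?_
  rw [show y + (t - s) * v 0 - (t - r) * v 0 = y - (s - r) * v 0 by ring]

lemma mom_le_landSup (h : IsSlabSol θ T f) {T₀ s t₁ : ℝ} (hs : s ∈ Icc 0 T) (hs' : s ≤ T₀)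
    (hs1 : s ≤ t₁) (y : ℝ) : mom (W s) (f s) y ≤ landSup W f T₀ t₁ := by
  refine le_trans (lintegral_mono fun v => ?_) (lintegral_env_le_landSup ⟨hs.1, hs'⟩ t₁ y)
  gcongr
  simpa using sl_le_env h hs (le_min hs1 le_rfl) y v

lemma measurable_gs_land (hf : Measurable fun q : ℝ × ℝ × V3 => f q.1 q.2.1 q.2.2) (t x : ℝ) :
    Measurable fun q : V3 × ℝ => gs (f q.2) (x - (t - q.2) * q.1 0) q.1 := by
  have h1 : Measurable fun q : V3 × ℝ => (q.2, t, x, q.1) :=
    measurable_snd.prodMk (measurable_const.prodMk (measurable_const.prodMk measurable_fst))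
  exact Measurable.comp (g := fun q : ℝ × ℝ × ℝ × V3 =>
    gs (f q.1) (q.2.2.1 - (q.2.1 - q.1) * q.2.2.2 0) q.2.2.2)
    (f := fun q : V3 × ℝ => (q.2, t, x, q.1)) (measurable_gs_line hf) h1

lemma env_le_add {t₀ t₁ : ℝ} (t x : ℝ) (v : V3) :
    env f t₁ t x v ≤
      env f t₀ t x v + ∫⁻ s in Ioc t₀ (min t₁ t), gs (f s) (x - (t - s) * v 0) v := by
  unfold env
  rw [add_assoc]
  refine add_le_add le_rfl (le_trans ?_ (lintegral_union_le _ _ _))
  refine lintegral_mono_set fun s hs => ?_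
  rcases le_or_gt s t₀ with hle | hgt
  · exact Or.inl ⟨hs.1, le_min hle (hs.2.trans (min_le_right _ _))⟩
  · exact Or.inr ⟨hgt, hs.2⟩

lemma landSup_le_add (hf : Measurable fun q : ℝ × ℝ × V3 => f q.1 q.2.1 q.2.2)
    (hW : ∀ t, Measurable (W t)) {t₀ t₁ : ℝ} {G : ℝ≥0∞}
    (hG : ∀ t ∈ Icc 0 T, ∀ x, landGain (W t) f t₀ t₁ t x ≤ G) :
    landSup W f T t₁ ≤ landSup W f T t₀ + G := by
  refine iSup₂_le fun t ht => iSup_le fun x => ?_
  have hWe : Measurable fun v : V3 => W t v * env f t₀ t x v :=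
    (hW t).mul (Measurable.comp (g := fun q : ℝ × V3 => env f t₀ t q.1 q.2) (f := fun v : V3 => (x, v))
      (measurable_env_at hf t₀ t) measurable_prodMk_left)
  have hg : Measurable fun q : V3 × ℝ => W t q.1 * gs (f q.2) (x - (t - q.2) * q.1 0) q.1 :=
    ((hW t).comp measurable_fst).mul (measurable_gs_land hf t x)
  have hs : ∀ v : V3, Measurable fun s => gs (f s) (x - (t - s) * v 0) v := fun v =>
    Measurable.comp (g := fun q : V3 × ℝ => gs (f q.2) (x - (t - q.2) * q.1 0) q.1)
      (f := fun s => (v, s)) (measurable_gs_land hf t x) measurable_prodMk_left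
  calc ∫⁻ v, W t v * env f t₁ t x v
      ≤ ∫⁻ v, (W t v * env f t₀ t x v +
          ∫⁻ s in Ioc t₀ (min t₁ t), W t v * gs (f s) (x - (t - s) * v 0) v) := by
        refine lintegral_mono fun v => ?_
        rw [lintegral_const_mul _ (hs v), ← mul_add]
        exact mul_le_mul' le_rfl (env_le_add t x v)
    _ = (∫⁻ v, W t v * env f t₀ t x v) + landGain (W t) f t₀ t₁ t x := by
        rw [lintegral_add_left hWe]
        congr 1
        exact lintegral_lintegral_swap hg.aemeasurable
    _ ≤ _ := add_le_add (lintegral_env_le_landSup ht t₀ x) (hG t ht x)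

/-! ### Slice bounds -/

lemma lintegral_dec_ne_top : ∫⁻ s : ℝ, dec s ≠ ⊤ := by
  have h := (integrable_one_add_norm (E := ℝ) (r := 3 / 2) (μ := volume) (by simp; norm_num))
  refine (lt_of_le_of_lt (le_of_eq (lintegral_congr fun s => ?_)) h.lintegral_lt_top).ne
  simp [dec, Real.norm_eq_abs]

lemma SliceLE.mom_le {V : V3 → ℝ≥0∞} {C : ℝ≥0∞} {g : Prof} (h : SliceLE V C g) (y : ℝ) :
    mom V g y ≤ C * ∫⁻ s, dec s := by
  simpa [mom] using h (fun _ => y) (fun _ => 1) measurable_const measurable_const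

lemma SliceLE.mono {U V : V3 → ℝ≥0∞} {C : ℝ≥0∞} {g : Prof} (h : SliceLE V C g) (hUV : U ≤ V) :
    SliceLE U C g := fun ξ ψ hξ hψ =>
  (lintegral_mono fun v => by gcongr; exact hUV v).trans (h ξ ψ hξ hψ)

end Vale.Agent.P140.Slab
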