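import Vale.Agent.P140.Equilibrium

/-!
# The sphere in cylindrical coordinates

`∫ f dω` is the integral of `f` over height and angle, and is invariant under linear isometries.
-/

open MeasureTheory Real Set Metric
open scoped RealInnerProductSpace ENNReal

namespace Vale.Agent.P140.Slab

open Vale.Agent.P140

/-- The point with the coordinates `a, b, c`. -/
noncomputable def vec3 (a b c : ℝ) : V3 := WithLp.toLp 2 ![a, b, c]

@[simp] lemma vec3_zero (a b c : ℝ) : vec3 a b c 0 = a := rfl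
@[simp] lemma vec3_one (a b c : ℝ) : vec3 a b c 1 = b := rfl
@[simp] lemma vec3_two (a b c : ℝ) : vec3 a b c 2 = c := rfl

@[fun_prop]
lemma measurable_vec3 : Measurable fun q : ℝ × ℝ × ℝ => vec3 q.1 q.2.1 q.2.2 := by
  unfold vec3; fun_prop

lemma norm_vec3 (a b c : ℝ) : ‖vec3 a b c‖ = √(a ^ 2 + b ^ 2 + c ^ 2) := by
  simp [EuclideanSpace.norm_eq, Fin.sum_univ_three, sq_abs]

lemma smul_vec3 (k a b c : ℝ) : k • vec3 a b c = vec3 (k * a) (k * b) (k * c) := by
  ext i; fin_cases i <;> simp [vec3]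

lemma inner_vec3 (x : V3) (a b c : ℝ) : ⟪x, vec3 a b c⟫ = x 0 * a + x 1 * b + x 2 * c := by
  simp [PiLp.inner_apply, Fin.sum_univ_three, mul_comm]

/-- Lebesgue measure in Cartesian coordinates. -/
lemma lintegral_vec3 {G : V3 → ℝ≥0∞} (hG : Measurable G) :
    ∫⁻ x : V3, G x = ∫⁻ a : ℝ, ∫⁻ p : ℝ × ℝ, G (vec3 a p.1 p.2) := by
  have h1 := volume_preserving_piFinSuccAbove (fun _ : Fin 3 => ℝ) 0
  have h2 := (MeasurePreserving.id (volume : Measure ℝ)).prod
    (volume_preserving_piFinTwo (fun _ : Fin 2 => ℝ))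
  have hT := (h2.comp h1).comp (PiLp.volume_preserving_ofLp (Fin 3))
  have hm : Measurable fun q : ℝ × ℝ × ℝ => G (vec3 q.1 q.2.1 q.2.2) := by fun_prop
  calc ∫⁻ x : V3, G x = ∫⁻ x : V3, G (vec3 (x 0) (x 1) (x 2)) := by
        refine lintegral_congr fun x => ?_
        congr 1
        ext i; fin_cases i <;> rfl
    _ = ∫⁻ q : ℝ × ℝ × ℝ, G (vec3 q.1 q.2.1 q.2.2) := by
        rw [Measure.volume_eq_prod ℝ (ℝ × ℝ), ← hT.lintegral_comp hm]
        refine lintegral_congr fun x => ?_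
        simp [Fin.tail, Function.comp_def]
    _ = _ := lintegral_prod _ hm.aemeasurable

/-- `G` on the directions, over the unit ball. -/
noncomputable def cone (G : V3 → ℝ≥0∞) : ℝ≥0∞ :=
  ∫⁻ x : V3, (Iic (1 : ℝ)).indicator (fun _ => G (‖x‖⁻¹ • x)) ‖x‖

/-- `∫₀¹ r² dr`. -/
noncomputable def radMass : ℝ≥0∞ :=
  ∫⁻ r : ℝ in Ioi 0, ENNReal.ofReal (r ^ 2) * (Iic (1 : ℝ)).indicator 1 r

lemma radMass_ne : radMass ≠ 0 ∧ radMass ≠ ⊤ := by
  have e : radMass = ENNReal.ofReal (1 / 3) := by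
    have h : (fun r : ℝ => ENNReal.ofReal (r ^ 2) * (Iic (1 : ℝ)).indicator 1 r) =
        (Iic (1 : ℝ)).indicator fun r => ENNReal.ofReal (r ^ 2) := by
      funext r; by_cases hr : r ∈ Iic (1 : ℝ) <;> simp [hr]
    rw [radMass, h, setLIntegral_indicator measurableSet_Iic, Iic_inter_Ioi,
      ← ofReal_integral_eq_lintegral_ofReal, ← intervalIntegral.integral_of_le zero_le_one,
      integral_pow]
    · norm_num
    · exact (continuous_pow 2).integrableOn_Ioc
    · exact Filter.Eventually.of_forall fun r => sq_nonneg r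
  rw [e]
  exact ⟨by simp, ENNReal.ofReal_ne_top⟩

lemma cone_eq {G : V3 → ℝ≥0∞} (hG : Measurable G) :
    cone G = radMass * ∫⁻ ω : sphere (0 : V3) 1, G ω ∂(volume : Measure V3).toSphere := by
  have hmp := (volume : Measure V3).measurePreserving_homeomorphUnitSphereProd
  rw [show Module.finrank ℝ V3 - 1 = 2 by simp] at hmp
  have hh : Measurable fun q : sphere (0 : V3) 1 × Ioi (0 : ℝ) =>
      (Iic (1 : ℝ)).indicator 1 (q.2 : ℝ) * G q.1 :=
    ((measurable_one.indicator measurableSet_Iic).comp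
      (measurable_subtype_coe.comp measurable_snd)).mul
      (hG.comp (measurable_subtype_coe.comp measurable_fst))
  rw [cone]
  conv_lhs =>
    rw [← restrict_compl_singleton (μ := (volume : Measure V3)) 0,
      ← lintegral_subtype_comap (measurableSet_singleton (0 : V3)).compl]
  have e : ∀ x : ({0}ᶜ : Set V3), (Iic (1 : ℝ)).indicator (fun _ => G (‖(x : V3)‖⁻¹ • (x : V3)))
      ‖(x : V3)‖ = (fun q : sphere (0 : V3) 1 × Ioi (0 : ℝ) =>
        (Iic (1 : ℝ)).indicator 1 (q.2 : ℝ) * G q.1) (homeomorphUnitSphereProd V3 x) := by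
    intro x
    by_cases hx : ‖(x : V3)‖ ∈ Iic (1 : ℝ) <;> simp [hx]
  simp only [e]
  rw [hmp.lintegral_comp hh, lintegral_prod _ hh.aemeasurable]
  have hi : Measurable fun r : Ioi (0 : ℝ) => (Iic (1 : ℝ)).indicator (1 : ℝ → ℝ≥0∞) r :=
    (measurable_one.indicator measurableSet_Iic).comp measurable_subtype_coe
  simp only [lintegral_mul_const _ hi]
  rw [lintegral_const_mul _ (show Measurable fun ω : sphere (0 : V3) 1 => G ω from
    hG.comp measurable_subtype_coe)]
  congr 1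
  rw [Measure.volumeIoiPow, lintegral_withDensity_eq_lintegral_mul _ (by fun_prop) hi]
  exact lintegral_subtype_comap measurableSet_Ioi
    fun r : ℝ => ENNReal.ofReal (r ^ 2) * (Iic (1 : ℝ)).indicator 1 r

lemma cone_cyl {G : V3 → ℝ≥0∞} (hG : Measurable G) :
    cone G = radMass * ∫⁻ z in Ioo (-1 : ℝ) 1, ∫⁻ φ in Ioo (-π) π,
      G (vec3 z (√(1 - z ^ 2) * cos φ) (√(1 - z ^ 2) * sin φ)) := by
  set H : ℝ → ℝ≥0∞ := fun z => ∫⁻ φ in Ioo (-π) π,
      G (vec3 z (√(1 - z ^ 2) * cos φ) (√(1 - z ^ 2) * sin φ)) with hH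
  have hHm : Measurable H := Measurable.lintegral_prod_right'
    (f := fun q : ℝ × ℝ => G (vec3 q.1 (√(1 - q.1 ^ 2) * cos q.2) (√(1 - q.1 ^ 2) * sin q.2)))
    (by fun_prop)
  set F : ℝ → ℝ≥0∞ := (Iic (1 : ℝ)).indicator 1 with hF
  have hFm : Measurable F := measurable_one.indicator measurableSet_Iic
  have hm : Measurable fun x : V3 =>
      (Iic (1 : ℝ)).indicator (fun _ => G (‖x‖⁻¹ • x)) ‖x‖ := by
    have : (fun x : V3 => (Iic (1 : ℝ)).indicator (fun _ => G (‖x‖⁻¹ • x)) ‖x‖) =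
        fun x => F ‖x‖ * G (‖x‖⁻¹ • x) := by
      funext x; by_cases hx : ‖x‖ ∈ Iic (1 : ℝ) <;> simp [hF, hx]
    rw [this]; fun_prop
  -- one Cartesian and one polar coordinate
  have e1 : ∀ a : ℝ, (∫⁻ p : ℝ × ℝ, (Iic (1 : ℝ)).indicator
      (fun _ => G (‖vec3 a p.1 p.2‖⁻¹ • vec3 a p.1 p.2)) ‖vec3 a p.1 p.2‖) =
      ∫⁻ q in Ioi |a|, ENNReal.ofReal q * F q * H (a / q) := by
    intro a
    rw [← lintegral_comp_polarCoord_symm, polarCoord_target, Measure.volume_eq_prod,
      ← Measure.prod_restrict]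
    have hs : ∀ ρ φ : ℝ, 0 < ρ →
        ‖vec3 a (ρ * cos φ) (ρ * sin φ)‖ = √(a ^ 2 + ρ ^ 2) := by
      intro ρ φ _
      rw [norm_vec3]; congr 1
      linear_combination (ρ ^ 2) * Real.cos_sq_add_sin_sq φ
    rw [lintegral_prod _ (by
      simp only [smul_eq_mul, polarCoord_symm_apply]
      exact (((measurable_fst.ennreal_ofReal)).mul (hm.comp (by fun_prop))).aemeasurable)]
    have hq : ∀ ρ ∈ Ioi (0 : ℝ), HasDerivWithinAt (fun ρ : ℝ => √(a ^ 2 + ρ ^ 2))
        (ρ / √(a ^ 2 + ρ ^ 2)) (Ioi 0) ρ := by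
      intro ρ hρ
      have : 0 < a ^ 2 + ρ ^ 2 := by have : (0:ℝ) < ρ := hρ; positivity
      refine HasDerivAt.hasDerivWithinAt ?_
      have h := (((hasDerivAt_id ρ).fun_pow 2).const_add (a ^ 2)).sqrt this.ne'
      simp only [id, Nat.cast_ofNat, Nat.add_one_sub_one, pow_one, mul_one] at h
      rw [mul_div_mul_left ρ _ (two_ne_zero' ℝ)] at h
      exact h
    have hinj : InjOn (fun ρ : ℝ => √(a ^ 2 + ρ ^ 2)) (Ioi 0) := by
      intro x hx y hy hxy
      simp only at hxy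
      rw [Real.sqrt_inj (by positivity) (by positivity)] at hxy
      exact (sq_eq_sq₀ hx.out.le hy.out.le).1 (by linarith)
    have him : (fun ρ : ℝ => √(a ^ 2 + ρ ^ 2)) '' Ioi 0 = Ioi |a| := by
      ext q
      constructor
      · rintro ⟨ρ, hρ, rfl⟩
        show |a| < √(a ^ 2 + ρ ^ 2)
        rw [← Real.sqrt_sq_eq_abs]
        exact Real.sqrt_lt_sqrt (sq_nonneg a) (lt_add_of_pos_right _ (pow_pos hρ 2))
      · intro (hq : |a| < q)
        have hq0 : 0 ≤ q := (abs_nonneg a).trans hq.le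
        have h2 : a ^ 2 < q ^ 2 := by
          rw [← sq_abs a]; exact pow_lt_pow_left₀ hq (abs_nonneg a) two_ne_zero
        refine ⟨√(q ^ 2 - a ^ 2), Real.sqrt_pos.2 (by linarith), ?_⟩
        simp only
        rw [Real.sq_sqrt (by linarith), add_sub_cancel, Real.sqrt_sq hq0]
    rw [← him, lintegral_image_eq_lintegral_abs_deriv_mul measurableSet_Ioi hq hinj]
    refine setLIntegral_congr_fun measurableSet_Ioi fun ρ (hρ : 0 < ρ) => ?_
    set q := √(a ^ 2 + ρ ^ 2) with hqd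
    have hqp : 0 < q := Real.sqrt_pos.2 (by positivity)
    have hz : √(1 - (a / q) ^ 2) = ρ / q := by
      rw [Real.sqrt_eq_iff_mul_self_eq_of_pos (by positivity)]
      field_simp
      rw [hqd, Real.sq_sqrt (by positivity)]; ring
    simp only [smul_eq_mul, polarCoord_symm_apply, hs ρ _ hρ, ← hqd, smul_vec3]
    rw [abs_of_pos (div_pos hρ hqp)]
    have : ∀ φ : ℝ, (Iic (1 : ℝ)).indicator
        (fun _ => G (vec3 (q⁻¹ * a) (q⁻¹ * (ρ * cos φ)) (q⁻¹ * (ρ * sin φ)))) q =
        F q * G (vec3 (a / q) (√(1 - (a / q) ^ 2) * cos φ) (√(1 - (a / q) ^ 2) * sin φ)) := by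
      intro φ
      rw [hz]
      by_cases hx : q ∈ Iic (1 : ℝ)
      · simp only [hF, indicator_of_mem hx, Pi.one_apply, one_mul]
        congr 2 <;> ring
      · simp [hF, hx]
    simp only [this]
    rw [lintegral_const_mul _ (by fun_prop), lintegral_const_mul _ (by fun_prop), hH]
    rw [show ENNReal.ofReal ρ = ENNReal.ofReal (ρ / q) * ENNReal.ofReal q by
      rw [← ENNReal.ofReal_mul (by positivity), div_mul_cancel₀ _ hqp.ne']]
    ring
  rw [cone, lintegral_vec3 hm]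
  simp only [e1]
  -- swap, then scale
  have hK : Measurable fun p : ℝ × ℝ =>
      {p : ℝ × ℝ | |p.1| < p.2}.indicator
        (fun p => ENNReal.ofReal p.2 * F p.2 * H (p.1 / p.2)) p :=
    (((measurable_snd.ennreal_ofReal).mul (hFm.comp measurable_snd)).mul
      (hHm.comp (by fun_prop))).indicator
      (measurableSet_lt (by fun_prop) measurable_snd)
  have e2 : ∀ a : ℝ, (∫⁻ q in Ioi |a|, ENNReal.ofReal q * F q * H (a / q)) =
      ∫⁻ q, {p : ℝ × ℝ | |p.1| < p.2}.indicator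
        (fun p => ENNReal.ofReal p.2 * F p.2 * H (p.1 / p.2)) (a, q) := by
    intro a
    rw [← lintegral_indicator measurableSet_Ioi]
    rfl
  simp only [e2]
  have hm2 : Measurable fun r : ℝ => ENNReal.ofReal (r ^ 2) * (Iic (1 : ℝ)).indicator 1 r :=
    (measurable_id.pow_const 2).ennreal_ofReal.mul (measurable_one.indicator measurableSet_Iic)
  rw [lintegral_lintegral_swap hK.aemeasurable,
    radMass, ← lintegral_mul_const _ hm2, ← lintegral_indicator measurableSet_Ioi]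
  refine lintegral_congr fun q => ?_
  have e3 : ∀ a : ℝ, {p : ℝ × ℝ | |p.1| < p.2}.indicator
        (fun p => ENNReal.ofReal p.2 * F p.2 * H (p.1 / p.2)) (a, q) =
      (Ioo (-q) q).indicator (fun a => ENNReal.ofReal q * F q * H (a / q)) a := by
    intro a
    by_cases h : |a| < q
    · rw [indicator_of_mem (show (a, q) ∈ {p : ℝ × ℝ | |p.1| < p.2} from h),
        indicator_of_mem (show a ∈ Ioo (-q) q from abs_lt.1 h)]
    · rw [indicator_of_notMem (show (a, q) ∉ {p : ℝ × ℝ | |p.1| < p.2} from h),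
        indicator_of_notMem (show a ∉ Ioo (-q) q from fun h' => h (abs_lt.2 h'))]
  simp only [e3]
  rw [lintegral_indicator measurableSet_Ioo]
  by_cases hq : 0 < q
  · rw [indicator_of_mem (show q ∈ Ioi (0 : ℝ) from hq)]
    have him : (fun z : ℝ => q * z) '' Ioo (-1) 1 = Ioo (-q) q := by
      ext a
      constructor
      · rintro ⟨z, ⟨h1, h2⟩, rfl⟩
        exact ⟨by nlinarith, by nlinarith⟩
      · rintro ⟨h1, h2⟩
        refine ⟨a / q, ⟨?_, ?_⟩, by field_simp⟩
        · rw [lt_div_iff₀ hq]; linarith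
        · rw [div_lt_iff₀ hq]; linarith
    rw [← him, lintegral_image_eq_lintegral_abs_deriv_mul measurableSet_Ioo
      (f' := fun _ => q) (fun z _ => by
        simpa using ((hasDerivAt_id z).const_mul q).hasDerivWithinAt)
      (fun x _ y _ h => mul_left_cancel₀ hq.ne' h)]
    simp only [abs_of_pos hq, mul_div_cancel_left₀ _ hq.ne']
    rw [lintegral_const_mul _ (by fun_prop), lintegral_const_mul _ hHm,
      ENNReal.ofReal_pow hq.le]
    ring
  · rw [indicator_of_notMem (show q ∉ Ioi (0 : ℝ) from hq),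
      Ioo_eq_empty (by linarith [not_lt.1 hq])]
    simp

/-- The sphere in cylindrical coordinates. -/
theorem lintegral_sphere_cyl {G : V3 → ℝ≥0∞} (hG : Measurable G) :
    ∫⁻ ω : sphere (0 : V3) 1, G ω ∂(volume : Measure V3).toSphere =
      ∫⁻ z in Ioo (-1 : ℝ) 1, ∫⁻ φ in Ioo (-π) π,
        G (vec3 z (√(1 - z ^ 2) * cos φ) (√(1 - z ^ 2) * sin φ)) :=
  (ENNReal.mul_right_inj radMass_ne.1 radMass_ne.2).1 ((cone_eq hG).symm.trans (cone_cyl hG))

/-- The sphere measure is invariant under linear isometries. -/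
theorem lintegral_sphere_map (R : V3 ≃ₗᵢ[ℝ] V3) {G : V3 → ℝ≥0∞} (hG : Measurable G) :
    ∫⁻ ω : sphere (0 : V3) 1, G (R ω) ∂(volume : Measure V3).toSphere =
      ∫⁻ ω : sphere (0 : V3) 1, G ω ∂(volume : Measure V3).toSphere := by
  have hR : Measurable R := R.continuous.measurable
  refine (ENNReal.mul_right_inj radMass_ne.1 radMass_ne.2).1 ?_
  rw [← cone_eq (G := fun x => G (R x)) (hG.comp hR), ← cone_eq hG]
  unfold cone
  have hF : Measurable fun x : V3 =>
      (Iic (1 : ℝ)).indicator (fun _ => G (‖x‖⁻¹ • x)) ‖x‖ := by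
    have : (fun x : V3 => (Iic (1 : ℝ)).indicator (fun _ => G (‖x‖⁻¹ • x)) ‖x‖) =
        fun x => (Iic (1 : ℝ)).indicator (1 : ℝ → ℝ≥0∞) ‖x‖ * G (‖x‖⁻¹ • x) := by
      funext x; by_cases hx : ‖x‖ ∈ Iic (1 : ℝ) <;> simp [hx]
    rw [this]
    exact ((measurable_one.indicator measurableSet_Iic).comp measurable_norm).mul
      (hG.comp (by fun_prop))
  rw [← (R.measurePreserving).lintegral_comp hF]
  simp [map_smul]

end Vale.Agent.P140.Slab
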