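import Vale.Agent.P140.Slab.Pins
import Vale.Agent.P140.Slab.Sphere

/-!
# Angular projection of the collision kernel

`|a| dω` spreads the first component of `a ω` uniformly on an interval of length `|v - u|`, so the
gain along a graph over the first velocity component is an integral over that interval.
-/

open MeasureTheory Real Set Metric
open scoped RealInnerProductSpace ENNReal

namespace Vale.Agent.P140.Slab

open Vale.Agent.P140 Vale.Agent.P140.Renorm

lemma norm_vec3_e : ‖vec3 1 0 0‖ = 1 := by simp [norm_vec3]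

/-- An isometry taking one unit vector to the first basis vector. -/
lemma exists_isometry {e : V3} (he : ‖e‖ = 1) :
    ∃ R : V3 ≃ₗᵢ[ℝ] V3, R e = vec3 1 0 0 :=
  ⟨_, Submodule.reflection_sub (by rw [he, norm_vec3_e])⟩

/-- The law of the component along a unit vector is uniform. -/
lemma lintegral_sphere_inner {c : V3} (hc : ‖c‖ = 1) {Φ : ℝ → ℝ≥0∞} (hΦ : Measurable Φ) :
    ∫⁻ η : S2, Φ ⟪c, (η : V3)⟫ ∂surface =
      ENNReal.ofReal (2 * π) * ∫⁻ w in Ioo (-1 : ℝ) 1, Φ w := by
  obtain ⟨R, hR⟩ := exists_isometry hc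
  have hm : Measurable fun x : V3 => Φ (x 0) := hΦ.comp (by fun_prop)
  have e : ∀ η : V3, ⟪c, η⟫ = R η 0 := by
    intro η
    rw [← R.inner_map_map c η, hR, real_inner_comm, inner_vec3]
    ring
  simp only [e]
  rw [surface, lintegral_sphere_map R hm, lintegral_sphere_cyl hm]
  simp only [vec3_zero, lintegral_const, Measure.restrict_apply_univ, Real.volume_Ioo]
  rw [lintegral_mul_const _ hΦ, mul_comm]
  congr 2
  ring

/-- Only the half sphere with `η 0 > 0` is needed for an even integrand vanishing on the equator. -/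
lemma lintegral_sphere_even {G : V3 → ℝ≥0∞} (hG : Measurable G) (h0 : ∀ x : V3, x 0 = 0 → G x = 0)
    (he : ∀ x, G (-x) = G x) :
    ∫⁻ η : S2, G η ∂surface =
      2 * ∫⁻ z in Ioo (0 : ℝ) 1, ∫⁻ φ in Ioo (-π) π,
        G (vec3 z (√(1 - z ^ 2) * cos φ) (√(1 - z ^ 2) * sin φ)) := by
  set P : Set V3 := {x | 0 < x 0} with hP
  have hPm : MeasurableSet P := measurableSet_lt measurable_const (by fun_prop)
  set G₁ := P.indicator G with hG₁
  have hG₁m : Measurable G₁ := hG.indicator hPm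
  have hsplit : ∀ x : V3, G x = G₁ x + G₁ (-x) := by
    intro x
    rcases lt_trichotomy (x 0) 0 with h | h | h
    · rw [hG₁, indicator_of_notMem (show x ∉ P from h.le.not_gt),
        indicator_of_mem (show -x ∈ P by show 0 < (-x) 0; simpa using h), zero_add, he]
    · simp [hG₁, hP, h, h0 x h]
    · simp [hG₁, hP, h, h.le.not_gt]
  simp only [hsplit]
  rw [surface, lintegral_add_left (f := fun η : S2 => G₁ η) (hG₁m.comp measurable_subtype_coe),
    show (∫⁻ η : S2, G₁ η ∂(volume : Measure V3).toSphere) +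
      (∫⁻ η : S2, G₁ (-(η : V3)) ∂(volume : Measure V3).toSphere) =
      2 * ∫⁻ η : S2, G₁ η ∂(volume : Measure V3).toSphere by
    have := lintegral_sphere_map (LinearIsometryEquiv.neg ℝ) hG₁m
    simp only [LinearIsometryEquiv.coe_neg] at this
    rw [this, two_mul],
    lintegral_sphere_cyl hG₁m]
  congr 1
  rw [← lintegral_indicator measurableSet_Ioo, ← lintegral_indicator measurableSet_Ioo]
  refine lintegral_congr fun z => ?_
  by_cases hz : z ∈ Ioo (0 : ℝ) 1
  · rw [indicator_of_mem (show z ∈ Ioo (-1 : ℝ) 1 from ⟨by linarith [hz.1], hz.2⟩),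
      indicator_of_mem hz]
    refine lintegral_congr fun φ => ?_
    rw [← hsplit, hG₁, indicator_of_mem (show vec3 z (√(1 - z ^ 2) * cos φ)
      (√(1 - z ^ 2) * sin φ) ∈ P from hz.1)]
  · rw [indicator_of_notMem hz]
    by_cases hz' : z ∈ Ioo (-1 : ℝ) 1
    · rw [indicator_of_mem hz']
      have : ∀ φ : ℝ, G₁ (vec3 z (√(1 - z ^ 2) * cos φ) (√(1 - z ^ 2) * sin φ)) = 0 := fun φ =>
        indicator_of_notMem (show vec3 z (√(1 - z ^ 2) * cos φ) (√(1 - z ^ 2) * sin φ) ∉ P from
          fun h => hz ⟨h, hz'.2⟩) _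
      simp [this]
    · rw [indicator_of_notMem hz']

theorem angular_projection : PinProj := by
  intro d Φ hΦ
  rcases eq_or_ne d 0 with rfl | hd
  · simp
  set r := ‖d‖ with hr
  have hr0 : 0 < r := norm_pos_iff.2 hd
  obtain ⟨R, hR⟩ := exists_isometry (e := r⁻¹ • d)
    (by rw [norm_smul, norm_inv, Real.norm_eq_abs, abs_of_pos hr0, ← hr, inv_mul_cancel₀ hr0.ne'])
  have hRd : R d = r • vec3 1 0 0 := by
    rw [← hR, map_smul, smul_smul, mul_inv_cancel₀ hr0.ne', one_smul]
  set c := R (vec3 1 0 0) with hcd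
  have hc : ‖c‖ = 1 := by rw [hcd, R.norm_map, norm_vec3_e]
  have hin : ∀ ω : V3, ⟪d, ω⟫ = r * R ω 0 := by
    intro ω
    rw [← R.inner_map_map d ω, hRd, real_inner_smul_left, real_inner_comm, inner_vec3]
    ring
  have hco : ∀ ω : V3, ω 0 = ⟪c, R ω⟫ := by
    intro ω
    rw [hcd, R.inner_map_map, real_inner_comm, inner_vec3]
    ring
  have hc0 : r * c 0 = d 0 := by
    have h := hin (vec3 1 0 0)
    rw [inner_vec3, ← hcd] at h
    linarith
  set G : V3 → ℝ≥0∞ := fun η => ENNReal.ofReal |r * η 0| * Φ (r * η 0 * ⟪c, η⟫) with hG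
  have hGm : Measurable G :=
    (Measurable.ennreal_ofReal (by fun_prop)).mul (hΦ.comp (by fun_prop))
  have e1 : ∀ ω : V3, ENNReal.ofReal |⟪d, ω⟫| * Φ (⟪d, ω⟫ * ω 0) = G (R ω) := by
    intro ω
    simp only [hG, hin, hco]
  simp only [e1]
  rw [surface, lintegral_sphere_map R hGm, ← surface, lintegral_sphere_even hGm
    (fun x hx => by simp [hG, hx]) (fun x => by simp [hG])]
  -- the double angle
  set Ψ : ℝ → ℝ≥0∞ := fun w => ∫⁻ φ in Ioo (-π) π,
    Φ (r / 2 * (c 0 + ⟪c, vec3 w (√(1 - w ^ 2) * cos φ) (√(1 - w ^ 2) * sin φ)⟫)) with hΨ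
  have hΦ' : Measurable fun x : V3 => Φ (r / 2 * (c 0 + ⟪c, x⟫)) := hΦ.comp (by fun_prop)
  have hΨm : Measurable Ψ := Measurable.lintegral_prod_right'
    (f := fun q : ℝ × ℝ => Φ (r / 2 * (c 0 + ⟪c, vec3 q.1 (√(1 - q.1 ^ 2) * cos q.2)
      (√(1 - q.1 ^ 2) * sin q.2)⟫))) (hΦ'.comp (by fun_prop))
  have e2 : ∀ z ∈ Ioo (0 : ℝ) 1, (∫⁻ φ in Ioo (-π) π,
      G (vec3 z (√(1 - z ^ 2) * cos φ) (√(1 - z ^ 2) * sin φ))) =
      ENNReal.ofReal (r / 4) * (ENNReal.ofReal |4 * z| * Ψ (2 * z ^ 2 - 1)) := by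
    intro z hz
    rw [← mul_assoc, ← ENNReal.ofReal_mul (by positivity), hΨ]
    rw [← lintegral_const_mul _ (show Measurable fun φ : ℝ => Φ (r / 2 * (c 0 + ⟪c,
      vec3 (2 * z ^ 2 - 1) (√(1 - (2 * z ^ 2 - 1) ^ 2) * cos φ)
        (√(1 - (2 * z ^ 2 - 1) ^ 2) * sin φ)⟫)) from
      hΦ'.comp (f := fun φ : ℝ => vec3 (2 * z ^ 2 - 1) (√(1 - (2 * z ^ 2 - 1) ^ 2) * cos φ)
        (√(1 - (2 * z ^ 2 - 1) ^ 2) * sin φ)) (by fun_prop))]
    refine lintegral_congr fun φ => ?_
    have hs : √(1 - (2 * z ^ 2 - 1) ^ 2) = 2 * z * √(1 - z ^ 2) := by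
      rw [show (1 : ℝ) - (2 * z ^ 2 - 1) ^ 2 = (2 * z) ^ 2 * (1 - z ^ 2) by ring,
        Real.sqrt_mul (sq_nonneg _), Real.sqrt_sq (by linarith [hz.1])]
    simp only [hG, inner_vec3, vec3_zero, hs]
    rw [abs_of_pos (mul_pos hr0 hz.1), abs_of_pos (by linarith [hz.1] : (0 : ℝ) < 4 * z)]
    congr 2 <;> ring
  rw [setLIntegral_congr_fun measurableSet_Ioo e2, lintegral_const_mul _ (by fun_prop)]
  have him : (fun z : ℝ => 2 * z ^ 2 - 1) '' Ioo 0 1 = Ioo (-1) 1 := by
    ext w
    constructor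
    · rintro ⟨z, ⟨h1, h2⟩, rfl⟩
      exact ⟨by nlinarith, by nlinarith⟩
    · rintro ⟨h1, h2⟩
      refine ⟨√((w + 1) / 2), ⟨Real.sqrt_pos.2 (by linarith), ?_⟩, ?_⟩
      · rw [Real.sqrt_lt' one_pos]; linarith
      · simp only
        rw [Real.sq_sqrt (by linarith)]; ring
  have hcv := lintegral_image_eq_lintegral_abs_deriv_mul (s := Ioo (0 : ℝ) 1)
    (f := fun z : ℝ => 2 * z ^ 2 - 1) (f' := fun z => 4 * z) measurableSet_Ioo
    (fun z _ => by
      have := ((((hasDerivAt_id z).fun_pow 2).const_mul 2).sub_const 1).hasDerivWithinAt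
        (s := Ioo (0 : ℝ) 1)
      simp only [id, Nat.cast_ofNat, Nat.add_one_sub_one, pow_one, mul_one] at this
      rwa [← mul_assoc, show (2 : ℝ) * 2 = 4 by norm_num] at this)
    (fun x hx y hy h => by
      simp only at h
      exact (sq_eq_sq₀ hx.1.le hy.1.le).1 (by linarith)) Ψ
  rw [him] at hcv
  rw [← hcv, hΨ, ← lintegral_sphere_cyl hΦ', ← surface,
    lintegral_sphere_inner hc (Φ := fun w => Φ (r / 2 * (c 0 + w))) (by fun_prop)]
  -- back to the interval
  have him2 : (fun w : ℝ => r / 2 * (c 0 + w)) '' Ioo (-1) 1 =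
      Ioo (d 0 / 2 - r / 2) (d 0 / 2 + r / 2) := by
    ext s
    constructor
    · rintro ⟨w, ⟨h1, h2⟩, rfl⟩
      exact ⟨by nlinarith, by nlinarith⟩
    · rintro ⟨h1, h2⟩
      refine ⟨2 * s / r - c 0, ⟨?_, ?_⟩, by field_simp; ring⟩
      · rw [lt_sub_iff_add_lt, lt_div_iff₀ hr0]; nlinarith
      · rw [sub_lt_iff_lt_add, div_lt_iff₀ hr0]; nlinarith
  rw [Measure.restrict_congr_set Ioo_ae_eq_Icc.symm, ← him2,
    lintegral_image_eq_lintegral_abs_deriv_mul measurableSet_Ioo (f' := fun _ => r / 2)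
      (fun w _ => by
        simpa using (((hasDerivAt_id w).const_add (c 0)).const_mul (r / 2)).hasDerivWithinAt)
      (fun x _ y _ h => by
        simp only at h
        have := mul_left_cancel₀ (by positivity : r / 2 ≠ 0) h
        linarith)]
  simp only [abs_of_pos (half_pos hr0)]
  rw [lintegral_const_mul _ (by fun_prop), ← mul_assoc, ← mul_assoc, ← mul_assoc]
  congr 1
  rw [show (2 : ℝ≥0∞) = ENNReal.ofReal 2 by simp, ← ENNReal.ofReal_mul (by norm_num),
    ← ENNReal.ofReal_mul (by positivity), ← ENNReal.ofReal_mul (by positivity)]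
  congr 1
  ring

theorem gain_projection : PinGain := by
  intro W K h hW hK hh hle
  set f : V3 → V3 × S2 → ℝ≥0∞ := fun v p => ENNReal.ofReal |impact v p| *
    (W (postV v p) * h (postV v p 0) v * h (postV v p 0) p.1) with hf
  have hfm : Measurable (Function.uncurry f) := by
    simp only [hf]; fun_prop
  have e1 : ∀ v, W v * gain (h (v 0)) (h (v 0)) v =
      ∫⁻ p, f (postV v p) (postW v p, p.2) ∂((volume : Measure V3).prod surface) := by
    intro v
    rw [gain, ← lintegral_const_mul _ (by fun_prop)]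
    refine lintegral_congr fun p => ?_
    simp only [hf, postV_post, impact_post, abs_neg]
    ring
  simp only [e1]
  rw [lintegral_collision hfm]
  set Φ : V3 → V3 → ℝ → ℝ≥0∞ := fun v u s => K s v u * h s v * h s u with hΦ
  have hΦm : Measurable fun q : (V3 × V3) × ℝ => Φ q.1.1 q.1.2 q.2 := by
    simp only [hΦ]
    exact ((hK.comp (f := fun q : (V3 × V3) × ℝ => (q.2, q.1.1, q.1.2)) (by fun_prop)).mul
      (hh.comp (f := fun q : (V3 × V3) × ℝ => (q.2, q.1.1)) (by fun_prop))).mul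
      (hh.comp (f := fun q : (V3 × V3) × ℝ => (q.2, q.1.2)) (by fun_prop))
  have hI : Measurable fun q : (V3 × V3) × ℝ => (hitSet q.1.1 q.1.2).indicator
      (Φ q.1.1 q.1.2) q.2 := by
    have : (fun q : (V3 × V3) × ℝ => (hitSet q.1.1 q.1.2).indicator (Φ q.1.1 q.1.2) q.2) =
        {q : (V3 × V3) × ℝ | (q.1.1 0 + q.1.2 0) / 2 - ‖q.1.1 - q.1.2‖ / 2 ≤ q.2 ∧
          q.2 ≤ (q.1.1 0 + q.1.2 0) / 2 + ‖q.1.1 - q.1.2‖ / 2}.indicator
          (fun q => Φ q.1.1 q.1.2 q.2) := rfl
    rw [this]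
    exact hΦm.indicator
      ((measurableSet_le (by fun_prop) measurable_snd).inter
        (measurableSet_le measurable_snd (by fun_prop)))
  have bound : ∀ v, (∫⁻ p, f v p ∂((volume : Measure V3).prod surface)) ≤
      ENNReal.ofReal (2 * π) * ∫⁻ u, ∫⁻ s, (hitSet v u).indicator (Φ v u) s := by
    intro v
    rw [lintegral_prod _ (by fun_prop), ← lintegral_const_mul _
      (Measurable.lintegral_prod_right'
        (f := fun q : V3 × ℝ => (hitSet v q.1).indicator (Φ v q.1) q.2)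
        (hI.comp (f := fun q : V3 × ℝ => ((v, q.1), q.2)) (by fun_prop)))]
    refine lintegral_mono fun u => ?_
    have hΦ1 : Measurable fun s => Φ v u (v 0 - s) :=
      hΦm.comp (f := fun s : ℝ => ((v, u), v 0 - s)) (by fun_prop)
    calc ∫⁻ ω, f v (u, ω) ∂surface
        ≤ ∫⁻ ω : S2, ENNReal.ofReal |⟪v - u, (ω : V3)⟫| *
            (fun s => Φ v u (v 0 - s)) (⟪v - u, (ω : V3)⟫ * (ω : V3) 0) ∂surface := by
          refine lintegral_mono fun ω => ?_
          have e : postV v (u, ω) 0 = v 0 - ⟪v - u, (ω : V3)⟫ * (ω : V3) 0 := by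
            simp [postV, impact]
          simp only [hf, hΦ]
          rw [← e]
          exact mul_le_mul_right (mul_le_mul_left
            (mul_le_mul_left (hle v (u, ω)) _) _) _
      _ = ENNReal.ofReal (2 * π) * ∫⁻ s, (hitSet v u).indicator (Φ v u) s := by
          rw [angular_projection (v - u) _ hΦ1, ← lintegral_indicator measurableSet_Icc,
            ← (Measure.measurePreserving_sub_left (volume : Measure ℝ) (v 0)).lintegral_comp
              (f := (hitSet v u).indicator (Φ v u))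
              ((hΦm.comp (f := fun s : ℝ => ((v, u), s)) (by fun_prop)).indicator measurableSet_Icc)]
          congr 1
          refine lintegral_congr fun s => ?_
          have : s ∈ Icc ((v - u) 0 / 2 - ‖v - u‖ / 2) ((v - u) 0 / 2 + ‖v - u‖ / 2) ↔
              v 0 - s ∈ hitSet v u := by
            simp only [hitSet, mem_Icc, PiLp.sub_apply]
            constructor <;> intro h <;> constructor <;> linarith [h.1, h.2]
          by_cases hs : v 0 - s ∈ hitSet v u
          · rw [indicator_of_mem (this.2 hs), indicator_of_mem hs]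
          · rw [indicator_of_notMem (fun h => hs (this.1 h)), indicator_of_notMem hs]
  refine (lintegral_mono bound).trans_eq ?_
  rw [lintegral_const_mul' _ _ ENNReal.ofReal_ne_top]
  congr 1
  calc ∫⁻ v, ∫⁻ u, ∫⁻ s, (hitSet v u).indicator (Φ v u) s
      = ∫⁻ v, ∫⁻ s, ∫⁻ u, (hitSet v u).indicator (Φ v u) s := lintegral_congr fun v =>
        lintegral_lintegral_swap (hI.comp (f := fun q : V3 × ℝ => ((v, q.1), q.2))
          (by fun_prop)).aemeasurable
    _ = _ := lintegral_lintegral_swap ((Measurable.lintegral_prod_right'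
        (f := fun q : (V3 × ℝ) × V3 => (hitSet q.1.1 q.2).indicator (Φ q.1.1 q.2) q.1.2)
        (hI.comp (f := fun q : (V3 × ℝ) × V3 => ((q.1.1, q.2), q.1.2)) (by fun_prop))).aemeasurable)

end Vale.Agent.P140.Slab
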