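import Vale.Agent.P140.Slab.LocalIter
import Vale.Agent.P140.Slab.Proj

/-!
# Short-time slab solutions and gluing

The limit of the Picard iterates is kept where the limit majorant is finite and put equal to zero
elsewhere; this set is null along every graph, and no convergence theorem is needed since the
distance to the iterates is below the increments of the majorant.
-/

open MeasureTheory Real Filter Set
open scoped RealInnerProductSpace ENNReal Topology

namespace Vale.Agent.P140.Slab

open Vale.Agent.P140 Vale.Agent.P140.Renorm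

namespace Local

variable {g : Prof} {σ : ℝ}

lemma measurable_graph₂ {U : ℝ → V3 → ℝ≥0∞} (hU : Measurable (Function.uncurry U)) {ξ : ℝ → ℝ}
    (hξ : Measurable ξ) : Measurable fun v : V3 => U (ξ (v 0)) v :=
  hU.comp ((hξ.comp measurable_coord).prodMk measurable_id)

lemma sl_upper {θ θlo : ℝ} (hg : PinGain) (hlo : 0 < θlo) (hθ : θlo ≤ θ)
    (hσ1 : σ ≤ 1) {C R : ℝ≥0∞} (hgm : Measurable (Function.uncurry g))
    (hgs : SliceLE (gw θ 0) C g)
    (hR : C + lam θlo * ENNReal.ofReal (σ ^ (1 / 4 : ℝ)) * (R * R) ≤ R) :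
    ∀ n, ∀ t ∈ Icc 0 σ, Sl (gw θ t) R (upper g σ n t) := by
  intro n
  induction n with
  | zero => intro t _ ξ ψ _ _; simp [upper]
  | succ n ih =>
    intro t ht ξ ψ hξ hψ
    have hU := meas3_upper hgm σ n
    have hζ : Measurable fun a : ℝ => ξ a - t * a := by fun_prop
    have hw : Measurable fun v : V3 => ψ (v 0) * gw θ t v := by fun_prop
    have e : ∀ v : V3, ψ (v 0) * gw θ t v * upper g σ (n + 1) t (ξ (v 0)) v =
        ψ (v 0) * gw θ t v * sl g (ξ (v 0) - t * v 0) v +
          ψ (v 0) * gw θ t v * ∫⁻ s in Ioc 0 t,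
            gainU (upper g σ n) s (ξ (v 0) - t * v 0 + s * v 0) v +
              lossU (upper g σ n) s (ξ (v 0) - t * v 0 + s * v 0) v := by
      intro v
      rw [upper, up, Picard.cut_of_mem ht, lineInt, lineInt, ← lintegral_add_left
        (measurable_line (meas3_gainU hU) _ v), mul_add]
    simp only [e]
    rw [lintegral_add_left (hw.fun_mul
      (measurable_graph₂ (U := sl g) hgm.ennreal_ofReal hζ))]
    calc (∫⁻ v, ψ (v 0) * gw θ t v * sl g (ξ (v 0) - t * v 0) v) +
          ∫⁻ v, ψ (v 0) * gw θ t v * ∫⁻ s in Ioc 0 t,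
            gainU (upper g σ n) s (ξ (v 0) - t * v 0 + s * v 0) v +
              lossU (upper g σ n) s (ξ (v 0) - t * v 0 + s * v 0) v
        ≤ C * (∫⁻ s, ψ s * dec s) +
          lam θlo * ENNReal.ofReal (t ^ (1 / 4 : ℝ)) * (R * R) * ∫⁻ s, ψ s * dec s := by
          refine add_le_add ((lintegral_mono fun v => ?_).trans (hgs _ ψ hζ hψ))
            (line_slice hg hlo hθ ht.1 (ht.2.trans hσ1) hU (meas3_gainU hU) (meas3_lossU hU)
              (fun s hs => ih s ⟨hs.1, hs.2.trans ht.2⟩) hζ hψ)
          exact mul_le_mul' (mul_le_mul' le_rfl (gw_anti (hlo.le.trans hθ) ht.1 v)) le_rfl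
      _ ≤ R * ∫⁻ s, ψ s * dec s := by
          rw [← add_mul]
          refine mul_le_mul' (le_trans (add_le_add le_rfl ?_) hR) le_rfl
          exact mul_le_mul' (mul_le_mul' le_rfl (ENNReal.ofReal_le_ofReal
            (rpow_le_rpow ht.1 ht.2 (by norm_num)))) le_rfl

lemma sl_sup {θ : ℝ} {R : ℝ≥0∞} (hgm : Measurable (Function.uncurry g))
    (h : ∀ n, ∀ t ∈ Icc 0 σ, Sl (gw θ t) R (upper g σ n t)) :
    ∀ t ∈ Icc 0 σ, Sl (gw θ t) R (sup g σ t) := by
  intro t ht ξ ψ hξ hψ
  simp only [sup, ENNReal.mul_iSup]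
  rw [lintegral_iSup]
  · exact iSup_le fun n => h n t ht ξ ψ hξ hψ
  · intro n
    exact ((hψ.comp measurable_coord).mul (measurable_gw θ t)).mul
      (measurable_graph (P := upper g σ n) (meas3_upper hgm σ n) t hξ)
  · exact fun i j hij v => mul_le_mul' le_rfl (monotone_upper g σ hij t _ v)

lemma gap_succ (hgm : Measurable (Function.uncurry g)) :
    ∀ n t, Gap (iterS g σ (n + 1) t) (iterS g σ n t) (upper g σ (n + 1) t) (upper g σ n t) := by
  intro n
  induction n with
  | zero =>
    intro t y v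
    have h : sl (iterS g σ 1 t) y v ≤ upper g σ 1 t y v :=
      sl_stepS_le_up (f := iterS g σ 0) (A := upper g σ 0)
        (fun s y v => by simp [slE, sl, iterS, upper]) t y v
    refine ⟨h, by simp [sl, iterS, upper], zero_le, ?_⟩
    have h0 : 0 ≤ iterS g σ 1 t y v := le_max_left _ _
    have e : ENNReal.ofReal |iterS g σ 1 t y v - iterS g σ 0 t y v| + upper g σ 0 t y v =
        sl (iterS g σ 1 t) y v := by
      simp only [iterS, upper, sl] at h0 ⊢
      rw [sub_zero, add_zero, abs_of_nonneg h0]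
    exact e.trans_le h
  | succ n ih =>
    exact fun t => step_gap σ ih (measurable_iterS hgm σ (n + 1)) (measurable_iterS hgm σ n) t

lemma gap_tail (hgm : Measurable (Function.uncurry g)) (n : ℕ) (t y : ℝ) (v : V3) (k : ℕ) :
    ENNReal.ofReal |iterS g σ (n + k) t y v - iterS g σ n t y v| + upper g σ n t y v ≤
      upper g σ (n + k) t y v := by
  induction k with
  | zero => simp
  | succ k ih =>
    refine (add_le_add ((ENNReal.ofReal_le_ofReal (abs_sub_le _ (iterS g σ (n + k) t y v) _)).trans
      ENNReal.ofReal_add_le) le_rfl).trans ?_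
    rw [add_assoc]
    exact (add_le_add le_rfl ih).trans ((gap_succ hgm (n + k) t) y v).2.2.2

/-- The iterates, put equal to zero where the majorant is infinite. -/
noncomputable def kept (g : Prof) (σ : ℝ) (n : ℕ) (t y : ℝ) (v : V3) : ℝ :=
  if sup g σ t y v = ⊤ then 0 else iterS g σ n t y v

lemma cauchy_kept (hgm : Measurable (Function.uncurry g)) (t y : ℝ) (v : V3) :
    CauchySeq fun n => kept g σ n t y v := by
  by_cases hF : sup g σ t y v = ⊤
  · simp only [kept, if_pos hF]; exact cauchySeq_const 0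
  simp only [kept, if_neg hF]
  set G := fun n => upper g σ n t y v
  have hG : ∀ n, G n ≤ sup g σ t y v := fun n => upper_le_sup g σ n t y v
  have hmono : ∀ n, G n ≤ G (n + 1) := fun n => monotone_upper g σ n.le_succ t y v
  have hsum : Summable fun n => (G (n + 1) - G n).toReal := by
    refine ENNReal.summable_toReal (ne_top_of_le_ne_top hF
      (ENNReal.tsum_le_of_sum_range_le fun N => ?_))
    have e : ∑ k ∈ Finset.range N, (G (k + 1) - G k) = G N := by
      induction N with
      | zero => simp [G, upper]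
      | succ N ih => rw [Finset.sum_range_succ, ih, add_tsub_cancel_of_le (hmono N)]
    rw [e]; exact hG N
  refine cauchySeq_of_dist_le_of_summable _ (fun n => ?_) hsum
  rw [Real.dist_eq, abs_sub_comm]
  exact (ENNReal.ofReal_le_iff_le_toReal
    (ne_top_of_le_ne_top (ne_top_of_le_ne_top hF (hG (n + 1))) tsub_le_self)).1
    (ENNReal.le_sub_of_add_le_right (ne_top_of_le_ne_top hF (hG n))
      ((gap_succ hgm n t) y v).2.2.2)

/-- The Picard limit: a fixed point where the majorant is finite, zero elsewhere. -/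
lemma exists_limit (hgm : Measurable (Function.uncurry g))
    (hper : ∀ x v, g (x + 1) v = g x v) :
    ∃ h : ℝ → Prof, (Measurable fun q : ℝ × ℝ × V3 => h q.1 q.2.1 q.2.2) ∧
      (∀ t y v, 0 ≤ h t y v) ∧ (∀ t y v, h t (y + 1) v = h t y v) ∧
      (∀ t y v, sup g σ t y v = ⊤ → h t y v = 0) ∧ slE h ≤ sup g σ ∧
      (∀ t y v, sup g σ t y v ≠ ⊤ → h t y v = stepS g σ h t y v) := by
  have hUm : Measurable fun q : ℝ × ℝ × V3 => sup g σ q.1 q.2.1 q.2.2 := meas3_sup hgm σ
  choose h hh using fun t y v => cauchySeq_tendsto_of_complete (cauchy_kept (σ := σ) hgm t y v)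
  have hkm : ∀ n, Measurable fun q : ℝ × ℝ × V3 => kept g σ n q.1 q.2.1 q.2.2 := fun n =>
    Measurable.ite (hUm (measurableSet_singleton ⊤)) measurable_const (measurable_iterS hgm σ n)
  have hm : Measurable fun q : ℝ × ℝ × V3 => h q.1 q.2.1 q.2.2 :=
    measurable_of_tendsto_metrizable hkm (tendsto_pi_nhds.2 fun q => hh _ _ _)
  have hnn : ∀ n t y v, 0 ≤ kept g σ n t y v := fun n t y v => by
    unfold kept; split
    · exact le_rfl
    · cases n with
      | zero => simp [iterS]
      | succ n => exact le_max_left _ _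
  have hn0 : ∀ t y v, 0 ≤ h t y v := fun t y v => ge_of_tendsto' (hh t y v) fun n => hnn n t y v
  have hzero : ∀ t y v, sup g σ t y v = ⊤ → h t y v = 0 := fun t y v hF => by
    refine tendsto_nhds_unique (hh t y v) ?_
    simp only [kept, if_pos hF]; exact tendsto_const_nhds
  have hlim : ∀ t y v, sup g σ t y v ≠ ⊤ →
      Tendsto (fun n => iterS g σ n t y v) atTop (𝓝 (h t y v)) := fun t y v hF => by
    simpa only [kept, if_neg hF] using hh t y v
  have hgap : ∀ n s, Gap (h s) (iterS g σ n s) (sup g σ s) (upper g σ n s) := by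
    intro n s y v
    have h4 : ENNReal.ofReal |h s y v - iterS g σ n s y v| + upper g σ n s y v ≤ sup g σ s y v := by
      by_cases hF : sup g σ s y v = ⊤
      · rw [hF]; exact le_top
      refine le_of_tendsto' (Tendsto.add (ENNReal.tendsto_ofReal
        ((((hlim s y v hF).comp (tendsto_atTop_mono (fun k => Nat.le_add_left k n)
          tendsto_id)).sub tendsto_const_nhds).abs)) tendsto_const_nhds) fun k => ?_
      exact (gap_tail hgm n s y v k).trans (upper_le_sup g σ (n + k) s y v)
    refine ⟨?_, ?_, upper_le_sup g σ n s y v, h4⟩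
    · by_cases hF : sup g σ s y v = ⊤
      · rw [hF]; exact le_top
      exact le_of_tendsto' (ENNReal.tendsto_ofReal (hlim s y v hF)) fun n =>
        ((gap_succ hgm n s) y v).2.1.trans (upper_le_sup g σ n s y v)
    · exact ((gap_succ hgm n s) y v).2.1
  refine ⟨h, hm, hn0, fun t y v => ?_, hzero, fun s y v => (hgap 0 s y v).1,
    fun t y v hF => ?_⟩
  · refine tendsto_nhds_unique (hh t (y + 1) v) ?_
    have e : ∀ n, kept g σ n t (y + 1) v = kept g σ n t y v := fun n => by
      simp only [kept]
      rw [periodic_iterS hper, show sup g σ t (y + 1) v = sup g σ t y v from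
        iSup_congr fun m => periodic_upper hper m t y v]
    simpa only [e] using hh t y v
  · set G := fun n => upper g σ n t y v
    have hb : ∀ n, ENNReal.ofReal |h t y v - stepS g σ h t y v| ≤
        (sup g σ t y v - G (n + 1)) + (sup g σ t y v - G (n + 1)) := by
      intro n
      have hGn : G (n + 1) ≠ ⊤ := ne_top_of_le_ne_top hF (upper_le_sup g σ (n + 1) t y v)
      have h1 := ((hgap (n + 1) t) y v).2.2.2
      have h2 := ((step_gap σ (hgap n) hm (measurable_iterS hgm σ n) t) y v).2.2.2.trans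
        (up_sup_le hgm σ t y v)
      refine ((ENNReal.ofReal_le_ofReal (abs_sub_le _ (iterS g σ (n + 1) t y v) _)).trans
        ENNReal.ofReal_add_le).trans (add_le_add (ENNReal.le_sub_of_add_le_right hGn h1)
          (ENNReal.le_sub_of_add_le_right hGn ?_))
      rw [abs_sub_comm]
      exact h2
    have hT : Tendsto (fun n => sup g σ t y v - G n) atTop (𝓝 0) := by
      have h : Tendsto G atTop (𝓝 (sup g σ t y v)) :=
        tendsto_atTop_iSup fun i j hij => monotone_upper g σ hij t y v
      have := ENNReal.Tendsto.sub (tendsto_const_nhds (x := sup g σ t y v)) h (Or.inl hF)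
      rwa [tsub_self] at this
    have h0 : ENNReal.ofReal |h t y v - stepS g σ h t y v| ≤ 0 := by
      refine ge_of_tendsto' (x := atTop) ?_ hb
      simpa using (hT.comp (tendsto_add_atTop_nat 1)).add (hT.comp (tendsto_add_atTop_nat 1))
    rw [nonpos_iff_eq_zero, ENNReal.ofReal_eq_zero] at h0
    exact sub_eq_zero.1 (abs_nonpos_iff.1 h0)

lemma upper_line_mono (hσ : 0 ≤ σ) {t : ℝ} (ht : t ∈ Icc 0 σ) (z : ℝ) (v : V3) (n : ℕ) :
    upper g σ n t (z + t * v 0) v ≤ upper g σ n σ (z + σ * v 0) v := by
  cases n with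
  | zero => exact le_rfl
  | succ n =>
    simp only [upper, up, add_sub_cancel_right, Picard.cut_of_mem ht,
      Picard.cut_of_mem (right_mem_Icc.2 hσ)]
    exact add_le_add le_rfl (add_le_add (lintegral_mono_set (Ioc_subset_Ioc le_rfl ht.2))
      (lintegral_mono_set (Ioc_subset_Ioc le_rfl ht.2)))

lemma mild_line (hσ : 0 ≤ σ) (hgm : Measurable (Function.uncurry g)) (hg0 : ∀ x v, 0 ≤ g x v)
    {h : ℝ → Prof} (hm : Measurable fun q : ℝ × ℝ × V3 => h q.1 q.2.1 q.2.2)
    (hle : slE h ≤ sup g σ) (h0 : ∀ x v, h 0 x v = g x v)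
    (hfix : ∀ t y v, sup g σ t y v ≠ ⊤ → h t y v = stepS g σ h t y v) {z : ℝ} {v : V3}
    (hF : sup g σ σ (z + σ * v 0) v ≠ ⊤) :
    (∫⁻ s in Ioc 0 σ, gs (h s) (z + s * v 0) v + ls (h s) (z + s * v 0) v) ≠ ⊤ ∧
      ∀ t ∈ Icc 0 σ, h t (z + t * v 0) v =
        h 0 z v + ∫ s in (0 : ℝ)..t, qs (h s) (z + s * v 0) v := by
  set P := fun s => gs (h s) (z + s * v 0) v
  set N := fun s => ls (h s) (z + s * v 0) v
  have hP : Measurable P := measurable_line (meas3_gainU (measurable_slE hm)) z v
  have hN : Measurable N := measurable_line (meas3_lossU (measurable_slE hm)) z v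
  have hfin : (∫⁻ s in Ioc 0 σ, P s + N s) ≠ ⊤ := by
    refine ne_top_of_le_ne_top hF (le_trans ?_ (up_sup_le hgm σ σ _ v))
    rw [lintegral_add_left hP, up, Picard.cut_of_mem (right_mem_Icc.2 hσ), add_sub_cancel_right]
    exact le_add_left (add_le_add (lintegral_mono fun s => gainU_mono hle s _ v)
      (lintegral_mono fun s => lossU_mono hle s _ v))
  refine ⟨hfin, ?_⟩
  obtain ⟨hPσ, hNσ⟩ := ENNReal.add_ne_top.1 (lintegral_add_left hP _ ▸ hfin)
  set q := fun s => qs (h s) (z + s * v 0) v
  have hiP : IntegrableOn (fun s => (P s).toReal) (Ioc 0 σ) :=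
    integrable_toReal_of_lintegral_ne_top hP.aemeasurable hPσ
  have hiN : IntegrableOn (fun s => (N s).toReal) (Ioc 0 σ) :=
    integrable_toReal_of_lintegral_ne_top hN.aemeasurable hNσ
  have hii : IntervalIntegrable q volume 0 σ := by
    rw [intervalIntegrable_iff_integrableOn_Ioc_of_le hσ]
    exact hiP.sub hiN
  have hint : ∀ {a b : ℝ}, a ∈ Icc 0 σ → b ∈ Icc 0 σ → IntervalIntegrable q volume a b :=
    fun ha hb => hii.mono_set (by
      rw [uIcc_of_le hσ]; exact uIcc_subset_Icc ha hb)
  set W := fun t => g z v + ∫ s in (0 : ℝ)..t, q s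
  have hval : ∀ t ∈ Icc 0 σ, h t (z + t * v 0) v = max 0 (W t) := by
    intro t ht
    have hFt : sup g σ t (z + t * v 0) v ≠ ⊤ :=
      ne_top_of_le_ne_top hF (iSup_mono fun n => upper_line_mono hσ ht z v n)
    rw [hfix _ _ _ hFt, stepS, Picard.cut_of_mem ht, add_sub_cancel_right]
    have hsub : Ioc 0 t ⊆ Ioc 0 σ := Ioc_subset_Ioc le_rfl ht.2
    have e : ∫ s in (0 : ℝ)..t, q s =
        (∫⁻ s in Ioc 0 t, P s).toReal - (∫⁻ s in Ioc 0 t, N s).toReal := by
      rw [intervalIntegral.integral_of_le ht.1,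
        ← integral_toReal hP.aemeasurable
          (ae_lt_top hP (ne_top_of_le_ne_top hPσ (lintegral_mono_set hsub))),
        ← integral_toReal hN.aemeasurable
          (ae_lt_top hN (ne_top_of_le_ne_top hNσ (lintegral_mono_set hsub)))]
      exact integral_sub (hiP.mono_set hsub) (hiN.mono_set hsub)
    simp only [W, e]
    congr 1
    show g z v + _ - _ = _
    exact (add_sub_assoc _ _ _)
  intro t ht
  rw [hval t ht, h0]
  refine max_eq_right ?_
  by_contra hneg
  push Not at hneg
  have hcont : ContinuousOn W (Icc 0 σ) := by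
    refine continuousOn_const.add ?_
    have hi := intervalIntegral.continuousOn_primitive_interval
      (IntervalIntegrable.def' hii |>.congr_set_ae uIoc_ae_eq_interval.symm)
    rwa [uIcc_of_le hσ] at hi
  set S := Icc 0 t ∩ W ⁻¹' Ici 0
  have hS : IsClosed S := (hcont.mono (Icc_subset_Icc le_rfl ht.2)).preimage_isClosed_of_isClosed
    isClosed_Icc isClosed_Ici
  have h0S : (0 : ℝ) ∈ S := ⟨⟨le_rfl, ht.1⟩, by simpa [W] using hg0 z v⟩
  have hbdd : BddAbove S := ⟨t, fun s hs => hs.1.2⟩
  have hmem := hS.csSup_mem ⟨0, h0S⟩ hbdd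
  set t0 := sSup S
  have hlt : ∀ s ∈ Ioc t0 t, W s < 0 := fun s hs => by
    by_contra hn
    push Not at hn
    have hsS : s ∈ S := ⟨⟨hmem.1.1.trans hs.1.le, hs.2⟩, hn⟩
    linarith [le_csSup hbdd hsS, hs.1]
  have ht0 : t0 ∈ Icc 0 σ := ⟨hmem.1.1, hmem.1.2.trans ht.2⟩
  have hpos : 0 ≤ ∫ s in t0..t, q s := by
    rw [intervalIntegral.integral_of_le hmem.1.2]
    refine setIntegral_nonneg measurableSet_Ioc fun s hs => ?_
    have e : h s (z + s * v 0) v = 0 := by
      rw [hval s ⟨hmem.1.1.trans hs.1.le, hs.2.trans ht.2⟩, max_eq_left (hlt s hs).le]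
    simp [q, qs, ls, sl, e]
  have hsplit := intervalIntegral.integral_add_adjacent_intervals
    (hint ⟨le_rfl, hσ⟩ ht0) (hint ht0 ht)
  have h1 : 0 ≤ W t0 := hmem.2
  simp only [W] at h1 hneg
  linarith

/-- A measure-preserving shear of `(x,v)`. -/
lemma measurePreserving_shear (T : ℝ) :
    MeasurePreserving (fun q : ℝ × V3 => (q.1 + T * q.2 0, q.2)) volume volume := by
  have h : MeasurePreserving (fun p : V3 × ℝ => (p.1, p.2 + T * p.1 0))
      ((volume : Measure V3).prod (volume : Measure ℝ))
      ((volume : Measure V3).prod (volume : Measure ℝ)) :=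
    MeasurePreserving.skew_product (f := id) (g := fun (v : V3) (x : ℝ) => x + T * v 0) (MeasurePreserving.id _)
      (by fun_prop) (Eventually.of_forall fun v =>
        (measurePreserving_add_right (volume : Measure ℝ) (T * v 0)).map_eq)
  have hs := Measure.measurePreserving_swap (μ := (volume : Measure V3))
    (ν := (volume : Measure ℝ))
  have hs' := Measure.measurePreserving_swap (μ := (volume : Measure ℝ))
    (ν := (volume : Measure V3))
  exact (hs.comp h).comp hs'

lemma integrableOn_qs {f : ℝ → Prof} (hf : Measurable fun q : ℝ × ℝ × V3 => f q.1 q.2.1 q.2.2)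
    (z : ℝ) (v : V3) {T : ℝ}
    (hfin : (∫⁻ s in Ioc 0 T, gs (f s) (z + s * v 0) v + ls (f s) (z + s * v 0) v) ≠ ⊤) :
    IntegrableOn (fun s => qs (f s) (z + s * v 0) v) (Ioc 0 T) := by
  have hP : Measurable fun s => gs (f s) (z + s * v 0) v :=
    measurable_line (meas3_gainU (measurable_slE hf)) z v
  have hN : Measurable fun s => ls (f s) (z + s * v 0) v :=
    measurable_line (meas3_lossU (measurable_slE hf)) z v
  obtain ⟨a, b⟩ := ENNReal.add_ne_top.1 (lintegral_add_left hP _ ▸ hfin)
  exact (integrable_toReal_of_lintegral_ne_top hP.aemeasurable a).sub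
    (integrable_toReal_of_lintegral_ne_top hN.aemeasurable b)

lemma shift_lintegral (T b : ℝ) (φ : ℝ → ℝ≥0∞) :
    ∫⁻ s in Ioc T (T + b), φ (s - T) = ∫⁻ s in Ioc 0 b, φ s := by
  have h := (measurePreserving_sub_right (volume : Measure ℝ) T).setLIntegral_comp_preimage_emb
    (MeasurableEquiv.subRight T).measurableEmbedding φ (Ioc 0 b)
  rw [preimage_sub_const_Ioc, zero_add] at h
  rwa [add_comm T b]

end Local

open Local

/-- Short-time solutions, given the gain along a graph. -/
theorem local_existence_of (hg : PinGain) : PinLocal := by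
  intro θlo C hlo hC
  set R := 2 * C + 1
  have hR : R ≠ ⊤ := by simp only [R]; finiteness
  have hRr : 0 < R.toReal :=
    ENNReal.toReal_pos (fun e => by simp [R] at e) hR
  set a := (2 * ((lam θlo).toReal + 1) * R.toReal)⁻¹ with ha
  have ha0 : 0 < a := by positivity
  set σ := min 1 (a ^ 4) with hσdef
  have hσ : 0 < σ := lt_min one_pos (by positivity)
  refine ⟨σ, hσ, fun θ g hθ hgm hg0 hper hgs => ?_⟩
  have hσ4 : σ ^ (1 / 4 : ℝ) ≤ a := by
    calc σ ^ (1 / 4 : ℝ) ≤ (a ^ 4) ^ (1 / 4 : ℝ) :=
          rpow_le_rpow hσ.le (min_le_right _ _) (by norm_num)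
      _ = a := by rw [← rpow_natCast, ← rpow_mul ha0.le]; norm_num
  have hsmall : lam θlo * ENNReal.ofReal (σ ^ (1 / 4 : ℝ)) * R ≤ 1 / 2 := by
    have h : (lam θlo).toReal * σ ^ (1 / 4 : ℝ) * R.toReal ≤ 1 / 2 := by
      have hl := ENNReal.toReal_nonneg (a := lam θlo)
      calc (lam θlo).toReal * σ ^ (1 / 4 : ℝ) * R.toReal
          ≤ ((lam θlo).toReal + 1) * a * R.toReal :=
            mul_le_mul_of_nonneg_right
              (mul_le_mul (by linarith) hσ4 (by positivity) (by positivity)) hRr.le
        _ = 1 / 2 := by rw [ha]; field_simp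
    have h' := ENNReal.ofReal_le_ofReal h
    rwa [ENNReal.ofReal_mul (by positivity), ENNReal.ofReal_mul ENNReal.toReal_nonneg,
      ENNReal.ofReal_toReal (lam_ne_top θlo), ENNReal.ofReal_toReal hR,
      ENNReal.ofReal_div_of_pos two_pos, ENNReal.ofReal_one, ENNReal.ofReal_ofNat] at h'
  have hRR : C + lam θlo * ENNReal.ofReal (σ ^ (1 / 4 : ℝ)) * (R * R) ≤ R := by
    calc C + lam θlo * ENNReal.ofReal (σ ^ (1 / 4 : ℝ)) * (R * R)
        ≤ C + 1 / 2 * R := by
          rw [← mul_assoc]; exact add_le_add le_rfl (mul_le_mul' hsmall le_rfl)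
      _ ≤ R / 2 + R / 2 := by
          refine add_le_add ?_ (le_of_eq (by rw [div_eq_mul_inv, one_mul,
            div_eq_mul_inv, mul_comm]))
          rw [ENNReal.le_div_iff_mul_le (by norm_num) (by norm_num), mul_comm]
          exact le_self_add
      _ = R := ENNReal.add_halves R
  have hb := sl_sup hgm (sl_upper hg hlo hθ (min_le_left _ _) hgm hgs hRR)
  obtain ⟨h, hm, hn, hp, hz, hle, hfix⟩ := exists_limit (σ := σ) hgm hper
  have hc0 : Picard.cut σ 0 = 0 := Picard.cut_of_mem ⟨le_rfl, hσ.le⟩
  have hF0 : ∀ x v, sup g σ 0 x v ≠ ⊤ := fun x v => by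
    refine ne_top_of_le_ne_top ENNReal.ofReal_ne_top (iSup_le (a := sl g x v) fun n => ?_)
    cases n with
    | zero => exact zero_le
    | succ n => simp [upper, up, lineInt, hc0]
  have h0 : ∀ x v, h 0 x v = g x v := fun x v => by
    rw [hfix 0 x v (hF0 x v), stepS, hc0]
    simp [lineInt, max_eq_right (hg0 x v)]
  refine ⟨h, ⟨hm, hn, hp, ⟨R, hR, fun t ht ξ ψ hξ hψ => ?_⟩, fun t ht x v => ?_, ?_⟩,
    fun x v => (h0 x v).le, Eventually.of_forall fun q => h0 q.1 q.2⟩
  · exact (lintegral_mono fun v => mul_le_mul' le_rfl (hle t _ v)).trans (hb t ht ξ ψ hξ hψ)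
  · by_cases hF : sup g σ t x v = ⊤
    · simp [sl, hz t x v hF]
    have e : sl (h t) x v = sl (stepS g σ h t) x v := congrArg ENNReal.ofReal (hfix t x v hF)
    rw [e]
    refine (sl_stepS_le g σ h t x v).trans (le_of_eq ?_)
    simp only [env, min_self, lineInt, Picard.cut_of_mem ht, sl, h0]
    congr 1
    refine lintegral_congr fun s => ?_
    rw [show x - (t - s) * v 0 = x - t * v 0 + s * v 0 by ring]
    rfl
  · have hQ : Measurable fun q : ℝ × V3 => sup g σ σ (q.1 + σ * q.2 0) q.2 :=
      (meas3_sup hgm σ).comp (f := fun q : ℝ × V3 => (σ, q.1 + σ * q.2 0, q.2)) (by fun_prop)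
    have hae : ∀ᵐ q : ℝ × V3, sup g σ σ (q.1 + σ * q.2 0) q.2 ≠ ⊤ := by
      refine (Measure.ae_prod_iff_ae_ae (hQ (measurableSet_singleton ⊤)).compl).2
        (Eventually.of_forall fun z => ?_)
      have hfin : ∫⁻ v, sup g σ σ (z + σ * v 0) v ≠ ⊤ := by
        refine ne_top_of_le_ne_top (ENNReal.mul_ne_top hR D0_ne_top) (le_trans ?_ (le_of_le_of_eq
          (hb σ (right_mem_Icc.2 hσ.le) (fun a => z + σ * a) (fun _ => 1) (by fun_prop)
            measurable_const) (by simp [D0])))
        refine lintegral_mono fun v => ?_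
        rw [one_mul]
        exact le_mul_of_one_le_left' (one_le_gw (hlo.le.trans hθ) v)
      exact (ae_lt_top (hQ.comp measurable_prodMk_left) hfin).mono fun v hv => hv.ne
    filter_upwards [hae] with q hq
    exact mild_line hσ.le hgm hg0 hm hle h0 hfix hq

/-- B. Short-time solutions. -/
theorem local_existence : PinLocal := local_existence_of gain_projection

/-- B. Gluing. -/
theorem glue : PinGlue := by
  intro θ T σ f h hθ hT hσ hf hh h0le h0ae
  set k : ℝ → Prof := fun t x v => if t ≤ T then f t x v else h (t - T) x v with hk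
  have kle : ∀ t ≤ T, k t = f t := fun t ht => funext fun x => funext fun v => if_pos ht
  have kgt : ∀ t, T < t → k t = h (t - T) := fun t ht =>
    funext fun x => funext fun v => if_neg (not_le.2 ht)
  have k0 : k 0 = f 0 := kle 0 hT
  refine ⟨k, ⟨?_, fun t x v => ?_, fun t x v => ?_, ?_, fun t ht x v => ?_, ?_⟩, k0⟩
  · exact Measurable.ite (measurable_fst measurableSet_Iic) hf.measurable
      (hh.measurable.comp ((measurable_fst.sub_const T).prodMk measurable_snd))
  · simp only [hk]; split
    · exact hf.nonneg t x v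
    · exact hh.nonneg _ x v
  · simp only [hk]; split
    · exact hf.periodic t x v
    · exact hh.periodic _ x v
  · obtain ⟨C, hC, hfC⟩ := hf.bounded
    obtain ⟨D, hD, hhD⟩ := hh.bounded
    refine ⟨C + D, ENNReal.add_ne_top.2 ⟨hC, hD⟩, fun t ht ξ ψ hξ hψ => ?_⟩
    rcases le_or_gt t T with htT | htT
    · rw [kle t htT]
      exact (hfC t ⟨ht.1, htT⟩ ξ ψ hξ hψ).trans (mul_le_mul' le_self_add le_rfl)
    · rw [kgt t htT]
      have e : gw (theta θ T) (t - T) = gw θ t := funext fun v => by
        simp only [gw, theta, mul_assoc, ← exp_add, show -T + -(t - T) = -t by ring]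
      have := hhD (t - T) ⟨by linarith, by linarith [ht.2]⟩ ξ ψ hξ hψ
      rw [e] at this
      exact this.trans (mul_le_mul' le_add_self le_rfl)
  · rcases le_or_gt t T with htT | htT
    · rw [kle t htT]
      refine (hf.le_env t ⟨ht.1, htT⟩ x v).trans (le_of_eq ?_)
      simp only [env, min_self, k0]
      congr 1
      refine setLIntegral_congr_fun measurableSet_Ioc fun s hs => ?_
      rw [kle s (hs.2.trans htT)]
    · rw [kgt t htT]
      set τ := t - T with hτ
      have hτm : τ ∈ Icc 0 σ := ⟨by linarith, by linarith [ht.2]⟩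
      calc sl (h τ) x v ≤ env h τ τ x v := hh.le_env τ hτm x v
        _ ≤ sl (f T) (x - τ * v 0) v +
            ∫⁻ s in Ioc 0 τ, gs (h s) (x - (τ - s) * v 0) v := by
          rw [env, min_self]
          exact add_le_add (ENNReal.ofReal_le_ofReal (h0le _ _)) le_rfl
        _ ≤ env f T T (x - τ * v 0) v +
            ∫⁻ s in Ioc 0 τ, gs (h s) (x - (τ - s) * v 0) v :=
          add_le_add (hf.le_env T ⟨hT, le_rfl⟩ _ v) le_rfl
        _ = env k t t x v := by
          rw [env, env, min_self, min_self, k0, add_assoc,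
            show x - τ * v 0 - T * v 0 = x - t * v 0 by rw [hτ]; ring]
          congr 1
          rw [← Ioc_union_Ioc_eq_Ioc hT htT.le,
            lintegral_union measurableSet_Ioc (Ioc_disjoint_Ioc_of_le le_rfl)]
          congr 1
          · refine setLIntegral_congr_fun measurableSet_Ioc fun s hs => ?_
            rw [kle s hs.2,
              show x - τ * v 0 - (T - s) * v 0 = x - (t - s) * v 0 by rw [hτ]; ring]
          · rw [show Ioc T t = Ioc T (T + τ) by rw [hτ, add_sub_cancel],
              ← shift_lintegral T τ fun s => gs (h s) (x - (τ - s) * v 0) v]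
            refine setLIntegral_congr_fun measurableSet_Ioc fun s hs => ?_
            rw [kgt s hs.1, show x - (τ - (s - T)) * v 0 = x - (t - s) * v 0 by rw [hτ]; ring]
  · filter_upwards [hf.mild, (measurePreserving_shear T).quasiMeasurePreserving.ae hh.mild,
      (measurePreserving_shear T).quasiMeasurePreserving.ae h0ae] with q hfq hhq h0q
    obtain ⟨hfi, hfm⟩ := hfq
    obtain ⟨hhi, hhm⟩ := hhq
    set v := q.2
    set z := q.1
    have hline : ∀ s, z + T * v 0 + (s - T) * v 0 = z + s * v 0 := fun s => by ring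
    have e1 : ∫⁻ s in Ioc 0 T, gs (k s) (z + s * v 0) v + ls (k s) (z + s * v 0) v =
        ∫⁻ s in Ioc 0 T, gs (f s) (z + s * v 0) v + ls (f s) (z + s * v 0) v :=
      setLIntegral_congr_fun measurableSet_Ioc fun s hs => by rw [kle s hs.2]
    have e2 : ∫⁻ s in Ioc T (T + σ), gs (k s) (z + s * v 0) v + ls (k s) (z + s * v 0) v =
        ∫⁻ s in Ioc 0 σ,
          gs (h s) (z + T * v 0 + s * v 0) v + ls (h s) (z + T * v 0 + s * v 0) v := by
      rw [← shift_lintegral T σ]
      refine setLIntegral_congr_fun measurableSet_Ioc fun s hs => ?_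
      rw [kgt s hs.1, hline]
    refine ⟨?_, fun t ht => ?_⟩
    · rw [← Ioc_union_Ioc_eq_Ioc hT (show T ≤ T + σ by linarith),
        lintegral_union measurableSet_Ioc (Ioc_disjoint_Ioc_of_le le_rfl), e1, e2]
      exact ENNReal.add_ne_top.2 ⟨hfi, hhi⟩
    · have hA : ∀ b ∈ Icc 0 T, ∫ s in (0 : ℝ)..b, qs (k s) (z + s * v 0) v =
          ∫ s in (0 : ℝ)..b, qs (f s) (z + s * v 0) v := fun b hb =>
        intervalIntegral.integral_congr fun s hs => by
          rw [uIcc_of_le hb.1] at hs
          rw [kle s (hs.2.trans hb.2)]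
      rw [k0]
      rcases le_or_gt t T with htT | htT
      · rw [kle t htT, hA t ⟨ht.1, htT⟩]
        exact hfm t ⟨ht.1, htT⟩
      · have hτm : t - T ∈ Icc 0 σ := ⟨by linarith, by linarith [ht.2]⟩
        have hfI : IntervalIntegrable (fun s => qs (f s) (z + s * v 0) v) volume 0 T :=
          (intervalIntegrable_iff_integrableOn_Ioc_of_le hT).2
            (integrableOn_qs hf.measurable z v hfi)
        have hhI : IntervalIntegrable (fun r => qs (h r) (z + T * v 0 + r * v 0) v) volume 0
            (t - T) :=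
          (intervalIntegrable_iff_integrableOn_Ioc_of_le hτm.1).2
            ((integrableOn_qs hh.measurable _ v hhi).mono_set (Ioc_subset_Ioc le_rfl hτm.2))
        have hB : ∀ s ∈ Ioc T t, qs (k s) (z + s * v 0) v =
            qs (h (s - T)) (z + T * v 0 + (s - T) * v 0) v := fun s hs => by
          rw [kgt s hs.1, hline]
        have hkI1 : IntervalIntegrable (fun s => qs (k s) (z + s * v 0) v) volume 0 T :=
          hfI.congr fun s hs => by
            rw [uIoc_of_le hT] at hs
            rw [kle s hs.2]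
        have hkI2 : IntervalIntegrable (fun s => qs (k s) (z + s * v 0) v) volume T t := by
          have h2 := hhI.comp_sub_right T
          simp only [zero_add, sub_add_cancel] at h2
          refine h2.congr fun s hs => ?_
          rw [uIoc_of_le htT.le] at hs
          exact (hB s hs).symm
        rw [kgt t htT, ← intervalIntegral.integral_add_adjacent_intervals hkI1 hkI2,
          hA T ⟨hT, le_rfl⟩, ← add_assoc, ← hfm T ⟨hT, le_rfl⟩, ← hline t, hhm _ hτm, ← h0q]
        congr 1
        rw [intervalIntegral.integral_congr_ae (g := fun s =>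
            qs (h (s - T)) (z + T * v 0 + (s - T) * v 0) v)
          (Eventually.of_forall fun s hs => hB s (by rwa [uIoc_of_le htT.le] at hs)),
          intervalIntegral.integral_comp_sub_right
            (fun r => qs (h r) (z + T * v 0 + r * v 0) v), sub_self]

end Vale.Agent.P140.Slab
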