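import Vale.Agent.P140.Slab.GainBound
import Vale.Agent.P140.Slab.Local

/-!
# Continuation of slab solutions

A bound on the Gaussian landing envelope bounds the slice norm, so that the lifespan of the short
time solutions is uniform and finitely many glueings reach any time.
-/

open MeasureTheory Real Set Filter
open scoped RealInnerProductSpace ENNReal

namespace Vale.Agent.P140.Slab

open Vale.Agent.P140 Vale.Agent.P140.Renorm

lemma IsSlabSol.restrict {θ T S : ℝ} {f : ℝ → Prof} (h : IsSlabSol θ T f) (hS : S ≤ T) :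
    IsSlabSol θ S f := by
  obtain ⟨C, hC, hb⟩ := h.bounded
  refine ⟨h.measurable, h.nonneg, h.periodic, ⟨C, hC, fun t ht => hb t ⟨ht.1, ht.2.trans hS⟩⟩,
    fun t ht => h.le_env t ⟨ht.1, ht.2.trans hS⟩, ?_⟩
  filter_upwards [h.mild] with q hq
  exact ⟨ne_top_of_le_ne_top hq.1 (lintegral_mono_set (Ioc_subset_Ioc le_rfl hS)),
    fun t ht => hq.2 t ⟨ht.1, ht.2.trans hS⟩⟩

lemma gw_shift (θ a : ℝ) : gw (theta θ a) 0 = gw θ a := funext fun v => by
  simp [gw, theta]

lemma graphC_le {b τ δ : ℝ} (hb : 0 < b) (hτ : 0 < τ) (hδ : b * τ ≤ δ) :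
    graphC δ ≤ ENNReal.ofReal (2 * π) * ENNReal.ofReal (3 * (1 + (b / 2) ^ (-(3 / 4) : ℝ))) *
      (1 + ENNReal.ofReal (τ ^ (-(3 / 4) : ℝ))) := by
  rw [graphC, mul_assoc]
  refine mul_le_mul' le_rfl ?_
  rw [← ENNReal.ofReal_one, ← ENNReal.ofReal_add zero_le_one (rpow_nonneg hτ.le _),
    ← ENNReal.ofReal_mul (by positivity)]
  refine ENNReal.ofReal_le_ofReal ?_
  have h1 : (δ / 2) ^ (-(3 / 4) : ℝ) ≤ (b / 2) ^ (-(3 / 4) : ℝ) * τ ^ (-(3 / 4) : ℝ) := by
    rw [← mul_rpow (by positivity) hτ.le]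
    exact rpow_le_rpow_of_nonpos (by positivity) (by linarith) (by norm_num)
  have h2 := rpow_nonneg hτ.le (-(3 / 4) : ℝ)
  have h3 := rpow_nonneg (half_pos hb).le (-(3 / 4) : ℝ)
  nlinarith

/-- The gain at time `s` seen along a graph at time `T'`. -/
lemma gain_back {θ T T' s : ℝ} (hθ : 0 < θ) {f : ℝ → Prof} (h : IsSlabSol θ T' f)
    (hT' : T' ∈ Icc 0 T) {K : ℝ≥0∞} (hsup : landSup (gw θ) f T T' ≤ K) (hs : 0 < s) (hst : s < T')
    {ξ : ℝ → ℝ} {ψ : ℝ → ℝ≥0∞} (hξ : Measurable ξ) (hψ : Measurable ψ) :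
    ∫⁻ v, ψ (v 0) * gw θ T' v * gs (f s) (ξ (v 0) - (T' - s) * v 0) v ≤
      ENNReal.ofReal (2 * π) * ENNReal.ofReal (3 * (1 + (theta θ T / 2) ^ (-(3 / 4) : ℝ))) *
        (K * K) * (∫⁻ a, ψ a * dec a) * (1 + Local.price θ (T' - s)) := by
  set b := theta θ T with hbdef
  have hb : 0 < b := mul_pos hθ (exp_pos _)
  set δ := theta θ s - theta θ T' with hδdef
  have hδb : b * (T' - s) ≤ δ := by
    have e : δ = θ * exp (-T') * (exp (T' - s) - 1) := by
      have : exp (-s) = exp (-T') * exp (T' - s) := by rw [← exp_add]; congr 1; ring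
      simp only [hδdef, theta, this]; ring
    rw [e, hbdef, theta]
    exact mul_le_mul (mul_le_mul_of_nonneg_left (exp_le_exp.2 (by linarith [hT'.2])) hθ.le)
      (by linarith [add_one_le_exp (T' - s)]) (by linarith) (by positivity)
  have hδ : 0 < δ := lt_of_lt_of_le (mul_pos hb (sub_pos.2 hst)) hδb
  have hZs : ∀ y, mom (gexp (theta θ T' + δ)) (f s) y ≤ K := fun y => by
    rw [show theta θ T' + δ = theta θ s by rw [hδdef]; ring, ← gw_eq]
    exact (mom_le_landSup (W := gw θ) h ⟨hs.le, hst.le⟩ (hst.le.trans hT'.2) hst.le y).trans hsup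
  have hξ' : Measurable fun a : ℝ => ξ a - (T' - s) * a := by fun_prop
  refine (gain_graph_le gain_projection (h.measurable_time s)
    (ρ := theta θ T') (mul_nonneg hθ.le (exp_pos _).le) hδ hZs
    (ξ := fun a => ξ a - (T' - s) * a) hξ' hψ).trans ?_
  have hp : ENNReal.ofReal ((T' - s) ^ (-(3 / 4) : ℝ)) ≤ Local.price θ (T' - s) := by
    refine ENNReal.ofReal_le_ofReal (le_mul_of_one_le_left (rpow_nonneg (by linarith) _) ?_)
    have := Local.speed_pos hθ
    have : 0 ≤ 3 / Local.speed θ := by positivity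
    unfold Local.cA; linarith
  have hC := (graphC_le hb (sub_pos.2 hst) hδb).trans (mul_le_mul' le_rfl (add_le_add le_rfl hp))
  exact (mul_le_mul' (mul_le_mul' (mul_le_mul' hC le_rfl) le_rfl) le_rfl).trans_eq (by ring)

/-- The slice norm at the final time is bounded by the datum and the landing envelope. -/
theorem slice_bound {θ T : ℝ} (hθ : 0 < θ) {C₀ K : ℝ≥0∞} (hC₀ : C₀ ≠ ⊤) (hK : K ≠ ⊤) :
    ∃ C : ℝ≥0∞, C ≠ ⊤ ∧ ∀ (T' : ℝ) (f : ℝ → Prof), T' ∈ Icc 0 T → IsSlabSol θ T' f →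
      SliceLE (gw θ 0) C₀ (f 0) → landSup (gw θ) f T T' ≤ K →
        SliceLE (gw θ T') C (f T') := by
  set b := theta θ T with hbdef
  have hb : 0 < b := mul_pos hθ (exp_pos _)
  set A := ENNReal.ofReal (2 * π) * ENNReal.ofReal (3 * (1 + (b / 2) ^ (-(3 / 4) : ℝ)))
  set J := ENNReal.ofReal T + ENNReal.ofReal (4 * Local.cA θ * T ^ (1 / 4 : ℝ))
  refine ⟨C₀ + A * J * (K * K), by finiteness, fun T' f hT' h h0 hsup ξ ψ hξ hψ => ?_⟩
  set Z := ∫⁻ s, ψ s * dec s
  have hgs := measurable_gs_param h.measurable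
  have hζ : Measurable fun a : ℝ => ξ a - T' * a := by fun_prop
  have hmap : Measurable fun q : V3 × ℝ => (q.2, ξ (q.1 0) - (T' - q.2) * q.1 0, q.1) := by
    have hc : Measurable fun v : V3 => v 0 := Slab.measurable_coord
    exact measurable_snd.prodMk (((hξ.comp (hc.comp measurable_fst)).sub
      ((measurable_const.sub measurable_snd).mul (hc.comp measurable_fst))).prodMk measurable_fst)
  have hw : Measurable fun v : V3 => ψ (v 0) * gw θ T' v :=
    (hψ.comp Slab.measurable_coord).mul (measurable_gexp _)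
  have hG : Measurable fun q : V3 × ℝ => gs (f q.2) (ξ (q.1 0) - (T' - q.2) * q.1 0) q.1 :=
    hgs.comp (f := fun q : V3 × ℝ => (q.2, ξ (q.1 0) - (T' - q.2) * q.1 0, q.1)) hmap
  calc ∫⁻ v, ψ (v 0) * gw θ T' v * sl (f T') (ξ (v 0)) v
      ≤ ∫⁻ v, (ψ (v 0) * gw θ 0 v * sl (f 0) (ξ (v 0) - T' * v 0) v +
          ψ (v 0) * gw θ T' v *
            ∫⁻ s in Ioc 0 T', gs (f s) (ξ (v 0) - (T' - s) * v 0) v) := by
        refine lintegral_mono fun v => ?_
        refine (mul_le_mul' le_rfl (h.le_env T' ⟨hT'.1, le_rfl⟩ (ξ (v 0)) v)).trans ?_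
        rw [env, min_self, mul_add]
        exact add_le_add (mul_le_mul' (mul_le_mul' le_rfl
          (Local.gw_anti hθ.le hT'.1 v)) le_rfl) le_rfl
    _ = (∫⁻ v, ψ (v 0) * gw θ 0 v * sl (f 0) (ξ (v 0) - T' * v 0) v) +
          ∫⁻ s in Ioc 0 T', ∫⁻ v,
            ψ (v 0) * gw θ T' v * gs (f s) (ξ (v 0) - (T' - s) * v 0) v := by
        have hm0 : Measurable fun v : V3 =>
            ψ (v 0) * gw θ 0 v * sl (f 0) (ξ (v 0) - T' * v 0) v :=
          ((hψ.comp Slab.measurable_coord).mul (measurable_gexp _)).mul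
            (Local.measurable_graph₂ (U := sl (f 0)) (measurable_sl (h.measurable_time 0)) hζ)
        rw [lintegral_add_left hm0]
        congr 1
        have hsec : ∀ v : V3,
            Measurable fun s => gs (f s) (ξ (v 0) - (T' - s) * v 0) v := fun v =>
          hG.comp (f := fun s => (v, s)) measurable_prodMk_left
        rw [lintegral_congr fun v => (lintegral_const_mul (ψ (v 0) * gw θ T' v) (hsec v)).symm]
        exact lintegral_lintegral_swap ((hw.comp measurable_fst).mul hG).aemeasurable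
    _ ≤ C₀ * Z + ∫⁻ s in Ioc 0 T', A * (K * K) * Z * (1 + Local.price θ (T' - s)) := by
        refine add_le_add (h0 _ ψ hζ hψ) (lintegral_mono_ae
          ((ae_restrict_iff' measurableSet_Ioc).2 ?_))
        filter_upwards [Measure.ae_ne (volume : Measure ℝ) T'] with s hne hs
        exact gain_back hθ h hT' hsup hs.1 (lt_of_le_of_ne hs.2 hne) hξ hψ
    _ ≤ (C₀ + A * J * (K * K)) * Z := by
        rw [lintegral_const_mul _ (by unfold Local.price; fun_prop),
          lintegral_add_left measurable_const, setLIntegral_const, one_mul, Real.volume_Ioc,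
          Local.time_price hθ hT'.1, sub_zero]
        calc C₀ * Z + A * (K * K) * Z *
              (ENNReal.ofReal T' + ENNReal.ofReal (4 * Local.cA θ * T' ^ (1 / 4 : ℝ)))
            ≤ C₀ * Z + A * (K * K) * Z * J := by
              refine add_le_add le_rfl (mul_le_mul' le_rfl (add_le_add
                (ENNReal.ofReal_le_ofReal hT'.2) (ENNReal.ofReal_le_ofReal ?_)))
              have := Local.cA_pos hθ
              exact mul_le_mul_of_nonneg_left (rpow_le_rpow hT'.1 hT'.2 (by norm_num))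
                (by positivity)
          _ = _ := by ring

/-- An a priori bound on the Gaussian landing envelope gives solutions up to any time. -/
theorem continuation (θ T : ℝ) (g : Prof) (C₀ K : ℝ≥0∞) (hθ : 0 < θ) (hT : 0 ≤ T)
    (hgm : Measurable (Function.uncurry g)) (hg0 : ∀ x v, 0 ≤ g x v)
    (hper : ∀ x v, g (x + 1) v = g x v) (hgs : SliceLE (gw θ 0) C₀ g) (hC₀ : C₀ ≠ ⊤) (hK : K ≠ ⊤)
    (hprior : ∀ T' f, T' ∈ Icc 0 T → IsSlabSol θ T' f → (∀ x v, f 0 x v ≤ g x v) →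
      (∀ᵐ q : ℝ × V3, f 0 q.1 q.2 = g q.1 q.2) → landSup (gw θ) f T T' ≤ K) :
    ∃ f, IsSlabSol θ T f ∧ (∀ x v, f 0 x v ≤ g x v) ∧
      ∀ᵐ q : ℝ × V3, f 0 q.1 q.2 = g q.1 q.2 := by
  obtain ⟨C, hC, hbound⟩ := slice_bound (T := T) hθ hC₀ hK
  obtain ⟨σ, hσ, hloc⟩ := local_existence (theta θ T) (C₀ + C) (mul_pos hθ (exp_pos _))
    (ENNReal.add_ne_top.2 ⟨hC₀, hC⟩)
  obtain ⟨N, hN⟩ := exists_nat_ge (T / σ)
  set step := T / ((N : ℝ) + 1) with hstep
  have hs0 : 0 ≤ step := div_nonneg hT (by positivity)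
  have hsσ : step ≤ σ := by
    rw [hstep, div_le_iff₀ (by positivity)]
    rw [div_le_iff₀ hσ] at hN
    nlinarith
  have hlast : ((N + 1 : ℕ) : ℝ) * step = T := by
    rw [hstep, Nat.cast_add, Nat.cast_one, mul_div_cancel₀ T (by positivity)]
  suffices H : ∀ n : ℕ, n ≤ N + 1 → ∃ f, IsSlabSol θ ((n : ℝ) * step) f ∧
      (∀ x v, f 0 x v ≤ g x v) ∧ ∀ᵐ q : ℝ × V3, f 0 q.1 q.2 = g q.1 q.2 by
    simpa only [hlast] using H (N + 1) le_rfl
  intro n
  induction n with
  | zero =>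
    intro _
    obtain ⟨h, hh, hle, hae⟩ := hloc θ g (mul_le_of_le_one_right hθ.le
      (exp_le_one_iff.2 (by linarith))) hgm hg0 hper
      (fun ξ ψ hξ hψ => (hgs ξ ψ hξ hψ).trans (mul_le_mul' le_self_add le_rfl))
    exact ⟨h, hh.restrict (by simpa using hσ.le), hle, hae⟩
  | succ n ih =>
    intro hn
    obtain ⟨f, hf, hle, hae⟩ := ih (Nat.le_of_succ_le hn)
    set a := (n : ℝ) * step with ha
    have ha0 : 0 ≤ a := by positivity
    have haT : a ≤ T := by
      rw [← hlast]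
      exact mul_le_mul_of_nonneg_right (by exact_mod_cast Nat.le_of_succ_le hn) hs0
    have h0s : SliceLE (gw θ 0) C₀ (f 0) := fun ξ ψ hξ hψ =>
      (lintegral_mono fun v => mul_le_mul' le_rfl
        (ENNReal.ofReal_le_ofReal (hle (ξ (v 0)) v))).trans (hgs ξ ψ hξ hψ)
    have hfa := hbound a f ⟨ha0, haT⟩ hf h0s (hprior a f ⟨ha0, haT⟩ hf hle hae)
    obtain ⟨h, hh, hhle, hhae⟩ := hloc (theta θ a) (f a)
      (mul_le_mul_of_nonneg_left (exp_le_exp.2 (by linarith)) hθ.le) (hf.measurable_time a)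
      (hf.nonneg a) (hf.periodic a) (by
        rw [gw_shift]
        exact fun ξ ψ hξ hψ => (hfa ξ ψ hξ hψ).trans (mul_le_mul' le_add_self le_rfl))
    obtain ⟨k, hk, hk0⟩ := glue θ a step f h hθ ha0 hs0 hf (hh.restrict hsσ) hhle hhae
    refine ⟨k, ?_, by rwa [hk0], by rwa [hk0]⟩
    rwa [show ((n + 1 : ℕ) : ℝ) * step = a + step by rw [ha]; push_cast; ring]

end Vale.Agent.P140.Slab
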