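import Vale.Agent.P140.Slab.Basic

/-!
# Collisions against crossings, dissipation and entropy, at one time

All collisions are counted by those that leave a relative velocity with a comparable first
component; these are crossings up to the dissipation.
-/

open MeasureTheory Real Set
open scoped RealInnerProductSpace ENNReal

namespace Vale.Agent.P140.Slab

open Vale.Agent.P140 Vale.Agent.P140.Renorm

/-- `|v₀ - u₀|`. -/
noncomputable def rel0 (v u : V3) : ℝ≥0∞ := ENNReal.ofReal |v 0 - u 0|

/-- Crossing pairs at `y`. -/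
noncomputable def crossAt (g : Prof) (y : ℝ) : ℝ≥0∞ :=
  ∫⁻ v, ∫⁻ u, rel0 v u * (sl g y v * sl g y u)

lemma measurable_dissDen_pair : Measurable fun q : ℝ × ℝ => dissDen q.1 q.2 := by
  unfold dissDen
  refine Measurable.ite (measurableSet_eq_fun measurable_fst measurable_snd) measurable_const
    (Measurable.ite ?_ measurable_const (by fun_prop))
  exact ((measurableSet_singleton (0 : ℝ)).preimage measurable_fst).union
    ((measurableSet_singleton (0 : ℝ)).preimage measurable_snd)

/-- `a ≤ 2 b` up to the dissipation density. -/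
lemma le_two_add_dissDen {a b : ℝ} (hb : 0 ≤ b) :
    ENNReal.ofReal a ≤ 2 * ENNReal.ofReal b + ENNReal.ofReal (log 2)⁻¹ * dissDen a b := by
  have hl : (0 : ℝ) < log 2 := log_pos one_lt_two
  rcases le_or_gt a (2 * b) with h | h
  · calc ENNReal.ofReal a ≤ ENNReal.ofReal (2 * b) := ENNReal.ofReal_le_ofReal h
      _ = 2 * ENNReal.ofReal b := by
          rw [ENNReal.ofReal_mul two_pos.le, ENNReal.ofReal_ofNat]
      _ ≤ _ := le_self_add
  rcases hb.eq_or_lt with rfl | hb
  · refine le_trans ?_ le_add_self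
    rw [dissDen, if_neg (by linarith), if_pos (Or.inr rfl),
      ENNReal.mul_top (ENNReal.ofReal_pos.2 (inv_pos.2 hl)).ne']
    exact le_top
  rw [dissDen, if_neg (by linarith), if_neg (by rintro (h' | h') <;> linarith),
    ← ENNReal.ofReal_mul (inv_pos.2 hl).le, ← ENNReal.ofReal_ofNat 2,
    ← ENNReal.ofReal_mul two_pos.le, ← ENNReal.ofReal_add (by positivity)]
  · refine ENNReal.ofReal_le_ofReal ?_
    have hlog : log 2 ≤ log (a / b) := log_le_log two_pos (by rw [le_div_iff₀ hb]; linarith)
    have h1 := mul_le_mul_of_nonneg_left hlog (show 0 ≤ a - b by linarith)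
    have h2 : a - b ≤ (log 2)⁻¹ * ((a - b) * log (a / b)) := by
      rw [← div_eq_inv_mul, le_div_iff₀ hl]; exact h1
    linarith
  · exact mul_nonneg (inv_pos.2 hl).le
      (mul_nonneg (by linarith) (log_nonneg (by rw [le_div_iff₀ hb]; linarith)))

/-- The sphere average of `|a|`. -/
lemma sphere_total (hA : PinProj) (d : V3) :
    ∫⁻ ω : S2, ENNReal.ofReal |⟪d, (ω : V3)⟫| ∂surface = ENNReal.ofReal (2 * π * ‖d‖) := by
  have h := hA d (fun _ => 1) measurable_const
  simp only [mul_one, setLIntegral_const, one_mul, Real.volume_Icc] at h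
  rw [h, show d 0 / 2 + ‖d‖ / 2 - (d 0 / 2 - ‖d‖ / 2) = ‖d‖ by ring,
    ← ENNReal.ofReal_mul (by positivity)]

/-- A fixed part of the collisions leaves a comparable first component. -/
lemma sphere_deflect (hA : PinProj) (d : V3) :
    ENNReal.ofReal (π / 4 * ‖d‖ ^ 2) ≤ ∫⁻ ω : S2, ENNReal.ofReal |⟪d, (ω : V3)⟫| *
      ENNReal.ofReal |d 0 - 2 * (⟪d, (ω : V3)⟫ * (ω : V3) 0)| ∂surface := by
  rw [hA d (fun s => ENNReal.ofReal |d 0 - 2 * s|) (by fun_prop)]
  have hh : 0 ≤ ‖d‖ := norm_nonneg d
  calc ENNReal.ofReal (π / 4 * ‖d‖ ^ 2) = ENNReal.ofReal (2 * π) *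
        ∫⁻ _ in Icc (d 0 / 2 + ‖d‖ / 4) (d 0 / 2 + ‖d‖ / 2), ENNReal.ofReal (‖d‖ / 2) := by
        rw [setLIntegral_const, Real.volume_Icc, ← ENNReal.ofReal_mul (by positivity),
          ← ENNReal.ofReal_mul (by positivity)]
        congr 1; ring
    _ ≤ ENNReal.ofReal (2 * π) * ∫⁻ s in Icc (d 0 / 2 + ‖d‖ / 4) (d 0 / 2 + ‖d‖ / 2),
          ENNReal.ofReal |d 0 - 2 * s| :=
        mul_le_mul' le_rfl (setLIntegral_mono' measurableSet_Icc fun s hs =>
          ENNReal.ofReal_le_ofReal (le_trans (by linarith [hs.1]) (neg_le_abs _)))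
    _ ≤ _ := mul_le_mul' le_rfl (lintegral_mono_set (Icc_subset_Icc_left (by linarith)))

/-- The share of the relative velocity in its first component. -/
noncomputable def share (d : V3) : ℝ≥0∞ := ENNReal.ofReal (|d 0| / ‖d‖)

lemma share_le_one (d : V3) : share d ≤ 1 := by
  refine ENNReal.ofReal_le_one.2 (div_le_one_of_le₀ ?_ (norm_nonneg d))
  simpa [Real.norm_eq_abs] using PiLp.norm_apply_le d 0

lemma post_diff (v : V3) (p : V3 × S2) :
    postV v p - postW v p = (v - p.1) - (2 * impact v p) • (p.2 : V3) := by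
  simp only [postV, postW]; module

lemma norm_post_diff (v : V3) (p : V3 × S2) : ‖postV v p - postW v p‖ = ‖v - p.1‖ := by
  have h : ‖postV v p - postW v p‖ ^ 2 = ‖v - p.1‖ ^ 2 := by
    rw [post_diff, norm_sub_sq_real, real_inner_smul_right, norm_smul, norm_omega, mul_one,
      Real.norm_eq_abs, sq_abs, ← show impact v p = ⟪v - p.1, (p.2 : V3)⟫ from rfl]
    ring
  exact (sq_eq_sq₀ (norm_nonneg _) (norm_nonneg _)).1 h

/-- Collisions against those leaving a comparable first component. -/
lemma gain_le_deflect (hA : PinProj) {f : V3 → ℝ≥0∞} (hfm : Measurable f) :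
    ∫⁻ v, gain f f v ≤ 8 * ∫⁻ v, ∫⁻ p : V3 × S2,
      ENNReal.ofReal |impact v p| * share (v - p.1) * (f (postV v p) * f (postW v p))
        ∂((volume : Measure V3).prod surface) := by
  have hsh : Measurable share := by unfold share; fun_prop
  set Φ := fun v (p : V3 × S2) =>
    ENNReal.ofReal |impact v p| * share (v - p.1) * (f (postV v p) * f (postW v p)) with hΦ
  have hΦm : Measurable (Function.uncurry Φ) := by simp only [hΦ]; fun_prop
  rw [← lintegral_collision hΦm, lintegral_gain hfm hfm,
    ← lintegral_const_mul _ (Measurable.lintegral_prod_right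
      (f := fun v (p : V3 × S2) => Φ (postV v p) (postW v p, p.2)) (by simp only [hΦ]; fun_prop))]
  refine lintegral_mono fun v => ?_
  simp only [lossRate, hΦ, impact_post, abs_neg, postV_post, postW_post]
  rw [← lintegral_const_mul _ (by fun_prop), ← lintegral_const_mul _ (by fun_prop),
    lintegral_prod _ (by fun_prop), lintegral_prod _ (by fun_prop)]
  refine lintegral_mono fun u => ?_
  have hl : ∫⁻ ω : S2, f v * (ENNReal.ofReal |impact v (u, ω)| * f u) ∂surface =
      ENNReal.ofReal (2 * π * ‖v - u‖) * (f v * f u) := by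
    rw [← sphere_total hA (v - u), ← lintegral_mul_const _ (by fun_prop)]
    exact lintegral_congr fun ω => by simp only [impact]; ring
  refine hl.trans_le ?_
  rcases (norm_nonneg (v - u)).eq_or_lt with h0 | h0
  · rw [← h0]; simp
  calc ENNReal.ofReal (2 * π * ‖v - u‖) * (f v * f u)
      = ENNReal.ofReal (8 / ‖v - u‖) * (ENNReal.ofReal (π / 4 * ‖v - u‖ ^ 2) * (f v * f u)) := by
        rw [← mul_assoc (ENNReal.ofReal (8 / _)), ← ENNReal.ofReal_mul (by positivity)]
        congr 2; field_simp; ring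
    _ ≤ ENNReal.ofReal (8 / ‖v - u‖) * ((∫⁻ ω : S2, ENNReal.ofReal |⟪v - u, (ω : V3)⟫| *
          ENNReal.ofReal |(v - u) 0 - 2 * (⟪v - u, (ω : V3)⟫ * (ω : V3) 0)| ∂surface) *
          (f v * f u)) := by
        gcongr; exact sphere_deflect hA (v - u)
    _ = _ := by
        rw [← lintegral_mul_const _ (by fun_prop), ← lintegral_const_mul _ (by fun_prop)]
        refine lintegral_congr fun ω => ?_
        have hn' := norm_post_diff v (u, ω)
        have h0' : (postV v (u, ω) - postW v (u, ω)) 0 =
            (v - u) 0 - 2 * (⟪v - u, (ω : V3)⟫ * (ω : V3) 0) := by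
          rw [post_diff]; simp [impact]; ring
        simp only [share, hn', h0', impact]
        rw [ENNReal.ofReal_div_of_pos h0, ENNReal.ofReal_div_of_pos h0, ENNReal.ofReal_ofNat,
          div_eq_mul_inv, div_eq_mul_inv]
        ring

/-- Collisions weighted by the share are crossings. -/
lemma share_eq_cross (hA : PinProj) (g : Prof) (y : ℝ) (hfm : Measurable (sl g y)) :
    ∫⁻ v, ∫⁻ p : V3 × S2, ENNReal.ofReal |impact v p| * share (v - p.1) *
      (sl g y v * sl g y p.1) ∂((volume : Measure V3).prod surface) =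
      ENNReal.ofReal (2 * π) * crossAt g y := by
  have hsh : Measurable share := by unfold share; fun_prop
  set f := sl g y with hf
  rw [crossAt, ← hf, ← lintegral_const_mul' _ _ ENNReal.ofReal_ne_top]
  refine lintegral_congr fun v => ?_
  rw [lintegral_prod _ (by fun_prop), ← lintegral_const_mul' _ _ ENNReal.ofReal_ne_top]
  refine lintegral_congr fun u => ?_
  calc ∫⁻ ω : S2, ENNReal.ofReal |impact v (u, ω)| * share (v - u) * (f v * f u) ∂surface
      = ENNReal.ofReal (2 * π * ‖v - u‖) * (share (v - u) * (f v * f u)) := by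
        rw [← sphere_total hA (v - u), ← lintegral_mul_const _ (by fun_prop)]
        exact lintegral_congr fun ω => by simp only [impact]; ring
    _ = _ := by
        rw [← mul_assoc, ← mul_assoc (ENNReal.ofReal (2 * π))]
        congr 1
        rw [share, rel0, ← ENNReal.ofReal_mul (by positivity), ← ENNReal.ofReal_mul (by positivity)]
        congr 1
        rcases (norm_nonneg (v - u)).eq_or_lt with h0 | h0
        · have hvu : v = u := sub_eq_zero.1 (norm_eq_zero.1 h0.symm)
          simp [hvu]
        · simp only [PiLp.sub_apply]; field_simp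

/-- Pointwise step between a collision and its inverse. -/
lemma deflect_le_pointwise (K S : ℝ≥0∞) (hS : S ≤ 1) {a b c d : ℝ} (ha : 0 ≤ a) (hc : 0 ≤ c)
    (hd : 0 ≤ d) :
    K * S * (ENNReal.ofReal a * ENNReal.ofReal b) ≤
      2 * (K * S * (ENNReal.ofReal c * ENNReal.ofReal d)) +
        ENNReal.ofReal (log 2)⁻¹ * (K * dissDen (a * b) (c * d)) := by
  rw [← ENNReal.ofReal_mul ha, ← ENNReal.ofReal_mul hc]
  refine (mul_le_mul' le_rfl (le_two_add_dissDen (a := a * b) (mul_nonneg hc hd))).trans ?_
  rw [mul_add]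
  refine add_le_add (le_of_eq (by ring)) ?_
  calc _ ≤ K * 1 * (ENNReal.ofReal (log 2)⁻¹ * dissDen (a * b) (c * d)) := by gcongr
    _ = _ := by ring

lemma lintegral2_lin {α β : Type*} [MeasurableSpace α] [MeasurableSpace β] {μ : Measure α}
    {ν : Measure β} [SFinite ν] {X D : α → β → ℝ≥0∞} (hX : Measurable (Function.uncurry X))
    (hD : Measurable (Function.uncurry D)) {a b : ℝ≥0∞} :
    ∫⁻ v, ∫⁻ p, (a * X v p + b * D v p) ∂ν ∂μ =
      a * (∫⁻ v, ∫⁻ p, X v p ∂ν ∂μ) + b * ∫⁻ v, ∫⁻ p, D v p ∂ν ∂μ := by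
  have hX1 : Measurable fun v => ∫⁻ p, X v p ∂ν := hX.lintegral_prod_right
  have hD1 : Measurable fun v => ∫⁻ p, D v p ∂ν := hD.lintegral_prod_right
  rw [← lintegral_const_mul _ hX1, ← lintegral_const_mul _ hD1,
    ← lintegral_add_left (hX1.const_mul _)]
  refine lintegral_congr fun v => ?_
  have hXv : Measurable (X v) := hX.comp measurable_prodMk_left
  have hDv : Measurable (D v) := hD.comp measurable_prodMk_left
  rw [lintegral_add_left (hXv.const_mul _), lintegral_const_mul _ hXv, lintegral_const_mul _ hDv]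

/-- All collisions are bounded by crossings and dissipation. -/
lemma gain_le_cross_diss (hA : PinProj) {g : Prof} (hg : Measurable (Function.uncurry g))
    (hn : ∀ y v, 0 ≤ g y v) (y : ℝ) :
    ∫⁻ v, gain (sl g y) (sl g y) v ≤
      ENNReal.ofReal (32 * π) * crossAt g y + ENNReal.ofReal (8 * (log 2)⁻¹) *
        ∫⁻ v, ∫⁻ p : V3 × S2, ENNReal.ofReal |impact v p| *
          dissDen (g y (postV v p) * g y (postW v p)) (g y v * g y p.1)
          ∂((volume : Measure V3).prod surface) := by
  set P := (volume : Measure V3).prod surface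
  have hfm : Measurable (sl g y) := measurable_sl_at hg y
  have hgy : Measurable (g y) := hg.comp measurable_prodMk_left
  have hsh : Measurable share := by unfold share; fun_prop
  set c := ENNReal.ofReal (log 2)⁻¹ with hc
  set X := fun v (p : V3 × S2) =>
    ENNReal.ofReal |impact v p| * share (v - p.1) * (sl g y v * sl g y p.1)
  set D := fun v (p : V3 × S2) => ENNReal.ofReal |impact v p| *
    dissDen (g y (postV v p) * g y (postW v p)) (g y v * g y p.1)
  have hX : Measurable (Function.uncurry X) := by fun_prop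
  have hD : Measurable (Function.uncurry D) :=
    (by fun_prop : Measurable fun q : V3 × V3 × S2 => ENNReal.ofReal |impact q.1 q.2|).mul
      (measurable_dissDen_pair.comp (((hgy.comp measurable_postV).mul (hgy.comp measurable_postW)).prodMk
        ((hgy.comp measurable_fst).mul (hgy.comp measurable_snd.fst))))
  have hpt : ∀ v (p : V3 × S2), ENNReal.ofReal |impact v p| * share (v - p.1) *
      (sl g y (postV v p) * sl g y (postW v p)) ≤ 2 * X v p + c * D v p := fun v p =>
    deflect_le_pointwise (ENNReal.ofReal |impact v p|) (share (v - p.1)) (share_le_one _)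
      (a := g y (postV v p)) (b := g y (postW v p)) (c := g y v) (d := g y p.1)
      (hn y _) (hn y _) (hn y _)
  calc ∫⁻ v, gain (sl g y) (sl g y) v
      ≤ 8 * ∫⁻ v, ∫⁻ p, ENNReal.ofReal |impact v p| * share (v - p.1) *
          (sl g y (postV v p) * sl g y (postW v p)) ∂P := gain_le_deflect hA hfm
    _ ≤ 8 * ∫⁻ v, ∫⁻ p, (2 * X v p + c * D v p) ∂P :=
        mul_le_mul' le_rfl (lintegral_mono fun v => lintegral_mono fun p => hpt v p)
    _ = 8 * (2 * (∫⁻ v, ∫⁻ p, X v p ∂P) + c * ∫⁻ v, ∫⁻ p, D v p ∂P) := by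
        rw [lintegral2_lin hX hD]
    _ = _ := by
        rw [share_eq_cross hA g y hfm]
        have e1 : (8 : ℝ≥0∞) * (2 * ENNReal.ofReal (2 * π)) = ENNReal.ofReal (32 * π) := by
          have e8 : ENNReal.ofReal (8 * (2 * (2 * π))) = 8 * (2 * ENNReal.ofReal (2 * π)) := by
            simp only [ENNReal.ofReal_mul, Nat.ofNat_nonneg, ENNReal.ofReal_ofNat]
          rw [← e8]; congr 1; ring
        have e2 : (8 : ℝ≥0∞) * c = ENNReal.ofReal (8 * (log 2)⁻¹) := by
          rw [ENNReal.ofReal_mul (by norm_num), ENNReal.ofReal_ofNat]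
        rw [mul_add, ← e1, ← e2]
        ring

/-- Entropy against concentration. -/
lemma le_maxwellian_add_entropy {a M n : ℝ} (ha : 0 ≤ a) (hM : 0 < M) (hn : 0 < n) :
    ENNReal.ofReal a ≤ ENNReal.ofReal (exp n) * ENNReal.ofReal M +
      ENNReal.ofReal n⁻¹ * (ENNReal.ofReal (a * log (a / M) - a + M) + ENNReal.ofReal a) := by
  rcases le_or_gt a (exp n * M) with h | h
  · exact ((ENNReal.ofReal_le_ofReal h).trans_eq (ENNReal.ofReal_mul (exp_pos n).le)).trans
      le_self_add
  have hk := kl_nonneg ha hM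
  refine le_trans ?_ le_add_self
  rw [← ENNReal.ofReal_add hk ha, ← ENNReal.ofReal_mul (inv_pos.2 hn).le]
  refine ENNReal.ofReal_le_ofReal ?_
  have hq : exp n < a / M := by rwa [lt_div_iff₀ hM]
  have hlog : n ≤ log (a / M) := by
    rw [← log_exp n]; exact log_le_log (exp_pos n) hq.le
  rw [← div_eq_inv_mul, le_div_iff₀ hn]
  linarith [mul_le_mul_of_nonneg_left hlog ha]

end Vale.Agent.P140.Slab
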