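import Vale.Agent.P140.Slab.CountTools
import Vale.Agent.P140.Slab.CountDiss

/-!
# The collision count up to a time

Crossings are averaged over the time a pair needs to cross a short window, so they cost the mass in
that window, which the entropy makes small, times mass, first moment and the number of collisions.
-/

open MeasureTheory Real Set
open scoped RealInnerProductSpace ENNReal

namespace Vale.Agent.P140.Slab

open Vale.Agent.P140 Vale.Agent.P140.Renorm CountTools

/-- A profile in time, as a function into `ℝ≥0∞`. -/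
noncomputable def dens (f : ℝ → Prof) (s x : ℝ) (v : V3) : ℝ≥0∞ := sl (f s) x v

/-- The weight against which a crossing is charged. -/
noncomputable def charge (L : ℝ) (f : ℝ → Prof) (s x : ℝ) (v : V3) : ℝ≥0∞ :=
  ENNReal.ofReal (|v 0| / L) * dens f s x v + gs (f s) x v

/-- The line starting at `(x,v)` carries the mild equation. -/
def MildLine (T : ℝ) (f : ℝ → Prof) (q : ℝ × V3) : Prop :=
  (∫⁻ s in Ioc 0 T, gs (f s) (q.1 + s * q.2 0) q.2 + ls (f s) (q.1 + s * q.2 0) q.2) ≠ ⊤ ∧
    ∀ t ∈ Icc 0 T, f t (q.1 + t * q.2 0) q.2 =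
      f 0 q.1 q.2 + ∫ s in (0 : ℝ)..t, qs (f s) (q.1 + s * q.2 0) q.2

section

variable {θ T : ℝ} {f : ℝ → Prof}

lemma measurable_dens (hf : IsSlabSol θ T f) :
    Measurable fun q : ℝ × ℝ × V3 => dens f q.1 q.2.1 q.2.2 :=
  hf.measurable.ennreal_ofReal

lemma measurable_gs_time (hf : IsSlabSol θ T f) :
    Measurable fun q : ℝ × ℝ × V3 => gs (f q.1) q.2.1 q.2.2 :=
  measurable_gs_param hf.measurable

lemma measurable_ls_time (hf : IsSlabSol θ T f) :
    Measurable fun q : ℝ × ℝ × V3 => ls (f q.1) q.2.1 q.2.2 :=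
  measurable_ls_param hf.measurable

lemma measurable_charge (hf : IsSlabSol θ T f) (L : ℝ) :
    Measurable fun q : ℝ × ℝ × V3 => charge L f q.1 q.2.1 q.2.2 :=
  (((by fun_prop : Measurable fun q : ℝ × ℝ × V3 => ENNReal.ofReal (|q.2.2 0| / L))).mul
    (measurable_dens hf)).add (measurable_gs_time hf)

lemma dens_periodic (hf : IsSlabSol θ T f) (s x : ℝ) (v : V3) :
    dens f s (x + 1) v = dens f s x v := by
  simp only [dens, sl, hf.periodic]

lemma charge_periodic (hf : IsSlabSol θ T f) (L s x : ℝ) (v : V3) :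
    charge L f s (x + 1) v = charge L f s x v := by
  have : sl (f s) (x + 1) = sl (f s) x := funext fun w => by simp only [sl, hf.periodic]
  simp only [charge, dens, gs, this]

lemma dens_comp {α : Type*} [MeasurableSpace α] (hf : IsSlabSol θ T f) {a b : α → ℝ} {c : α → V3}
    (ha : Measurable a) (hb : Measurable b) (hc : Measurable c) :
    Measurable fun i => dens f (a i) (b i) (c i) :=
  Measurable.comp (g := fun q : ℝ × ℝ × V3 => dens f q.1 q.2.1 q.2.2)
    (f := fun i => (a i, b i, c i)) (measurable_dens hf) (ha.prodMk (hb.prodMk hc))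

lemma gs_comp {α : Type*} [MeasurableSpace α] (hf : IsSlabSol θ T f) {a b : α → ℝ} {c : α → V3}
    (ha : Measurable a) (hb : Measurable b) (hc : Measurable c) :
    Measurable fun i => gs (f (a i)) (b i) (c i) :=
  Measurable.comp (g := fun q : ℝ × ℝ × V3 => gs (f q.1) q.2.1 q.2.2)
    (f := fun i => (a i, b i, c i)) (measurable_gs_time hf) (ha.prodMk (hb.prodMk hc))

lemma ls_comp {α : Type*} [MeasurableSpace α] (hf : IsSlabSol θ T f) {a b : α → ℝ} {c : α → V3}
    (ha : Measurable a) (hb : Measurable b) (hc : Measurable c) :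
    Measurable fun i => ls (f (a i)) (b i) (c i) :=
  Measurable.comp (g := fun q : ℝ × ℝ × V3 => ls (f q.1) q.2.1 q.2.2)
    (f := fun i => (a i, b i, c i)) (measurable_ls_time hf) (ha.prodMk (hb.prodMk hc))

lemma charge_comp {α : Type*} [MeasurableSpace α] (hf : IsSlabSol θ T f) (L : ℝ) {a b : α → ℝ}
    {c : α → V3} (ha : Measurable a) (hb : Measurable b) (hc : Measurable c) :
    Measurable fun i => charge L f (a i) (b i) (c i) :=
  Measurable.comp (g := fun q : ℝ × ℝ × V3 => charge L f q.1 q.2.1 q.2.2)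
    (f := fun i => (a i, b i, c i)) (measurable_charge hf L) (ha.prodMk (hb.prodMk hc))

/-- The primitive form of the mild equation along a good line. -/
lemma line_eq (hf : IsSlabSol θ T f) {w : V3} {y t : ℝ}
    (hw : MildLine T f (y - t * w 0, w)) :
    IntegrableOn (fun s => qs (f s) (y - (t - s) * w 0) w) (Ioc 0 T) ∧
    ∀ s ∈ Icc 0 T, f s (y - (t - s) * w 0) w =
      f 0 (y - (t - 0) * w 0) w + ∫ r in (0 : ℝ)..s, qs (f r) (y - (t - r) * w 0) w := by
  obtain ⟨hfin, hval⟩ := hw
  have hpos : ∀ s : ℝ, y - t * w 0 + s * w 0 = y - (t - s) * w 0 := fun s => by ring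
  simp only [hpos] at hfin hval
  have hm : Measurable fun s : ℝ => y - (t - s) * w 0 := by fun_prop
  have hg : Measurable fun s => gs (f s) (y - (t - s) * w 0) w :=
    gs_comp hf measurable_id hm measurable_const
  have hl : Measurable fun s => ls (f s) (y - (t - s) * w 0) w :=
    ls_comp hf measurable_id hm measurable_const
  refine ⟨?_, fun s hs => by rw [sub_zero]; exact hval s hs⟩
  rw [lintegral_add_left hg] at hfin
  obtain ⟨f1, f2⟩ := ENNReal.add_ne_top.1 hfin
  exact (integrable_toReal_of_lintegral_ne_top hg.aemeasurable f1).sub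
    (integrable_toReal_of_lintegral_ne_top hl.aemeasurable f2)

lemma ofReal_qs_le (g : Prof) (y : ℝ) (v : V3) : ENNReal.ofReal (qs g y v) ≤ gs g y v :=
  (ENNReal.ofReal_le_ofReal (sub_le_self _ ENNReal.toReal_nonneg)).trans ENNReal.ofReal_toReal_le

/-- Along two good lines the product grows at most by the gains. -/
lemma pair_growth (hf : IsSlabSol θ T f) {v u : V3} {y t a b : ℝ}
    (h1 : MildLine T f (y - t * v 0, v)) (h2 : MildLine T f (y - t * u 0, u))
    (ha : 0 ≤ a) (hab : a ≤ b) (hb : b ≤ T) :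
    dens f b (y - (t - b) * v 0) v * dens f b (y - (t - b) * u 0) u ≤
      dens f a (y - (t - a) * v 0) v * dens f a (y - (t - a) * u 0) u +
      ∫⁻ s in Ioc a b, (gs (f s) (y - (t - s) * v 0) v * dens f s (y - (t - s) * u 0) u +
        gs (f s) (y - (t - s) * u 0) u * dens f s (y - (t - s) * v 0) v) := by
  obtain ⟨i1, e1⟩ := line_eq hf h1
  obtain ⟨i2, e2⟩ := line_eq hf h2
  have h := prod_primitive_le (G := fun s => f s (y - (t - s) * v 0) v)
    (G' := fun s => f s (y - (t - s) * u 0) u)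
    (P := fun s => gs (f s) (y - (t - s) * v 0) v) (P' := fun s => gs (f s) (y - (t - s) * u 0) u)
    i1 i2 e1 e2 (fun s _ => hf.nonneg _ _ _) (fun s _ => hf.nonneg _ _ _)
    (fun s => ofReal_qs_le _ _ _) (fun s => ofReal_qs_le _ _ _) ha hab hb
  simp only [ENNReal.ofReal_mul (hf.nonneg _ _ _)] at h
  simpa only [dens, sl] using h

/-- Along two good lines the product stays below its average over one crossing time. -/
lemma pair_pointwise (hf : IsSlabSol θ T f) {v u : V3} {y t L : ℝ} (hL : 0 < L)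
    (hne : v 0 ≠ u 0) (ht : t ∈ Ioc 0 T) (h1 : MildLine T f (y - t * v 0, v))
    (h2 : MildLine T f (y - t * u 0, u)) :
    rel0 v u * (dens f t y v * dens f t y u) ≤
      (Iic (L / |v 0 - u 0|)).indicator (fun t =>
        rel0 v u * (dens f 0 (y - t * v 0) v * dens f 0 (y - t * u 0) u)) t +
      ∫⁻ s in Ioc (max 0 (t - L / |v 0 - u 0|)) t,
        (rel0 v u * (charge L f s (y - (t - s) * v 0) v * dens f s (y - (t - s) * u 0) u) +
          rel0 v u * (charge L f s (y - (t - s) * u 0) u * dens f s (y - (t - s) * v 0) v)) := by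
  set r := |v 0 - u 0| with hr'
  have hr : 0 < r := abs_pos.2 (sub_ne_zero.2 hne)
  set φ := fun s => dens f s (y - (t - s) * v 0) v * dens f s (y - (t - s) * u 0) u with hφ
  have hm : ∀ w : V3, Measurable fun s : ℝ => y - (t - s) * w 0 := fun w => by fun_prop
  have hφm : Measurable φ := by
    rw [hφ]
    exact (dens_comp hf measurable_id (hm v) measurable_const).mul
      (dens_comp hf measurable_id (hm u) measurable_const)
  have hav := value_le_average (τ := L / r) (φ := φ) (by positivity) hφm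
    (fun a b ha hab hb => pair_growth hf h1 h2 ha hab hb) ht.1.le ht.2
  have hφt : φ t = dens f t y v * dens f t y u := by simp [hφ]
  rw [← hφt]
  refine (mul_le_mul' le_rfl hav).trans ?_
  rw [mul_add]
  refine add_le_add (le_of_eq ?_) ?_
  · by_cases h : t ∈ Iic (L / r)
    · rw [indicator_of_mem h, indicator_of_mem h]; simp [hφ]
    · rw [indicator_of_notMem h, indicator_of_notMem h, mul_zero]
  · rw [rel0, ← lintegral_const_mul' _ _ ENNReal.ofReal_ne_top]
    refine lintegral_mono fun s => ?_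
    rw [← mul_add, inv_div]
    refine mul_le_mul' le_rfl ?_
    have hrate : ENNReal.ofReal (r / L) ≤
        ENNReal.ofReal (|v 0| / L) + ENNReal.ofReal (|u 0| / L) := by
      rw [← ENNReal.ofReal_add (by positivity) (by positivity), ← add_div]
      exact ENNReal.ofReal_le_ofReal (div_le_div_of_nonneg_right (abs_sub _ _) hL.le)
    refine (add_le_add (mul_le_mul' hrate le_rfl) le_rfl).trans (le_of_eq ?_)
    simp only [charge, hφ]
    ring

/-- The initial part of the crossings of two fixed velocities. -/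
lemma pair_initial_le (hf : IsSlabSol θ T f) {v u : V3} {L : ℝ} (hL : 0 ≤ L)
    (hne : v 0 ≠ u 0) :
    ∫⁻ t in Ioc 0 T, ∫⁻ y in Ioc (0 : ℝ) 1, (Iic (L / |v 0 - u 0|)).indicator (fun t =>
        rel0 v u * (dens f 0 (y - t * v 0) v * dens f 0 (y - t * u 0) u)) t ≤
      ∫⁻ x in Ioc (0 : ℝ) 1, dens f 0 x v * ∫⁻ z in Icc (-L) L, dens f 0 (x + z) u := by
  refine le_trans ?_ (crossing_window (A := fun x => dens f 0 x v) (B := fun x => dens f 0 x u)
    (dens_comp hf measurable_const measurable_id measurable_const)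
    (dens_comp hf measurable_const measurable_id measurable_const)
    (fun x => dens_periodic hf 0 x v) (fun x => dens_periodic hf 0 x u) hne hL)
  rw [← lintegral_indicator measurableSet_Ioc, ← lintegral_indicator measurableSet_Icc]
  refine lintegral_mono fun t => ?_
  by_cases ht : t ∈ Ioc 0 T
  · rw [indicator_of_mem ht]
    by_cases hτt : t ∈ Iic (L / |v 0 - u 0|)
    · rw [indicator_of_mem (show t ∈ Icc 0 (L / |v 0 - u 0|) from ⟨ht.1.le, hτt⟩),
        ← lintegral_const_mul' _ _ ENNReal.ofReal_ne_top]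
      simp only [indicator_of_mem hτt]
      exact le_rfl
    · simp only [indicator_of_notMem hτt, lintegral_zero]
      exact zero_le
  · rw [indicator_of_notMem ht]; exact zero_le

/-- The history part of the crossings of two fixed velocities. -/
noncomputable def hist (L : ℝ) (f : ℝ → Prof) (v u : V3) (t y : ℝ) : ℝ≥0∞ :=
  ∫⁻ s in Ioc (max 0 (t - L / |v 0 - u 0|)) t,
    rel0 v u * (charge L f s (y - (t - s) * v 0) v * dens f s (y - (t - s) * u 0) u)

lemma measurable_hist (hf : IsSlabSol θ T f) (L : ℝ) (v u : V3) :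
    Measurable (Function.uncurry (hist L f v u)) := by
  have hpos : ∀ w : V3, Measurable fun r : (ℝ × ℝ) × ℝ => r.1.2 - (r.1.1 - r.2) * w 0 :=
    fun w => by fun_prop
  set S := {r : (ℝ × ℝ) × ℝ | r.2 ∈ Ioc (max 0 (r.1.1 - L / |v 0 - u 0|)) r.1.1}
  have hS : MeasurableSet S :=
    (measurableSet_lt (by fun_prop) measurable_snd).inter
      (measurableSet_le measurable_snd (by fun_prop))
  have h := Measurable.lintegral_prod_right' (ν := (volume : Measure ℝ))
    (f := S.indicator fun r : (ℝ × ℝ) × ℝ => rel0 v u *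
      (charge L f r.2 (r.1.2 - (r.1.1 - r.2) * v 0) v *
        dens f r.2 (r.1.2 - (r.1.1 - r.2) * u 0) u))
    (((charge_comp hf L measurable_snd (hpos v) measurable_const).mul
      (dens_comp hf measurable_snd (hpos u) measurable_const)).const_mul _ |>.indicator hS)
  have e : Function.uncurry (hist L f v u) = fun q : ℝ × ℝ => ∫⁻ s, S.indicator
      (fun r : (ℝ × ℝ) × ℝ => rel0 v u * (charge L f r.2 (r.1.2 - (r.1.1 - r.2) * v 0) v *
        dens f r.2 (r.1.2 - (r.1.1 - r.2) * u 0) u)) (q, s) := by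
    funext q
    simp only [Function.uncurry, hist, ← lintegral_indicator measurableSet_Ioc]
    exact lintegral_congr fun s => by simp [indicator, S]
  rw [e]; exact h

lemma hist_le (hf : IsSlabSol θ T f) {v u : V3} {L : ℝ} (hL : 0 ≤ L) (hne : v 0 ≠ u 0) :
    ∫⁻ t in Ioc 0 T, ∫⁻ y in Ioc (0 : ℝ) 1, hist L f v u t y ≤
      ∫⁻ s in Ioc 0 T, ∫⁻ x in Ioc (0 : ℝ) 1,
        charge L f s x v * ∫⁻ z in Icc (-L) L, dens f s (x + z) u :=
  crossing_history (A := fun s x => charge L f s x v) (B := fun s x => dens f s x u)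
    (charge_comp hf L measurable_fst measurable_snd measurable_const)
    (dens_comp hf measurable_fst measurable_snd measurable_const)
    (fun s x => charge_periodic hf L s x v) (fun s x => dens_periodic hf s x u) hne hL

/-- The crossings of two fixed velocities. -/
lemma pair_le (hf : IsSlabSol θ T f) {v u : V3} {L : ℝ} (hL : 0 < L)
    (hv : ∀ᵐ x : ℝ, MildLine T f (x, v)) (hu : ∀ᵐ x : ℝ, MildLine T f (x, u)) :
    ∫⁻ t in Ioc 0 T, ∫⁻ y in Ioc (0 : ℝ) 1, rel0 v u * (dens f t y v * dens f t y u) ≤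
      (∫⁻ x in Ioc (0 : ℝ) 1, dens f 0 x v * ∫⁻ z in Icc (-L) L, dens f 0 (x + z) u) +
      ((∫⁻ s in Ioc 0 T, ∫⁻ x in Ioc (0 : ℝ) 1,
          charge L f s x v * ∫⁻ z in Icc (-L) L, dens f s (x + z) u) +
        ∫⁻ s in Ioc 0 T, ∫⁻ x in Ioc (0 : ℝ) 1,
          charge L f s x u * ∫⁻ z in Icc (-L) L, dens f s (x + z) v) := by
  by_cases hne : v 0 = u 0
  · simp [rel0, hne]
  set Z := fun t y : ℝ => (Iic (L / |v 0 - u 0|)).indicator (fun t =>
    rel0 v u * (dens f 0 (y - t * v 0) v * dens f 0 (y - t * u 0) u)) t with hZ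
  have hZm : Measurable (Function.uncurry Z) := by
    have hm : ∀ w : V3, Measurable fun q : ℝ × ℝ => q.2 - q.1 * w 0 := fun w => by fun_prop
    simp only [hZ, indicator]
    exact Measurable.ite (measurableSet_Iic.preimage measurable_fst)
      (((dens_comp hf measurable_const (hm v) measurable_const).mul
        (dens_comp hf measurable_const (hm u) measurable_const)).const_mul _) measurable_const
  have h1m := measurable_hist hf L v u
  have hsym : rel0 u v = rel0 v u := by rw [rel0, rel0, abs_sub_comm]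
  have hpt : ∀ t ∈ Ioc 0 T, ∀ᵐ y ∂(volume.restrict (Ioc (0 : ℝ) 1)),
      rel0 v u * (dens f t y v * dens f t y u) ≤
        Z t y + (hist L f v u t y + hist L f u v t y) := by
    intro t ht
    have e : ∀ c : ℝ, Measure.QuasiMeasurePreserving (fun y : ℝ => y - c) volume volume :=
      fun c => (measurePreserving_sub_right volume c).quasiMeasurePreserving
    refine ae_restrict_of_ae ?_
    filter_upwards [(e (t * v 0)).ae hv, (e (t * u 0)).ae hu] with y hy1 hy2
    refine (pair_pointwise hf hL hne ht hy1 hy2).trans (add_le_add le_rfl (le_of_eq ?_))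
    have hm : ∀ w : V3, Measurable fun s : ℝ => y - (t - s) * w 0 := fun w => by fun_prop
    have hsm : Measurable fun s : ℝ => rel0 v u *
        (charge L f s (y - (t - s) * v 0) v * dens f s (y - (t - s) * u 0) u) :=
      ((charge_comp hf L measurable_id' (hm v) measurable_const).mul
        (dens_comp hf measurable_id' (hm u) measurable_const)).const_mul _
    rw [lintegral_add_left hsm]
    simp only [hist, hsym, abs_sub_comm (u 0) (v 0)]
  calc ∫⁻ t in Ioc 0 T, ∫⁻ y in Ioc (0 : ℝ) 1, rel0 v u * (dens f t y v * dens f t y u)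
      ≤ ∫⁻ t in Ioc 0 T, ((∫⁻ y in Ioc (0 : ℝ) 1, Z t y) +
          ((∫⁻ y in Ioc (0 : ℝ) 1, hist L f v u t y) +
            ∫⁻ y in Ioc (0 : ℝ) 1, hist L f u v t y)) := by
        refine setLIntegral_mono' measurableSet_Ioc fun t ht => ?_
        refine (lintegral_mono_ae (hpt t ht)).trans (le_of_eq ?_)
        have z1 : Measurable (Z t) := hZm.comp measurable_prodMk_left
        have z2 : Measurable (hist L f v u t) := h1m.comp measurable_prodMk_left
        rw [lintegral_add_left z1, lintegral_add_left z2]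
    _ = (∫⁻ t in Ioc 0 T, ∫⁻ y in Ioc (0 : ℝ) 1, Z t y) +
          ((∫⁻ t in Ioc 0 T, ∫⁻ y in Ioc (0 : ℝ) 1, hist L f v u t y) +
            ∫⁻ t in Ioc 0 T, ∫⁻ y in Ioc (0 : ℝ) 1, hist L f u v t y) := by
        rw [lintegral_add_left hZm.lintegral_prod_right, lintegral_add_left h1m.lintegral_prod_right]
    _ ≤ _ := add_le_add (pair_initial_le hf hL.le hne)
        (add_le_add (hist_le hf hL.le hne) (hist_le hf hL.le (Ne.symm hne)))

lemma ae_good_velocity (hf : IsSlabSol θ T f) :
    ∀ᵐ v : V3, ∀ᵐ x : ℝ, MildLine T f (x, v) := by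
  have h : ∀ᵐ q : V3 × ℝ, MildLine T f (q.2, q.1) :=
    (Measure.measurePreserving_swap (μ := (volume : Measure V3))
      (ν := (volume : Measure ℝ))).quasiMeasurePreserving.ae hf.mild
  exact Measure.ae_ae_of_ae_prod h

/-- Velocity integrals of a pair whose second member has a small integral. -/
lemma collect_le {α : Type*} [MeasurableSpace α] {μ : Measure α} [SFinite μ]
    {A B : α → V3 → ℝ≥0∞} (hA : Measurable (Function.uncurry A))
    (hB : Measurable (Function.uncurry B)) {m : ℝ≥0∞} (hm : ∀ᵐ a ∂μ, ∫⁻ u, B a u ≤ m) :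
    ∫⁻ v, ∫⁻ u, ∫⁻ a, A a v * B a u ∂μ ≤ m * ∫⁻ a, ∫⁻ v, A a v ∂volume ∂μ :=
  calc ∫⁻ v, ∫⁻ u, ∫⁻ a, A a v * B a u ∂μ = ∫⁻ v, ∫⁻ a, ∫⁻ u, A a v * B a u ∂volume ∂μ := by
        refine lintegral_congr fun v => lintegral_lintegral_swap ?_
        exact ((hA.comp (measurable_snd.prodMk measurable_const)).mul
          (hB.comp (measurable_snd.prodMk measurable_fst))).aemeasurable
    _ ≤ ∫⁻ v, ∫⁻ a, m * A a v ∂μ := by
        refine lintegral_mono fun v => lintegral_mono_ae (hm.mono fun a ha => ?_)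
        have hBa : Measurable (B a) := hB.comp measurable_prodMk_left
        rw [lintegral_const_mul _ hBa, mul_comm m]
        exact mul_le_mul' le_rfl ha
    _ = m * ∫⁻ v, ∫⁻ a, A a v ∂μ := by
        rw [← lintegral_const_mul _ (Measurable.lintegral_prod_left hA)]
        exact lintegral_congr fun v =>
          lintegral_const_mul _ (hA.comp (measurable_id.prodMk measurable_const))
    _ = _ := by
        congr 1
        exact (lintegral_lintegral_swap hA.aemeasurable).symm

/-- The mass in a window around `x`. -/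
noncomputable def win (L : ℝ) (f : ℝ → Prof) (s x : ℝ) (u : V3) : ℝ≥0∞ :=
  ∫⁻ z in Icc (-L) L, dens f s (x + z) u

/-- Time and space up to `T`. -/
noncomputable def spaceTime (T : ℝ) : Measure (ℝ × ℝ) :=
  ((volume : Measure ℝ).restrict (Ioc 0 T)).prod ((volume : Measure ℝ).restrict (Ioc (0 : ℝ) 1))

instance (T : ℝ) : SFinite (spaceTime T) := by unfold spaceTime; infer_instance

/-- The initial cost of a pair of velocities. -/
noncomputable def initW (L : ℝ) (f : ℝ → Prof) (v u : V3) : ℝ≥0∞ :=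
  ∫⁻ x in Ioc (0 : ℝ) 1, dens f 0 x v * win L f 0 x u

/-- The cost of the history of a pair of velocities. -/
noncomputable def histW (L T : ℝ) (f : ℝ → Prof) (v u : V3) : ℝ≥0∞ :=
  ∫⁻ a, (charge L f a.1 a.2 v * win L f a.1 a.2 u) ∂spaceTime T

lemma win_comp {α : Type*} [MeasurableSpace α] (hf : IsSlabSol θ T f) (L : ℝ) {a b : α → ℝ}
    {c : α → V3} (ha : Measurable a) (hb : Measurable b) (hc : Measurable c) :
    Measurable fun i => win L f (a i) (b i) (c i) := by
  have h : Measurable fun r : α × ℝ => dens f (a r.1) (b r.1 + r.2) (c r.1) :=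
    dens_comp hf (ha.comp measurable_fst) ((hb.comp measurable_fst).add measurable_snd)
      (hc.comp measurable_fst)
  exact h.lintegral_prod_right'

lemma measurable_initW (hf : IsSlabSol θ T f) (L : ℝ) :
    Measurable fun r : V3 × V3 => initW L f r.1 r.2 := by
  have h : Measurable fun r : (V3 × V3) × ℝ => dens f 0 r.2 r.1.1 * win L f 0 r.2 r.1.2 :=
    (dens_comp hf measurable_const measurable_snd measurable_fst.fst).mul
      (win_comp hf L measurable_const measurable_snd measurable_fst.snd)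
  exact h.lintegral_prod_right'

lemma measurable_histW (hf : IsSlabSol θ T f) (L : ℝ) :
    Measurable fun r : V3 × V3 => histW L T f r.1 r.2 := by
  have h : Measurable fun r : (V3 × V3) × ℝ × ℝ =>
      charge L f r.2.1 r.2.2 r.1.1 * win L f r.2.1 r.2.2 r.1.2 :=
    (charge_comp hf L measurable_snd.fst measurable_snd.snd measurable_fst.fst).mul
      (win_comp hf L measurable_snd.fst measurable_snd.snd measurable_fst.snd)
  exact h.lintegral_prod_right'

lemma histW_eq (hf : IsSlabSol θ T f) (L : ℝ) (v u : V3) :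
    histW L T f v u = ∫⁻ s in Ioc 0 T, ∫⁻ x in Ioc (0 : ℝ) 1,
      charge L f s x v * win L f s x u := by
  have h : Measurable fun a : ℝ × ℝ => charge L f a.1 a.2 v * win L f a.1 a.2 u :=
    (charge_comp hf L measurable_fst measurable_snd measurable_const).mul
      (win_comp hf L measurable_fst measurable_snd measurable_const)
  rw [histW, spaceTime, lintegral_prod _ h.aemeasurable]

/-- All crossings, pair of velocities by pair of velocities. -/
lemma cross_eq (hf : IsSlabSol θ T f) :
    ∫⁻ t in Ioc 0 T, ∫⁻ y in Ioc (0 : ℝ) 1, crossAt (f t) y =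
      ∫⁻ v, ∫⁻ u, ∫⁻ a, rel0 v u * (dens f a.1 a.2 v * dens f a.1 a.2 u) ∂spaceTime T := by
  set Φ := fun (a : ℝ × ℝ) (v u : V3) => rel0 v u * (dens f a.1 a.2 v * dens f a.1 a.2 u) with hΦ
  have hΦ3 : Measurable fun r : ((ℝ × ℝ) × V3) × V3 => Φ r.1.1 r.1.2 r.2 := by
    simp only [hΦ, rel0]
    exact (by fun_prop : Measurable fun r : ((ℝ × ℝ) × V3) × V3 =>
      ENNReal.ofReal |r.1.2 0 - r.2 0|).mul
      ((dens_comp hf measurable_fst.fst.fst measurable_fst.fst.snd measurable_fst.snd).mul
        (dens_comp hf measurable_fst.fst.fst measurable_fst.fst.snd measurable_snd))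
  have hΦ2 : Measurable fun r : (ℝ × ℝ) × V3 => ∫⁻ u, Φ r.1 r.2 u := hΦ3.lintegral_prod_right'
  have hΦ1 : Measurable fun a : ℝ × ℝ => ∫⁻ v, ∫⁻ u, Φ a v u := hΦ2.lintegral_prod_right'
  have hΦv : ∀ v, Measurable fun r : (ℝ × ℝ) × V3 => Φ r.1 v r.2 := fun v => by
    simp only [hΦ, rel0]
    exact (by fun_prop : Measurable fun r : (ℝ × ℝ) × V3 => ENNReal.ofReal |v 0 - r.2 0|).mul
      ((dens_comp hf measurable_fst.fst measurable_fst.snd measurable_const).mul
        (dens_comp hf measurable_fst.fst measurable_fst.snd measurable_snd))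
  calc ∫⁻ t in Ioc 0 T, ∫⁻ y in Ioc (0 : ℝ) 1, crossAt (f t) y
      = ∫⁻ a, ∫⁻ v, ∫⁻ u, Φ a v u ∂volume ∂volume ∂spaceTime T := by
        rw [spaceTime, lintegral_prod _ hΦ1.aemeasurable]
        rfl
    _ = _ := by
        rw [lintegral_lintegral_swap (f := fun a v => ∫⁻ u, Φ a v u) hΦ2.aemeasurable]
        exact lintegral_congr fun v =>
          lintegral_lintegral_swap (f := fun a u => Φ a v u) (hΦv v).aemeasurable

lemma lintegral2_mono_good {G : V3 → Prop} (hG : ∀ᵐ v : V3, G v) {Φ Ψ : V3 → V3 → ℝ≥0∞}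
    (h : ∀ v u, G v → G u → Φ v u ≤ Ψ v u) : ∫⁻ v, ∫⁻ u, Φ v u ≤ ∫⁻ v, ∫⁻ u, Ψ v u :=
  lintegral_mono_ae (hG.mono fun v hv => lintegral_mono_ae (hG.mono fun u hu => h v u hv hu))

lemma pair_le_W (hf : IsSlabSol θ T f) {L : ℝ} (hL : 0 < L) (v u : V3)
    (hv : ∀ᵐ x : ℝ, MildLine T f (x, v)) (hu : ∀ᵐ x : ℝ, MildLine T f (x, u)) :
    ∫⁻ a, rel0 v u * (dens f a.1 a.2 v * dens f a.1 a.2 u) ∂spaceTime T ≤
      initW L f v u + (histW L T f v u + histW L T f u v) := by
  have hΦa : Measurable fun a : ℝ × ℝ => rel0 v u * (dens f a.1 a.2 v * dens f a.1 a.2 u) :=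
    ((dens_comp hf measurable_fst measurable_snd measurable_const).mul
      (dens_comp hf measurable_fst measurable_snd measurable_const)).const_mul _
  rw [histW_eq hf, histW_eq hf, spaceTime, lintegral_prod _ hΦa.aemeasurable]
  exact pair_le hf hL hv hu

lemma lintegral2_add3 {α : Type*} [MeasurableSpace α] {μ : Measure α} [SFinite μ]
    {W H : α → α → ℝ≥0∞} (hW : Measurable fun r : α × α => W r.1 r.2)
    (hH : Measurable fun r : α × α => H r.1 r.2) :
    ∫⁻ v, ∫⁻ u, (W v u + (H v u + H u v)) ∂μ ∂μ =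
      (∫⁻ v, ∫⁻ u, W v u ∂μ ∂μ) + 2 * ∫⁻ v, ∫⁻ u, H v u ∂μ ∂μ := by
  have hs : ∫⁻ v, ∫⁻ u, H u v ∂μ ∂μ = ∫⁻ v, ∫⁻ u, H v u ∂μ ∂μ :=
    (lintegral_lintegral_swap (f := fun v u => H v u) hH.aemeasurable).symm
  have h1 : ∀ v, ∫⁻ u, (W v u + (H v u + H u v)) ∂μ =
      (∫⁻ u, W v u ∂μ) + ((∫⁻ u, H v u ∂μ) + ∫⁻ u, H u v ∂μ) := fun v => by
    have a0 : Measurable fun u => W v u := hW.comp measurable_prodMk_left
    have a1 : Measurable fun u => H v u := hH.comp measurable_prodMk_left
    rw [lintegral_add_left a0, lintegral_add_left a1]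
  have b0 : Measurable fun v => ∫⁻ u, W v u ∂μ := hW.lintegral_prod_right'
  have b1 : Measurable fun v => ∫⁻ u, H v u ∂μ := hH.lintegral_prod_right'
  simp only [h1]
  rw [lintegral_add_left b0, lintegral_add_left b1, hs, two_mul]

lemma cross_le_W (hf : IsSlabSol θ T f) {L : ℝ} (hL : 0 < L) :
    ∫⁻ v, ∫⁻ u, ∫⁻ a, rel0 v u * (dens f a.1 a.2 v * dens f a.1 a.2 u) ∂spaceTime T ≤
      (∫⁻ v, ∫⁻ u, initW L f v u) + 2 * ∫⁻ v, ∫⁻ u, histW L T f v u :=
  (lintegral2_mono_good (G := fun v => ∀ᵐ x : ℝ, MildLine T f (x, v))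
    (Φ := fun v u => ∫⁻ a, rel0 v u * (dens f a.1 a.2 v * dens f a.1 a.2 u) ∂spaceTime T)
    (Ψ := fun v u => initW L f v u + (histW L T f v u + histW L T f u v)) (ae_good_velocity hf)
    fun v u => pair_le_W hf hL v u).trans_eq
    (lintegral2_add3 (W := fun v u => initW L f v u) (H := fun v u => histW L T f v u)
      (measurable_initW hf L) (measurable_histW hf L))

/-- Crossings up to a time against the mass in a window. -/
lemma cross_le (hf : IsSlabSol θ T f) {L : ℝ} (hL : 0 < L) (hT : 0 ≤ T) {m : ℝ≥0∞}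
    (hm : ∀ s ∈ Icc 0 T, ∀ x, ∫⁻ u, ∫⁻ z in Icc (-L) L, dens f s (x + z) u ≤ m) :
    ∫⁻ t in Ioc 0 T, ∫⁻ y in Ioc (0 : ℝ) 1, crossAt (f t) y ≤
      m * ((∫⁻ x in Ioc (0 : ℝ) 1, ∫⁻ v, dens f 0 x v) +
        2 * ∫⁻ s in Ioc 0 T, ∫⁻ x in Ioc (0 : ℝ) 1, ∫⁻ v, charge L f s x v) := by
  have hI : ∫⁻ v, ∫⁻ u, initW L f v u ≤ m * ∫⁻ x in Ioc (0 : ℝ) 1, ∫⁻ v, dens f 0 x v :=
    collect_le (A := fun x v => dens f 0 x v) (B := fun x u => win L f 0 x u)
      (dens_comp hf measurable_const measurable_fst measurable_snd)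
      (win_comp hf L measurable_const measurable_fst measurable_snd)
      (Filter.Eventually.of_forall fun x => hm 0 ⟨le_rfl, hT⟩ x)
  have hH : ∫⁻ v, ∫⁻ u, histW L T f v u ≤
      m * ∫⁻ a : ℝ × ℝ, ∫⁻ v, charge L f a.1 a.2 v ∂volume ∂spaceTime T := by
    refine collect_le (A := fun (a : ℝ × ℝ) v => charge L f a.1 a.2 v)
      (B := fun (a : ℝ × ℝ) u => win L f a.1 a.2 u)
      (charge_comp hf L measurable_fst.fst measurable_fst.snd measurable_snd)
      (win_comp hf L measurable_fst.fst measurable_fst.snd measurable_snd) ?_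
    refine (Measure.quasiMeasurePreserving_fst.ae
      (ae_restrict_mem (measurableSet_Ioc (a := (0 : ℝ)) (b := T)))).mono fun a ha => ?_
    exact hm a.1 (Ioc_subset_Icc_self ha) a.2
  have hc : Measurable fun a : ℝ × ℝ => ∫⁻ v, charge L f a.1 a.2 v :=
    (charge_comp hf L measurable_fst.fst measurable_fst.snd measurable_snd :
      Measurable fun r : (ℝ × ℝ) × V3 => charge L f r.1.1 r.1.2 r.2).lintegral_prod_right'
  have he : ∫⁻ a : ℝ × ℝ, ∫⁻ v, charge L f a.1 a.2 v ∂volume ∂spaceTime T =
      ∫⁻ s in Ioc 0 T, ∫⁻ x in Ioc (0 : ℝ) 1, ∫⁻ v, charge L f s x v := by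
    rw [spaceTime, lintegral_prod _ hc.aemeasurable]
  rw [cross_eq hf]
  refine (cross_le_W hf hL).trans ((add_le_add hI (mul_le_mul' le_rfl hH)).trans (le_of_eq ?_))
  rw [he]
  ring

lemma dec_finite : (∫⁻ s, dec s) ≠ ⊤ := by
  have h := integrable_one_add_norm (E := ℝ) (μ := volume) (r := 3 / 2) (by norm_num)
  refine (lt_of_eq_of_lt (lintegral_congr fun s => ?_) h.lintegral_lt_top).ne
  rw [dec, Real.norm_eq_abs]

lemma nrate_count_finite (hθ : 0 < θ) (hf : IsSlabSol θ T f) :
    (∫⁻ t in Ioc 0 T, nrate (f t)) ≠ ⊤ := by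
  obtain ⟨C, hC, hCb⟩ := hf.bounded
  set D := ∫⁻ s, dec s with hD
  set a := theta θ T with ha
  have ha0 : 0 < a := by rw [ha, theta]; positivity
  set c := ENNReal.ofReal (2 + 1 / a) * (C * D) with hc
  have hct : c ≠ ⊤ :=
    ENNReal.mul_ne_top ENNReal.ofReal_ne_top (ENNReal.mul_ne_top hC dec_finite)
  have hgain : ∀ t ∈ Ioc 0 T, ∀ y, ∫⁻ v, gs (f t) y v ≤ surface univ * c * c := by
    intro t ht y
    set F := sl (f t) y with hF
    have hFm : Measurable F :=
      dens_comp hf measurable_const measurable_const measurable_id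
    have hlinm : Measurable lin := by unfold lin; fun_prop
    have hmom : ∫⁻ w, lin w * F w ≤ c := by
      have h := hCb t (Ioc_subset_Icc_self ht) (fun _ => y) (fun _ => 1) measurable_const
        measurable_const
      simp only [one_mul] at h
      refine le_trans ?_ (mul_le_mul' le_rfl h)
      rw [← lintegral_const_mul' _ _ ENNReal.ofReal_ne_top]
      refine lintegral_mono fun w => ?_
      rw [← mul_assoc]
      refine mul_le_mul' ?_ le_rfl
      rw [gw, ← ENNReal.ofReal_mul (by positivity)]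
      refine ENNReal.ofReal_le_ofReal ?_
      have hat : a ≤ theta θ t := mul_le_mul_of_nonneg_left
        (exp_le_exp.2 (neg_le_neg ht.2)) hθ.le
      calc 1 + ‖w‖ ≤ (2 + 1 / a) * (1 + a * ‖w‖ ^ 2) := by
            have e : (2 + 1 / a) * (1 + a * ‖w‖ ^ 2) =
                2 + 2 * a * ‖w‖ ^ 2 + 1 / a + ‖w‖ ^ 2 := by field_simp; ring
            rw [e]
            nlinarith [sq_nonneg (‖w‖ - 1 / 2), one_div_pos.2 ha0, sq_nonneg ‖w‖]
        _ ≤ (2 + 1 / a) * exp (theta θ t * ‖w‖ ^ 2) := by
            refine mul_le_mul_of_nonneg_left ?_ (by positivity)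
            rw [add_comm]
            exact (add_one_le_exp _).trans (exp_le_exp.2 (by gcongr))
    have hloss : ∀ v, lossRate F v ≤ lin v * (surface univ * c) := by
      intro v
      calc lossRate F v ≤ ∫⁻ p : V3 × S2, lin v * (lin p.1 * F p.1)
            ∂((volume : Measure V3).prod surface) := by
            refine lintegral_mono fun p => ?_
            rw [← mul_assoc]
            refine mul_le_mul' ?_ le_rfl
            rw [lin, lin, ← ENNReal.ofReal_mul (by positivity)]
            exact ENNReal.ofReal_le_ofReal (abs_impact_le v p)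
        _ ≤ _ := by
            rw [lintegral_const_mul _ (by fun_prop), lintegral_prod _ (by fun_prop)]
            simp only [lintegral_const]
            rw [lintegral_mul_const _ (by fun_prop), mul_comm (∫⁻ w, lin w * F w)]
            gcongr
    calc ∫⁻ v, gs (f t) y v = ∫⁻ v, F v * lossRate F v := lintegral_gain hFm hFm
      _ ≤ ∫⁻ v, (surface univ * c) * (lin v * F v) := lintegral_mono fun v =>
          (mul_le_mul' le_rfl (hloss v)).trans (le_of_eq (by ring))
      _ ≤ _ := by
          rw [lintegral_const_mul _ (by fun_prop)]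
          exact mul_le_mul' le_rfl hmom
  refine ne_top_of_le_ne_top (b := surface univ * c * c * volume (Ioc (0 : ℝ) 1) *
    volume (Ioc (0 : ℝ) T)) ?_ ?_
  · refine ENNReal.mul_ne_top (ENNReal.mul_ne_top (ENNReal.mul_ne_top
      (ENNReal.mul_ne_top (measure_ne_top _ _) hct) hct) ?_) ?_ <;> simp
  · rw [← setLIntegral_const]
    refine setLIntegral_mono' measurableSet_Ioc fun t ht => ?_
    rw [nrate, ← setLIntegral_const]
    exact setLIntegral_mono' measurableSet_Ioc fun y _ => hgain t ht y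

/-- Entropy makes short windows light. -/
lemma window_mass_le (hf : IsSlabSol θ T f) {s L n : ℝ} (hL : L ≤ 1 / 2) (hn : 0 < n) (x : ℝ)
    {C₀ : ℝ≥0∞} (h1 : xint (fun _ => 1) (f s) ≤ C₀) (h2 : slabEnt (f s) ≤ C₀) :
    ∫⁻ u, ∫⁻ z in Icc (-L) L, dens f s (x + z) u ≤
      ENNReal.ofReal (exp n) * (∫⁻ u, ENNReal.ofReal (M0 u)) * ENNReal.ofReal (2 * L) +
        ENNReal.ofReal n⁻¹ * (C₀ + C₀) := by
  have hd := measurable_dens hf
  have hfs : Measurable (Function.uncurry (f s)) := hf.measurable.comp measurable_prodMk_left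
  have hM := measurable_M0
  set K := fun (y : ℝ) (u : V3) =>
    ENNReal.ofReal (f s y u * log (f s y u / M0 u) - f s y u + M0 u) with hK
  set E := fun y => ∫⁻ u, (K y u + dens f s y u) with hE
  have hKm : Measurable (Function.uncurry K) :=
    ((((hfs.mul (Real.measurable_log.comp (hfs.div (hM.comp measurable_snd))))).sub hfs).add
      (hM.comp measurable_snd)).ennreal_ofReal
  have hds : Measurable (Function.uncurry (dens f s)) := hd.comp measurable_prodMk_left
  have hEm : Measurable E := (hKm.add hds).lintegral_prod_right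
  have hEp : ∀ y, E (y + 1) = E y := fun y => by
    simp only [hE, hK, dens, sl, hf.periodic]
  rw [lintegral_lintegral_swap]
  swap
  · exact (hds.comp ((measurable_snd.const_add x).prodMk measurable_fst)).aemeasurable
  calc ∫⁻ z in Icc (-L) L, ∫⁻ u, dens f s (x + z) u
      ≤ ∫⁻ z in Icc (-L) L, (ENNReal.ofReal (exp n) * (∫⁻ u, ENNReal.ofReal (M0 u)) +
          ENNReal.ofReal n⁻¹ * E (x + z)) := by
        refine lintegral_mono fun z => ?_
        refine (lintegral_mono fun u => le_maxwellian_add_entropy (hf.nonneg _ _ _) (M0_pos u)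
          hn).trans (le_of_eq ?_)
        rw [lintegral_add_left (by fun_prop), lintegral_const_mul' _ _ ENNReal.ofReal_ne_top,
          lintegral_const_mul' _ _ ENNReal.ofReal_ne_top]
        rfl
    _ = ENNReal.ofReal (exp n) * (∫⁻ u, ENNReal.ofReal (M0 u)) * ENNReal.ofReal (2 * L) +
          ENNReal.ofReal n⁻¹ * ∫⁻ z in Icc (-L) L, E (x + z) := by
        rw [lintegral_add_left measurable_const, setLIntegral_const, Real.volume_Icc,
          lintegral_const_mul' _ _ ENNReal.ofReal_ne_top, show L - -L = 2 * L by ring]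
    _ ≤ _ := by
        gcongr
        refine (lintegral_window_le hEm hEp x hL).trans ?_
        simp only [hE]
        have e : ∀ y, ∫⁻ u, (K y u + dens f s y u) =
            (∫⁻ u, K y u) + ∫⁻ u, dens f s y u := fun y =>
          lintegral_add_left (show Measurable (K y) from hKm.comp measurable_prodMk_left) _
        simp only [e]
        rw [lintegral_add_left hKm.lintegral_prod_right]
        refine add_le_add h2 ?_
        simpa [xint, mom, dens] using h1

/-- The charge over a period. -/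
lemma charge_le (hf : IsSlabSol θ T f) {L : ℝ} (hL : 0 < L) {C₀ : ℝ≥0∞}
    (h : ∀ s ∈ Icc 0 T, xint (fun _ => 1) (f s) ≤ C₀ ∧ xint sqn (f s) ≤ C₀) :
    ∫⁻ s in Ioc 0 T, ∫⁻ x in Ioc (0 : ℝ) 1, ∫⁻ v, charge L f s x v ≤
      ENNReal.ofReal L⁻¹ * (C₀ + C₀) * ENNReal.ofReal T + ∫⁻ t in Ioc 0 T, nrate (f t) := by
  have hd := measurable_dens hf
  have hQ := measurable_gs_time hf
  set W := fun v : V3 => ENNReal.ofReal L⁻¹ * (1 + sqn v) with hW
  have hsq : Measurable sqn := by unfold sqn; fun_prop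
  have hWm : Measurable W := by simp only [hW]; fun_prop
  have hle : ∀ s x v, charge L f s x v ≤ W v * dens f s x v + gs (f s) x v := fun s x v => by
    refine add_le_add (mul_le_mul' ?_ le_rfl) le_rfl
    simp only [hW, sqn]
    rw [← ENNReal.ofReal_one, ← ENNReal.ofReal_add zero_le_one (sq_nonneg _),
      ← ENNReal.ofReal_mul (inv_pos.2 hL).le]
    refine ENNReal.ofReal_le_ofReal ?_
    rw [div_eq_inv_mul]
    refine mul_le_mul_of_nonneg_left ?_ (inv_pos.2 hL).le
    have h1 := PiLp.norm_apply_le v 0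
    rw [Real.norm_eq_abs] at h1
    nlinarith [sq_nonneg (‖v‖ - 1 / 2)]
  have hWd : Measurable fun r : (ℝ × ℝ) × V3 => W r.2 * dens f r.1.1 r.1.2 r.2 :=
    (hWm.comp measurable_snd).mul (hd.comp (measurable_fst.fst.prodMk
      (measurable_fst.snd.prodMk measurable_snd)))
  have hWd1 : Measurable fun q : ℝ × ℝ => ∫⁻ v, W v * dens f q.1 q.2 v :=
    hWd.lintegral_prod_right'
  calc ∫⁻ s in Ioc 0 T, ∫⁻ x in Ioc (0 : ℝ) 1, ∫⁻ v, charge L f s x v
      ≤ ∫⁻ s in Ioc 0 T, ∫⁻ x in Ioc (0 : ℝ) 1, ∫⁻ v, (W v * dens f s x v + gs (f s) x v) :=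
        lintegral_mono fun s => lintegral_mono fun x => lintegral_mono fun v => hle s x v
    _ = (∫⁻ s in Ioc 0 T, ∫⁻ x in Ioc (0 : ℝ) 1, ∫⁻ v, W v * dens f s x v) +
          ∫⁻ t in Ioc 0 T, nrate (f t) := by
        have e : ∀ s x, ∫⁻ v, (W v * dens f s x v + gs (f s) x v) =
            (∫⁻ v, W v * dens f s x v) + ∫⁻ v, gs (f s) x v := fun s x =>
          lintegral_add_left (show Measurable fun v => W v * dens f s x v from
            hWm.mul (dens_comp hf measurable_const measurable_const measurable_id)) _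
        simp only [e]
        rw [lintegral_congr fun s => lintegral_add_left
          (show Measurable fun x => ∫⁻ v, W v * dens f s x v from
            hWd1.comp measurable_prodMk_left) _]
        rw [lintegral_add_left hWd1.lintegral_prod_right']
        rfl
    _ ≤ _ := by
        refine add_le_add ?_ le_rfl
        rw [show ENNReal.ofReal T = volume (Ioc (0 : ℝ) T) by simp, ← setLIntegral_const]
        refine setLIntegral_mono' measurableSet_Ioc fun s hs => ?_
        obtain ⟨a, b⟩ := h s (Ioc_subset_Icc_self hs)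
        simp only [hW, mul_assoc]
        rw [lintegral_congr fun x => lintegral_const_mul' _ _ ENNReal.ofReal_ne_top,
          lintegral_const_mul' _ _ ENNReal.ofReal_ne_top]
        refine mul_le_mul' le_rfl (le_trans (le_of_eq ?_) (add_le_add a b))
        have hdx : Measurable (Function.uncurry (sl (f s))) := hd.comp measurable_prodMk_left
        have e : ∀ x, ∫⁻ v, (1 + sqn v) * dens f s x v =
            mom (fun _ => 1) (f s) x + mom sqn (f s) x := fun x => by
          simp only [mom, dens, add_mul, one_mul]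
          exact lintegral_add_left (hdx.comp measurable_prodMk_left) _
        simp only [e]
        refine lintegral_add_left ?_ _
        unfold mom
        simp only [one_mul]
        exact hdx.lintegral_prod_right

end

theorem collision_count (hA : PinProj) : PinCount := by
  intro T C₀ hT hC
  set C := C₀.toReal with hCdef
  have hC0 : 0 ≤ C := ENNReal.toReal_nonneg
  have hCeq : C₀ = ENNReal.ofReal C := (ENNReal.ofReal_toReal hC).symm
  set I := ∫⁻ u : V3, ENNReal.ofReal (M0 u) with hI
  have hIt : I ≠ ⊤ := integrable_M0.lintegral_lt_top.ne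
  set J := I.toReal with hJ
  have hJ0 : 0 ≤ J := ENNReal.toReal_nonneg
  set m : ℝ := 1 / (128 * π) with hm
  have hm0 : 0 < m := by positivity
  set n : ℝ := 4 * C / m + 1 with hn
  have hn0 : 0 < n := by positivity
  set L : ℝ := min (1 / 2) (m / (4 * exp n * (J + 1))) with hLdef
  have hL : 0 < L := lt_min (by norm_num) (by positivity)
  set c8 := ENNReal.ofReal (8 * (log 2)⁻¹) with hc8
  set K₀ := ENNReal.ofReal (32 * π) * (ENNReal.ofReal m *
      (C₀ + 2 * (ENNReal.ofReal L⁻¹ * (C₀ + C₀) * ENNReal.ofReal T))) + c8 * C₀ with hK0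
  refine ⟨2 * K₀, ?_, fun θ T' f hθ hT' hf hb hD => ?_⟩
  · simp only [hK0, hc8, hCeq]
    finiteness
  set X := ∫⁻ t in Ioc 0 T', nrate (f t) with hX
  have hw : ∀ s ∈ Icc 0 T', ∀ x, ∫⁻ u, ∫⁻ z in Icc (-L) L, dens f s (x + z) u ≤
      ENNReal.ofReal m := by
    intro s hs x
    obtain ⟨a, -, c⟩ := hb s hs
    refine (window_mass_le hf (min_le_left _ _) hn0 x a c).trans ?_
    rw [← hI, ← ENNReal.ofReal_toReal hIt, ← hJ, hCeq, ← ENNReal.ofReal_add hC0 hC0,
      ← ENNReal.ofReal_mul (exp_pos n).le, ← ENNReal.ofReal_mul (by positivity),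
      ← ENNReal.ofReal_mul (by positivity), ← ENNReal.ofReal_add (by positivity) (by positivity)]
    refine ENNReal.ofReal_le_ofReal ?_
    have hp : 0 < 4 * exp n * (J + 1) := by positivity
    have h1 : L * (4 * exp n * (J + 1)) ≤ m := (le_div_iff₀ hp).1 (min_le_right _ _)
    have h2 : exp n * J * (2 * L) ≤ m / 2 := by
      have := mul_nonneg (mul_nonneg (exp_pos n).le hL.le) zero_le_four
      linarith [show L * (4 * exp n * (J + 1)) = 4 * (exp n * J * L) + exp n * L * 4 by ring,
        show exp n * J * (2 * L) = 2 * (exp n * J * L) by ring]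
    have h3 : n⁻¹ * (C + C) ≤ m / 2 := by
      rw [inv_mul_le_iff₀ hn0, hn]
      have : (4 * C / m + 1) * (m / 2) = 2 * C + m / 2 := by field_simp; ring
      linarith
    linarith
  have hcross := cross_le hf hL hT'.1 hw
  have hch := charge_le hf hL fun s hs => ⟨(hb s hs).1, (hb s hs).2.1⟩
  have hmass : ∫⁻ x in Ioc (0 : ℝ) 1, ∫⁻ v, dens f 0 x v ≤ C₀ := by
    simpa [xint, mom, dens] using (hb 0 ⟨le_rfl, hT'.1⟩).1
  have hd := measurable_dens hf
  have hcm : Measurable fun q : ℝ × ℝ => crossAt (f q.1) q.2 := by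
    have h : Measurable fun r : ((ℝ × ℝ) × V3) × V3 =>
        rel0 r.1.2 r.2 * (dens f r.1.1.1 r.1.1.2 r.1.2 * dens f r.1.1.1 r.1.1.2 r.2) :=
      (by unfold rel0; fun_prop : Measurable fun r : ((ℝ × ℝ) × V3) × V3 => rel0 r.1.2 r.2).mul
        ((hd.comp (measurable_fst.fst.fst.prodMk (measurable_fst.fst.snd.prodMk
          measurable_fst.snd))).mul (hd.comp (measurable_fst.fst.fst.prodMk
          (measurable_fst.fst.snd.prodMk measurable_snd))))
    exact h.lintegral_prod_right'.lintegral_prod_right'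
  have hN : X ≤ ENNReal.ofReal (32 * π) * (∫⁻ t in Ioc 0 T', ∫⁻ y in Ioc (0 : ℝ) 1,
      crossAt (f t) y) + c8 * C₀ := by
    calc X ≤ ∫⁻ t in Ioc 0 T', ((ENNReal.ofReal (32 * π) * ∫⁻ y in Ioc (0 : ℝ) 1,
            crossAt (f t) y) + c8 * slabDiss (f t)) := by
          refine lintegral_mono fun t => ?_
          have hct : Measurable fun y => ENNReal.ofReal (32 * π) * crossAt (f t) y :=
            (hcm.comp measurable_prodMk_left).const_mul _
          rw [slabDiss, hc8, ← lintegral_const_mul' _ _ ENNReal.ofReal_ne_top,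
            ← lintegral_const_mul' _ _ ENNReal.ofReal_ne_top, ← lintegral_add_left hct]
          have hft : Measurable (Function.uncurry (f t)) := hf.measurable.comp measurable_prodMk_left
          exact lintegral_mono fun y => gain_le_cross_diss hA hft (hf.nonneg t) y
      _ ≤ _ := by
          rw [lintegral_add_left (hcm.lintegral_prod_right'.const_mul _),
            lintegral_const_mul' _ _ ENNReal.ofReal_ne_top, hc8,
            lintegral_const_mul' _ _ ENNReal.ofReal_ne_top]
          gcongr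
          exact (lintegral_mono_set Ioc_subset_Icc_self).trans hD
  have hfin : X ≠ ⊤ := nrate_count_finite hθ hf
  set s2 := ENNReal.ofReal (32 * π) * (ENNReal.ofReal m * 2) with hs2
  have hhalf : s2 = 2⁻¹ := by
    rw [hs2, ← ENNReal.ofReal_ofNat 2, ← ENNReal.ofReal_mul hm0.le,
      ← ENNReal.ofReal_mul (by positivity), ← ENNReal.ofReal_inv_of_pos two_pos]
    congr 1
    rw [hm]; field_simp; ring
  have hmain : X ≤ K₀ + 2⁻¹ * X := by
    refine hN.trans ?_
    calc _ ≤ ENNReal.ofReal (32 * π) * (ENNReal.ofReal m *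
          (C₀ + 2 * (ENNReal.ofReal L⁻¹ * (C₀ + C₀) * ENNReal.ofReal T + X))) + c8 * C₀ := by
          refine add_le_add (mul_le_mul' le_rfl (hcross.trans ?_)) le_rfl
          refine mul_le_mul' le_rfl (add_le_add hmass (mul_le_mul' le_rfl (hch.trans ?_)))
          gcongr
          exact hT'.2
      _ = _ := by rw [← hhalf, hs2, hK0]; ring
  have h2 : 2⁻¹ * X ≤ K₀ := by
    have hne : 2⁻¹ * X ≠ ⊤ := ENNReal.mul_ne_top (by simp) hfin
    refine (ENNReal.add_le_add_iff_right hne).1 (le_trans (le_of_eq ?_) hmain)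
    rw [← add_mul, ENNReal.inv_two_add_inv_two, one_mul]
  calc X = 2 * (2⁻¹ * X) := by
        rw [← mul_assoc, ENNReal.mul_inv_cancel two_ne_zero ENNReal.ofNat_ne_top, one_mul]
    _ ≤ _ := mul_le_mul' le_rfl h2

end Vale.Agent.P140.Slab
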