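import Mathlib

/-!
# Real analysis behind the collision count

Products of nonnegative primitives, their average over the time needed to cross a window, and
periodic window integrals.
-/

open MeasureTheory Real Set
open scoped ENNReal

namespace Vale.Agent.P140.Slab.CountTools

/-- The product of two nonnegative primitives grows at most by the positive parts. -/
lemma prod_primitive_le {a a' G G' : ℝ → ℝ} {P P' : ℝ → ℝ≥0∞} {T s t : ℝ}
    (ha : IntegrableOn a (Ioc 0 T)) (ha' : IntegrableOn a' (Ioc 0 T))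
    (hG : ∀ r ∈ Icc 0 T, G r = G 0 + ∫ x in (0 : ℝ)..r, a x)
    (hG' : ∀ r ∈ Icc 0 T, G' r = G' 0 + ∫ x in (0 : ℝ)..r, a' x)
    (hn : ∀ r ∈ Icc 0 T, 0 ≤ G r) (hn' : ∀ r ∈ Icc 0 T, 0 ≤ G' r)
    (hP : ∀ r, ENNReal.ofReal (a r) ≤ P r) (hP' : ∀ r, ENNReal.ofReal (a' r) ≤ P' r)
    (h0 : 0 ≤ s) (hst : s ≤ t) (htT : t ≤ T) :
    ENNReal.ofReal (G t * G' t) ≤ ENNReal.ofReal (G s * G' s) +
      ∫⁻ r in Ioc s t, (P r * ENNReal.ofReal (G' r) + P' r * ENNReal.ofReal (G r)) := by
  have h0T : (0 : ℝ) ≤ T := h0.trans (hst.trans htT)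
  have hi : IntervalIntegrable a volume 0 T :=
    (intervalIntegrable_iff_integrableOn_Ioc_of_le h0T).2 ha
  have hi' : IntervalIntegrable a' volume 0 T :=
    (intervalIntegrable_iff_integrableOn_Ioc_of_le h0T).2 ha'
  have hac := hi.absolutelyContinuousOnInterval_intervalIntegral (c := 0) left_mem_uIcc
  have hac' := hi'.absolutelyContinuousOnInterval_intervalIntegral (c := 0) left_mem_uIcc
  set A := fun r => G 0 + ∫ x in (0 : ℝ)..r, a x with hA
  set A' := fun r => G' 0 + ∫ x in (0 : ℝ)..r, a' x with hA'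
  have hAac : AbsolutelyContinuousOnInterval A 0 T :=
    (LipschitzOnWith.absolutelyContinuousOnInterval
      ((LipschitzWith.const (α := ℝ) (G 0)).lipschitzOnWith)).fun_add hac
  have hAac' : AbsolutelyContinuousOnInterval A' 0 T :=
    (LipschitzOnWith.absolutelyContinuousOnInterval
      ((LipschitzWith.const (α := ℝ) (G' 0)).lipschitzOnWith)).fun_add hac'
  have hsub : uIcc s t ⊆ uIcc 0 T := by
    rw [uIcc_of_le hst, uIcc_of_le h0T]; exact Icc_subset_Icc h0 htT
  have hmem : Icc s t ⊆ Icc 0 T := Icc_subset_Icc h0 htT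
  have hkey := (hAac.mono hsub).integral_deriv_mul_eq_sub (hAac'.mono hsub)
  set h := fun r => a r * A' r + A r * a' r with hh
  have hd : ∫ r in s..t, (deriv A r * A' r + A r * deriv A' r) = ∫ r in s..t, h r := by
    refine intervalIntegral.integral_congr_ae ?_
    filter_upwards [hi.ae_hasDerivAt_integral, hi'.ae_hasDerivAt_integral] with r h1 h2 hr
    have hr' : r ∈ uIcc (0 : ℝ) T := hsub (uIoc_subset_uIcc hr)
    rw [((h1 hr' 0 left_mem_uIcc).const_add (G 0)).deriv,
      ((h2 hr' 0 left_mem_uIcc).const_add (G' 0)).deriv]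
  have hhi : IntegrableOn h (Ioc s t) :=
    (intervalIntegrable_iff_integrableOn_Ioc_of_le hst).1
      (((hi.mono_set hsub).mul_continuousOn (hAac'.continuousOn.mono hsub)).add
        ((hi'.mono_set hsub).continuousOn_mul (hAac.continuousOn.mono hsub)))
  have eG : ∀ r ∈ Icc s t, G r = A r ∧ G' r = A' r := fun r hr =>
    ⟨hG r (hmem hr), hG' r (hmem hr)⟩
  have hval : G t * G' t = G s * G' s + ∫ r in Ioc s t, h r := by
    rw [← intervalIntegral.integral_of_le hst, ← hd, hkey, (eG t (right_mem_Icc.2 hst)).1,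
      (eG t (right_mem_Icc.2 hst)).2, (eG s (left_mem_Icc.2 hst)).1,
      (eG s (left_mem_Icc.2 hst)).2]
    ring
  have hpos : ENNReal.ofReal (∫ r in Ioc s t, h r) ≤
      ∫⁻ r in Ioc s t, ENNReal.ofReal (h r) := by
    calc ENNReal.ofReal (∫ r in Ioc s t, h r)
        ≤ ENNReal.ofReal (∫ r in Ioc s t, max (h r) 0) :=
          ENNReal.ofReal_le_ofReal (integral_mono hhi hhi.pos_part fun r => le_max_left _ _)
      _ = ∫⁻ r in Ioc s t, ENNReal.ofReal (max (h r) 0) :=
          ofReal_integral_eq_lintegral_ofReal hhi.pos_part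
            (Filter.Eventually.of_forall fun r => le_max_right _ _)
      _ ≤ _ := lintegral_mono fun r => le_of_eq (by
          rw [ENNReal.ofReal_max, ENNReal.ofReal_zero]; simp)
  rw [hval]
  refine ENNReal.ofReal_add_le.trans (add_le_add le_rfl (hpos.trans ?_))
  refine setLIntegral_mono' measurableSet_Ioc fun r hr => ?_
  obtain ⟨e1, e2⟩ := eG r (Ioc_subset_Icc_self hr)
  simp only [hh, ← e1, ← e2]
  refine ENNReal.ofReal_add_le.trans (add_le_add ?_ ?_)
  · rw [ENNReal.ofReal_mul' (hn' r (hmem (Ioc_subset_Icc_self hr)))]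
    exact mul_le_mul' (hP r) le_rfl
  · rw [ENNReal.ofReal_mul (hn r (hmem (Ioc_subset_Icc_self hr))), mul_comm]
    exact mul_le_mul' (hP' r) le_rfl

/-- A value is below the initial one, or below the average over the crossing time, plus the
growth in between. -/
lemma value_le_average {φ Q : ℝ → ℝ≥0∞} {τ T t : ℝ} (hτ : 0 < τ) (hφ : Measurable φ)
    (hgrow : ∀ s t, 0 ≤ s → s ≤ t → t ≤ T → φ t ≤ φ s + ∫⁻ r in Ioc s t, Q r)
    (ht0 : 0 ≤ t) (htT : t ≤ T) :
    φ t ≤ (Iic τ).indicator (fun _ => φ 0) t +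
      ∫⁻ s in Ioc (max 0 (t - τ)) t, (ENNReal.ofReal τ⁻¹ * φ s + Q s) := by
  rcases le_or_gt t τ with htτ | htτ
  · rw [indicator_of_mem (mem_Iic.2 htτ), max_eq_left (by linarith)]
    exact (hgrow 0 t le_rfl ht0 htT).trans
      (add_le_add le_rfl (lintegral_mono fun s => le_add_self))
  refine le_trans ?_ le_add_self
  rw [max_eq_right (by linarith)]
  set J := ∫⁻ r in Ioc (t - τ) t, Q r with hJ
  have hvol : volume (Ioc (t - τ) t) = ENNReal.ofReal τ := by
    rw [Real.volume_Ioc, sub_sub_cancel]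
  have hne : ENNReal.ofReal τ ≠ 0 := (ENNReal.ofReal_pos.2 hτ).ne'
  have h1 : φ t * ENNReal.ofReal τ ≤
      (∫⁻ s in Ioc (t - τ) t, φ s) + J * ENNReal.ofReal τ :=
    calc φ t * ENNReal.ofReal τ = ∫⁻ _ in Ioc (t - τ) t, φ t := by rw [setLIntegral_const, hvol]
      _ ≤ ∫⁻ s in Ioc (t - τ) t, (φ s + J) := setLIntegral_mono' measurableSet_Ioc fun s hs =>
          (hgrow s t (by linarith [hs.1]) hs.2 htT).trans
            (add_le_add le_rfl (lintegral_mono_set (Ioc_subset_Ioc_left hs.1.le)))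
      _ = _ := by rw [lintegral_add_left hφ, setLIntegral_const, hvol]
  calc φ t = φ t * ENNReal.ofReal τ * (ENNReal.ofReal τ)⁻¹ :=
        (ENNReal.mul_inv_cancel_right hne ENNReal.ofReal_ne_top).symm
    _ ≤ ((∫⁻ s in Ioc (t - τ) t, φ s) + J * ENNReal.ofReal τ) * (ENNReal.ofReal τ)⁻¹ :=
        mul_le_mul' h1 le_rfl
    _ = (∫⁻ s in Ioc (t - τ) t, ENNReal.ofReal τ⁻¹ * φ s) + J := by
        rw [add_mul, ENNReal.mul_inv_cancel_right hne ENNReal.ofReal_ne_top,
          lintegral_const_mul _ hφ, ENNReal.ofReal_inv_of_pos hτ, mul_comm]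
    _ = _ := by rw [hJ, lintegral_add_left (hφ.const_mul _)]

/-- Two periods. -/
lemma lintegral_period_eq {A : ℝ → ℝ≥0∞} (hp : ∀ x, A (x + 1) = A x) (a b : ℝ) :
    ∫⁻ x in Ioc a (a + 1), A x = ∫⁻ x in Ioc b (b + 1), A x := by
  refine (isAddFundamentalDomain_Ioc one_pos a).setLIntegral_eq
    (isAddFundamentalDomain_Ioc one_pos b) A ?_
  rintro ⟨g, hg⟩ x
  obtain ⟨n, rfl⟩ := AddSubgroup.mem_zmultiples_iff.1 hg
  have hper : Function.Periodic A 1 := hp
  show A (n • (1 : ℝ) + x) = A x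
  rw [add_comm]; exact hper.zsmul n x

/-- Translation invariance over a period. -/
lemma lintegral_period_shift {A : ℝ → ℝ≥0∞} (hA : Measurable A) (hp : ∀ x, A (x + 1) = A x)
    (c : ℝ) : ∫⁻ x in Ioc (0 : ℝ) 1, A (x + c) = ∫⁻ x in Ioc (0 : ℝ) 1, A x := by
  have h := ((measurePreserving_add_right volume c).restrict_preimage
    (measurableSet_Ioc (a := c) (b := c + 1))).lintegral_comp hA
  rw [preimage_add_const_Ioc, sub_self, add_sub_cancel_left] at h
  rw [h, lintegral_period_eq hp c 0, zero_add]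

/-- A window is shorter than a period. -/
lemma lintegral_window_le {A : ℝ → ℝ≥0∞} (hA : Measurable A) (hp : ∀ x, A (x + 1) = A x)
    (x : ℝ) {L : ℝ} (hL : L ≤ 1 / 2) :
    ∫⁻ z in Icc (-L) L, A (x + z) ≤ ∫⁻ z in Ioc (0 : ℝ) 1, A z := by
  rw [setLIntegral_congr Ioc_ae_eq_Icc.symm]
  refine (lintegral_mono_set (Ioc_subset_Ioc (show -(1 / 2 : ℝ) ≤ -L by linarith)
    (show L ≤ -(1 / 2 : ℝ) + 1 by linarith))).trans (le_of_eq ?_)
  rw [lintegral_period_eq (A := fun z => A (x + z)) (fun z => by rw [← add_assoc, hp]) _ 0,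
    zero_add]
  simp only [add_comm x]
  exact lintegral_period_shift hA hp x

/-- Crossing time against window length. -/
lemma lintegral_scale_le {B : ℝ → ℝ≥0∞} (hB : Measurable B) {d L : ℝ} (hd : d ≠ 0) (hL : 0 ≤ L) :
    ∫⁻ σ in Icc 0 (L / |d|), ENNReal.ofReal |d| * B (σ * d) ≤ ∫⁻ z in Icc (-L) L, B z := by
  have hd0 : 0 < |d| := abs_pos.2 hd
  set k := (Icc (-L) L).indicator B with hk
  have hkm : Measurable k := hB.indicator measurableSet_Icc
  calc ∫⁻ σ in Icc 0 (L / |d|), ENNReal.ofReal |d| * B (σ * d)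
      ≤ ∫⁻ σ, ENNReal.ofReal |d| * k (d * σ) := by
        rw [← lintegral_indicator measurableSet_Icc]
        refine lintegral_mono fun σ => ?_
        by_cases hσ : σ ∈ Icc 0 (L / |d|)
        · have h1 : |σ * d| ≤ L := by
            rw [abs_mul, abs_of_nonneg hσ.1, ← le_div_iff₀ hd0]; exact hσ.2
          have h2 : d * σ ∈ Icc (-L) L := by rw [mul_comm]; exact abs_le.1 h1
          rw [indicator_of_mem hσ, hk, indicator_of_mem h2, mul_comm σ]
        · rw [indicator_of_notMem hσ]; exact zero_le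
    _ = ENNReal.ofReal |d| * (ENNReal.ofReal |d⁻¹| * ∫⁻ z, k z) := by
        rw [lintegral_const_mul _ (by fun_prop), ← lintegral_map hkm (by fun_prop),
          Real.map_volume_mul_left hd, lintegral_smul_measure, smul_eq_mul]
    _ = _ := by
        rw [← mul_assoc, ← ENNReal.ofReal_mul (abs_nonneg _), ← abs_mul, mul_inv_cancel₀ hd,
          abs_one, ENNReal.ofReal_one, one_mul, hk, lintegral_indicator measurableSet_Icc]

/-- A crossing pair followed during one crossing time stays in a window. -/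
lemma crossing_window {A B : ℝ → ℝ≥0∞} (hA : Measurable A) (hB : Measurable B)
    (hpA : ∀ x, A (x + 1) = A x) (hpB : ∀ x, B (x + 1) = B x) {a b L : ℝ} (hab : a ≠ b)
    (hL : 0 ≤ L) :
    ∫⁻ σ in Icc 0 (L / |a - b|), ENNReal.ofReal |a - b| *
        ∫⁻ y in Ioc (0 : ℝ) 1, A (y - σ * a) * B (y - σ * b) ≤
      ∫⁻ x in Ioc (0 : ℝ) 1, A x * ∫⁻ z in Icc (-L) L, B (x + z) := by
  have hd : a - b ≠ 0 := sub_ne_zero.2 hab
  have hshift : ∀ σ, ∫⁻ y in Ioc (0 : ℝ) 1, A (y - σ * a) * B (y - σ * b) =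
      ∫⁻ x in Ioc (0 : ℝ) 1, A x * B (x + σ * (a - b)) := fun σ => by
    refine (lintegral_period_shift (A := fun y => A (y - σ * a) * B (y - σ * b)) (by fun_prop)
      (fun y => ?_) (σ * a)).symm.trans (lintegral_congr fun x => ?_)
    · rw [add_sub_right_comm, add_sub_right_comm, hpA, hpB]
    · ring_nf
  simp only [hshift, ← lintegral_const_mul' _ _ ENNReal.ofReal_ne_top]
  rw [lintegral_lintegral_swap (by fun_prop)]
  refine lintegral_mono fun x => ?_
  rw [show (fun σ => ENNReal.ofReal |a - b| * (A x * B (x + σ * (a - b)))) =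
      fun σ => A x * (ENNReal.ofReal |a - b| * B (x + σ * (a - b))) from
      funext fun σ => mul_left_comm _ _ _, lintegral_const_mul _ (by fun_prop)]
  exact mul_le_mul' le_rfl (lintegral_scale_le (B := fun z => B (x + z)) (by fun_prop) hd hL)

/-- The growth of crossing pairs over one crossing time stays in a window. -/
lemma crossing_history {A B : ℝ → ℝ → ℝ≥0∞} (hA : Measurable (Function.uncurry A))
    (hB : Measurable (Function.uncurry B)) (hpA : ∀ s x, A s (x + 1) = A s x)
    (hpB : ∀ s x, B s (x + 1) = B s x) {a b L T : ℝ} (hab : a ≠ b) (hL : 0 ≤ L) :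
    ∫⁻ t in Ioc 0 T, ∫⁻ y in Ioc (0 : ℝ) 1, ∫⁻ s in Ioc (max 0 (t - L / |a - b|)) t,
        ENNReal.ofReal |a - b| * (A s (y - (t - s) * a) * B s (y - (t - s) * b)) ≤
      ∫⁻ s in Ioc 0 T, ∫⁻ x in Ioc (0 : ℝ) 1, A s x * ∫⁻ z in Icc (-L) L, B s (x + z) := by
  set τ := L / |a - b| with hτ
  set H := fun s σ => ENNReal.ofReal |a - b| *
    ∫⁻ y in Ioc (0 : ℝ) 1, A s (y - σ * a) * B s (y - σ * b) with hH
  have hHm : Measurable (Function.uncurry H) := by
    refine Measurable.const_mul (Measurable.lintegral_prod_right'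
      (f := fun q : (ℝ × ℝ) × ℝ => A q.1.1 (q.2 - q.1.2 * a) * B q.1.1 (q.2 - q.1.2 * b)) ?_) _
    exact (hA.comp (measurable_fst.fst.prodMk
      (measurable_snd.sub (measurable_fst.snd.mul_const a)))).mul
      (hB.comp (measurable_fst.fst.prodMk (measurable_snd.sub (measurable_fst.snd.mul_const b))))
  calc ∫⁻ t in Ioc 0 T, ∫⁻ y in Ioc (0 : ℝ) 1, ∫⁻ s in Ioc (max 0 (t - τ)) t,
        ENNReal.ofReal |a - b| * (A s (y - (t - s) * a) * B s (y - (t - s) * b))
      = ∫⁻ t in Ioc 0 T, ∫⁻ s in Ioc (max 0 (t - τ)) t, H s (t - s) := by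
        refine lintegral_congr fun t => ?_
        rw [lintegral_lintegral_swap]
        · exact lintegral_congr fun s => lintegral_const_mul' _ _ ENNReal.ofReal_ne_top
        · exact ((hA.comp (measurable_snd.prodMk (by fun_prop))).mul
            (hB.comp (measurable_snd.prodMk (by fun_prop)))).const_mul _ |>.aemeasurable
    _ ≤ ∫⁻ t in Ioc 0 T, ∫⁻ s in Ioc 0 T, (Icc 0 τ).indicator (H s) (t - s) := by
        refine setLIntegral_mono' measurableSet_Ioc fun t ht => ?_
        rw [← lintegral_indicator measurableSet_Ioc, ← lintegral_indicator measurableSet_Ioc]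
        refine lintegral_mono fun s => indicator_le (fun s hs => ?_) s
        have h1 := le_max_left 0 (t - τ)
        have h2 := le_max_right 0 (t - τ)
        rw [indicator_of_mem (show s ∈ Ioc 0 T from ⟨by linarith [hs.1], hs.2.trans ht.2⟩),
          indicator_of_mem (show t - s ∈ Icc 0 τ from ⟨by linarith [hs.2], by linarith [hs.1]⟩)]
    _ = ∫⁻ s in Ioc 0 T, ∫⁻ t in Ioc 0 T, (Icc 0 τ).indicator (H s) (t - s) := by
        refine lintegral_lintegral_swap (Measurable.aemeasurable ?_)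
        simp only [indicator]
        exact Measurable.ite ((measurable_fst.sub measurable_snd) measurableSet_Icc)
          (hHm.comp (measurable_snd.prodMk (measurable_fst.sub measurable_snd))) measurable_const
    _ ≤ ∫⁻ s in Ioc 0 T, ∫⁻ σ in Icc 0 τ, H s σ := by
        refine lintegral_mono fun s => (setLIntegral_le_lintegral _ _).trans ?_
        rw [lintegral_sub_right_eq_self, lintegral_indicator measurableSet_Icc]
    _ ≤ _ := lintegral_mono fun s => crossing_window (hA.comp measurable_prodMk_left)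
        (hB.comp measurable_prodMk_left) (hpA s) (hpB s) hab hL

end Vale.Agent.P140.Slab.CountTools
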