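import Vale.Agent.P140.Slab.Basic

/-!
# Slab profiles as functions on phase space
-/

open MeasureTheory Real Set Filter
open scoped RealInnerProductSpace ENNReal

namespace Vale.Agent.P140.Slab

open Vale.Agent.P140 Vale.Agent.P140.Renorm

/-- The representative in `(0,1]` of a point of the circle. -/
noncomputable def rep (X : UnitAddCircle) : ℝ := (AddCircle.measurableEquivIoc 1 0 X : ℝ)

lemma measurable_rep : Measurable rep :=
  measurable_subtype_coe.comp (AddCircle.measurableEquivIoc 1 0).measurable

lemma coe_rep (X : UnitAddCircle) : ((rep X : ℝ) : UnitAddCircle) = X :=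
  (AddCircle.measurableEquivIoc 1 0).symm_apply_apply X

lemma periodic_rep {α : Type*} {p : ℝ → α} (hp : Function.Periodic p 1) (y : ℝ) :
    p (rep (y : UnitAddCircle)) = p y := by
  have h := hp.lift_coe (rep (y : UnitAddCircle))
  rw [coe_rep, hp.lift_coe] at h
  exact h.symm

lemma measurePreserving_rep :
    MeasurePreserving rep volume ((volume : Measure ℝ).restrict (Ioc 0 1)) := by
  refine ⟨measurable_rep, Measure.ext fun s hs => ?_⟩
  rw [Measure.map_apply measurable_rep hs,
    ← lintegral_indicator_one (measurable_rep hs),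
    ← UnitAddCircle.lintegral_preimage 0, zero_add]
  rw [← lintegral_indicator_one hs]
  refine setLIntegral_congr_fun measurableSet_Ioc fun a ha => ?_
  have e : rep (a : UnitAddCircle) = a := by
    have h1 : AddCircle.equivIoc (1 : ℝ) 0 (a : UnitAddCircle) =
        ⟨a, by simpa using ha⟩ := AddCircle.equivIoc_coe_eq (by simpa using ha)
    exact congrArg Subtype.val h1
  classical
  by_cases h : a ∈ s
  · rw [indicator_of_mem h, indicator_of_mem (show (a : UnitAddCircle) ∈ rep ⁻¹' s by rwa [mem_preimage, e])]
    rfl
  · rw [indicator_of_notMem h, indicator_of_notMem (show (a : UnitAddCircle) ∉ rep ⁻¹' s by rwa [mem_preimage, e])]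

/-- The slab coordinates of a point of phase space. -/
noncomputable def coords (z : Omega) : ℝ × V3 := (rep (z.1 0), z.2)

lemma measurePreserving_coords :
    MeasurePreserving coords volume
      (((volume : Measure ℝ).restrict (Ioc 0 1)).prod (volume : Measure V3)) := by
  have h0 : MeasurePreserving (Function.eval 0) (volume : Measure T3)
      (volume : Measure UnitAddCircle) := by
    have : IsProbabilityMeasure (volume : Measure UnitAddCircle) :=
      ⟨UnitAddCircle.measure_univ⟩
    rw [volume_pi]
    exact MeasureTheory.measurePreserving_eval _ 0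
  rw [Measure.volume_eq_prod]
  exact (measurePreserving_rep.comp h0).prod (MeasurePreserving.id (volume : Measure V3))

lemma measurable_coords : Measurable coords := measurePreserving_coords.measurable

lemma lintegral_coords {p : ℝ × V3 → ℝ≥0∞} (hp : Measurable p) :
    ∫⁻ z : Omega, p (coords z) = ∫⁻ y in Ioc (0 : ℝ) 1, ∫⁻ v, p (y, v) := by
  rw [measurePreserving_coords.lintegral_comp hp, lintegral_prod _ hp.aemeasurable]

lemma ae_coords {P : ℝ × V3 → Prop} (h : ∀ᵐ q : ℝ × V3, P q) :
    ∀ᵐ z : Omega, P (coords z) := by
  refine measurePreserving_coords.quasiMeasurePreserving.ae ?_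
  have hle : ((volume : Measure ℝ).restrict (Ioc 0 1)).prod (volume : Measure V3) ≤
      (volume : Measure (ℝ × V3)) := by
    rw [Measure.volume_eq_prod]
    rw [← Measure.restrict_univ (μ := (volume : Measure V3)), Measure.prod_restrict,
      Measure.restrict_univ]
    exact Measure.restrict_le_self
  exact ae_mono hle h

/-- A slab profile seen on phase space. -/
noncomputable def emb (f : ℝ → Prof) (t : ℝ) (z : Omega) : ℝ := f t (coords z).1 (coords z).2

variable {θ T : ℝ} {f : ℝ → Prof}

lemma measurable_emb (h : IsSlabSol θ T f) : Measurable (Function.uncurry (emb f)) :=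
  h.measurable.comp (measurable_fst.prodMk (measurable_coords.comp measurable_snd))

lemma slice_emb (f : ℝ → Prof) (t : ℝ) (X : T3) :
    slice (emb f t) X = sl (f t) (rep (X 0)) := rfl

lemma Qcoll_emb (f : ℝ → Prof) (t : ℝ) (z : Omega) :
    Qcoll (emb f t) z = qs (f t) (coords z).1 (coords z).2 := rfl

lemma coords_shift (s : ℝ) (z : Omega) :
    coords (shift s z) =
      (rep ((((coords z).1 + s * z.2 0 : ℝ)) : UnitAddCircle), z.2) := by
  refine Prod.ext ?_ rfl
  show rep ((z.1 + toT3 (s • z.2)) 0) = _
  simp [toT3, coords, coe_rep]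

lemma emb_shift (h : IsSlabSol θ T f) (t : ℝ) (z : Omega) :
    emb f t (shift t z) = f t ((coords z).1 + t * z.2 0) z.2 := by
  rw [emb, coords_shift]
  exact periodic_rep (p := fun y => f t y z.2) (fun y => h.periodic t y z.2) _

lemma Qcoll_emb_shift (h : IsSlabSol θ T f) (s : ℝ) (z : Omega) :
    Qcoll (emb f s) (shift s z) = qs (f s) ((coords z).1 + s * z.2 0) z.2 := by
  rw [Qcoll_emb, coords_shift]
  refine periodic_rep (p := fun y => qs (f s) y z.2) (fun y => ?_) _
  simp only [qs, gs_periodic (h.periodic s), ls_periodic (h.periodic s)]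

lemma emb_mild (h : IsSlabSol θ T f) :
    ∀ᵐ z : Omega, ∀ t ∈ Icc 0 T,
      emb f t (shift t z) = emb f 0 z + ∫ s in (0 : ℝ)..t, Qcoll (emb f s) (shift s z) := by
  filter_upwards [ae_coords h.mild] with z hz t ht
  rw [emb_shift h]
  refine (hz.2 t ht).trans ?_
  congr 1
  exact intervalIntegral.integral_congr fun s _ => (Qcoll_emb_shift h s z).symm

lemma lintegral_emb (h : IsSlabSol θ T f) {W : V3 → ℝ≥0∞} (hW : Measurable W) (t : ℝ) :
    ∫⁻ z : Omega, W z.2 * ENNReal.ofReal (emb f t z) = xint W (f t) :=
  lintegral_coords (p := fun q => W q.2 * sl (f t) q.1 q.2)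
    ((hW.comp measurable_snd).mul (measurable_sl (h.measurable_time t)))

lemma relEntM_emb (h : IsSlabSol θ T f) (t : ℝ) : relEntM (emb f t) = slabEnt (f t) := by
  have hm := h.measurable_time t
  exact lintegral_coords (p := fun q => ENNReal.ofReal
    (f t q.1 q.2 * log (f t q.1 q.2 / M0 q.2) - f t q.1 q.2 + M0 q.2))
    ((((hm.mul ((hm.div (measurable_M0.comp measurable_snd)).log)).sub hm).add
      (measurable_M0.comp measurable_snd)).ennreal_ofReal)

lemma measurable_dissDen {ι : Type*} [MeasurableSpace ι] {a b : ι → ℝ} (ha : Measurable a)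
    (hb : Measurable b) : Measurable fun i => dissDen (a i) (b i) := by
  refine Measurable.ite (measurableSet_eq_fun ha hb) measurable_const
    (Measurable.ite ?_ measurable_const ((ha.sub hb).mul (ha.div hb).log).ennreal_ofReal)
  exact (measurableSet_eq_fun ha measurable_const).union (measurableSet_eq_fun hb measurable_const)

lemma dissip_emb (h : IsSlabSol θ T f) (t : ℝ) : dissip (emb f t) = slabDiss (f t) := by
  have hm : Measurable (Function.uncurry (f t)) := h.measurable_time t
  have ha : ∀ pf : V3 → V3 × S2 → V3, Measurable (fun q : V3 × V3 × S2 => pf q.1 q.2) →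
      Measurable fun q : (ℝ × V3) × V3 × S2 => f t q.1.1 (pf q.1.2 q.2) := fun pf hπ =>
    hm.comp ((measurable_fst.comp measurable_fst).prodMk
      (hπ.comp ((measurable_snd.comp measurable_fst).prodMk measurable_snd)))
  have hi : Measurable fun q : (ℝ × V3) × V3 × S2 => |impact q.1.2 q.2| :=
    (measurable_impact.comp ((measurable_snd.comp measurable_fst).prodMk measurable_snd)).abs
  refine lintegral_coords (p := fun q => ∫⁻ p : V3 × S2, ENNReal.ofReal |impact q.2 p| *
    dissDen (f t q.1 (postV q.2 p) * f t q.1 (postW q.2 p)) (f t q.1 q.2 * f t q.1 p.1)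
    ∂((volume : Measure V3).prod surface)) (Measurable.lintegral_prod_right'
      (hi.ennreal_ofReal.mul (measurable_dissDen ((ha postV measurable_postV).mul
        (ha postW measurable_postW)) ((hm.comp measurable_fst).mul
          (ha (fun _ p => p.1) (measurable_fst.comp measurable_snd))))))

end Vale.Agent.P140.Slab
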