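import Vale.Agent.P140.Slab.GaussDefs
import Vale.Agent.P140.Slab.Embed
import Vale.Agent.P140.Slab.Sphere

/-!
# Data below a Maxwellian
-/

open MeasureTheory Real Set Filter
open scoped RealInnerProductSpace ENNReal

namespace Vale.Agent.P140.Slab

open Vale.Agent.P140 Vale.Agent.P140.Renorm

lemma lintegral_gexp_neg {c : ℝ} (hc : 0 < c) : ∫⁻ v : V3, gexp (-c) v ≠ ⊤ := by
  have h := (integrable_exp_sq c hc (0 : V3)).lintegral_lt_top.ne
  simpa [gexp] using h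

/-- The first component of a Gaussian has a density below `dec`. -/
lemma gauss_line {c : ℝ} (hc : 0 < c) :
    ∃ K : ℝ≥0∞, K ≠ ⊤ ∧ ∀ ψ : ℝ → ℝ≥0∞, Measurable ψ →
      ∫⁻ v : V3, ψ (v 0) * gexp (-c) v ≤ K * ∫⁻ s, ψ s * dec s := by
  set P : ℝ × ℝ → ℝ≥0∞ := fun p => ENNReal.ofReal (exp (-c * (p.1 ^ 2 + p.2 ^ 2))) with hP
  have hPm : Measurable P := by rw [hP]; fun_prop
  have hPt : ∫⁻ p : ℝ × ℝ, P p ≠ ⊤ := by
    have e : ∀ p : ℝ × ℝ, P p = ENNReal.ofReal (exp (-c * p.1 ^ 2) * exp (-c * p.2 ^ 2)) :=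
      fun p => by rw [hP, ← exp_add]; ring_nf
    have hi := (integrable_exp_neg_mul_sq hc).mul_prod (integrable_exp_neg_mul_sq hc)
    rw [lintegral_congr e]
    exact hi.lintegral_lt_top.ne
  refine ⟨ENNReal.ofReal (3 * (1 + c ^ (-(3 / 4) : ℝ))) * ∫⁻ p : ℝ × ℝ, P p,
    ENNReal.mul_ne_top ENNReal.ofReal_ne_top hPt, fun ψ hψ => ?_⟩
  have hG : Measurable fun v : V3 => ψ (v 0) * gexp (-c) v :=
    (hψ.comp measurable_coord).mul (measurable_gexp _)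
  rw [lintegral_vec3 hG]
  set k := ENNReal.ofReal (3 * (1 + c ^ (-(3 / 4) : ℝ)))
  have hd : Measurable fun s => ψ s * dec s := by unfold dec; fun_prop
  calc ∫⁻ a, ∫⁻ p : ℝ × ℝ, ψ (vec3 a p.1 p.2 0) * gexp (-c) (vec3 a p.1 p.2)
      ≤ ∫⁻ a, ∫⁻ p : ℝ × ℝ, k * (ψ a * dec a) * P p := by
        refine lintegral_mono fun a => lintegral_mono fun p => ?_
        simp only [vec3_zero, gexp, k, hP, dec, norm_vec3]
        rw [sq_sqrt (by positivity), show -c * (a ^ 2 + p.1 ^ 2 + p.2 ^ 2) =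
          -(c * a ^ 2) + -c * (p.1 ^ 2 + p.2 ^ 2) by ring, exp_add,
          ENNReal.ofReal_mul (exp_pos _).le, ← mul_assoc]
        refine mul_le_mul' ?_ le_rfl
        rw [mul_comm (ψ a), mul_comm (ψ a), ← mul_assoc, ← ENNReal.ofReal_mul (by positivity)]
        refine mul_le_mul' (ENNReal.ofReal_le_ofReal ?_) le_rfl
        have hb := rpow_mul_exp_le hc (abs_nonneg a)
        rw [sq_abs] at hb
        rw [show (1 + |a|) ^ (-(3 / 2) : ℝ) = ((1 + |a|) ^ (3 / 2 : ℝ))⁻¹ from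
          rpow_neg (by positivity) _, ← div_eq_mul_inv, le_div_iff₀ (by positivity)]
        linarith
    _ = _ := by
        simp_rw [lintegral_const_mul _ hPm]
        rw [lintegral_mul_const _ (hd.const_mul k), lintegral_const_mul _ hd]
        ring

variable {A θD : ℝ} {g : Prof}

lemma sl_le_gauss (hA : 0 ≤ A) (hg : ∀ x v, g x v ≤ A * exp (-θD * ‖v‖ ^ 2)) (x : ℝ) (v : V3) :
    sl g x v ≤ ENNReal.ofReal A * gexp (-θD) v := by
  rw [gexp, ← ENNReal.ofReal_mul hA]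
  exact ENNReal.ofReal_le_ofReal (hg x v)

lemma slice_data (hA : 0 ≤ A) {θ : ℝ} (hθ : θ < θD) :
    ∃ C : ℝ≥0∞, C ≠ ⊤ ∧ ∀ g : Prof, (∀ x v, g x v ≤ A * exp (-θD * ‖v‖ ^ 2)) →
      SliceLE (gw θ 0) C g := by
  obtain ⟨K, hK, hKb⟩ := gauss_line (sub_pos.2 hθ)
  refine ⟨ENNReal.ofReal A * K, ENNReal.mul_ne_top ENNReal.ofReal_ne_top hK,
    fun g hg ξ ψ _ hψ => ?_⟩
  rw [mul_assoc]
  refine le_trans ?_ (mul_le_mul' le_rfl (hKb ψ hψ))
  rw [← lintegral_const_mul _ (f := fun v : V3 => ψ (v 0) * gexp (-(θD - θ)) v)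
    ((hψ.comp measurable_coord).mul (measurable_gexp _))]
  refine lintegral_mono fun v => ?_
  refine (mul_le_mul' le_rfl (sl_le_gauss hA hg (ξ (v 0)) v)).trans_eq ?_
  have e : gw θ 0 v * gexp (-θD) v = gexp (-(θD - θ)) v := by
    rw [gw, gexp, gexp, ← ENNReal.ofReal_mul (exp_pos _).le, ← exp_add]
    congr 2
    simp [theta]; ring
  rw [← e]; ring

/-- A bound for all moments of the data with a weight below `exp (θD |v|²/2)`. -/
noncomputable def dataMass (A θD : ℝ) : ℝ≥0∞ :=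
  ENNReal.ofReal A * ∫⁻ v : V3, gexp (-(θD / 2)) v

lemma dataMass_ne_top (A : ℝ) (hθD : 0 < θD) : dataMass A θD ≠ ⊤ :=
  ENNReal.mul_ne_top ENNReal.ofReal_ne_top (lintegral_gexp_neg (half_pos hθD))

lemma data_moment (hA : 0 ≤ A) (hg : ∀ x v, g x v ≤ A * exp (-θD * ‖v‖ ^ 2)) {W : V3 → ℝ≥0∞}
    {c : ℝ≥0∞} (hW : ∀ v, W v ≤ c * gexp (θD / 2) v) (ξ : V3 → ℝ) :
    ∫⁻ v, W v * sl g (ξ v) v ≤ c * dataMass A θD := by
  rw [dataMass, ← mul_assoc, ← lintegral_const_mul _ (measurable_gexp _)]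
  refine lintegral_mono fun v => ?_
  refine (mul_le_mul' (hW v) (sl_le_gauss hA hg (ξ v) v)).trans_eq ?_
  have e : gexp (θD / 2) v * gexp (-θD) v = gexp (-(θD / 2)) v := by
    rw [gexp, gexp, gexp, ← ENNReal.ofReal_mul (exp_pos _).le, ← exp_add]
    congr 2; ring
  rw [← e]; ring

lemma data_xint (hA : 0 ≤ A) (hg : ∀ x v, g x v ≤ A * exp (-θD * ‖v‖ ^ 2)) {W : V3 → ℝ≥0∞}
    {c : ℝ≥0∞} (hW : ∀ v, W v ≤ c * gexp (θD / 2) v) : xint W g ≤ c * dataMass A θD :=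
  le_trans (lintegral_mono fun y => data_moment hA hg hW fun _ => y)
    (le_of_eq (by simp))

lemma data_landSup {f : ℝ → Prof} (hA : 0 ≤ A)
    (hg : ∀ x v, f 0 x v ≤ A * exp (-θD * ‖v‖ ^ 2)) {W : ℝ → V3 → ℝ≥0∞} {T : ℝ} {c : ℝ≥0∞}
    (hW : ∀ t ∈ Icc 0 T, ∀ v, W t v ≤ c * gexp (θD / 2) v) :
    landSup W f T 0 ≤ c * dataMass A θD := by
  refine iSup₂_le fun t ht => iSup_le fun x => ?_
  refine le_trans (le_of_eq (lintegral_congr fun v => ?_))
    (data_moment hA hg (hW t ht) fun v => x - t * v 0)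
  simp [env, min_eq_left ht.1]

lemma phi_le_data {θ t : ℝ} (hθ : 0 ≤ θ) (hD : 0 < θD) (ht : 0 ≤ t) (hθ4 : θ ≤ θD / 4) (v : V3) :
    phi θ t v ≤ ENNReal.ofReal (θ * (4 / θD)) * gexp (θD / 2) v := by
  rw [phi, gexp, ← ENNReal.ofReal_mul (by positivity)]
  refine ENNReal.ofReal_le_ofReal ?_
  set x := xv θ t v with hx
  set r2 := ‖v‖ ^ 2 with hr2
  have hr : 0 ≤ r2 := sq_nonneg _
  have hx0 : 0 ≤ x := xv_nonneg hθ t v
  have hxr : x ≤ θ * r2 := mul_le_mul_of_nonneg_right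
    (mul_le_of_le_one_right hθ (exp_le_one_iff.2 (by linarith))) hr
  have h1 : exp x - 1 ≤ x * exp x := by
    have := mul_le_mul_of_nonneg_left (add_one_le_exp (-x)) (exp_pos x).le
    rw [← exp_add, add_neg_cancel, exp_zero] at this
    linarith
  have h2 : θD / 4 * r2 ≤ exp (θD / 4 * r2) := by linarith [add_one_le_exp (θD / 4 * r2)]
  calc exp x - 1 ≤ x * exp x := h1
    _ ≤ θ * r2 * exp (θD / 4 * r2) := by
        refine mul_le_mul hxr (exp_le_exp.2 (hxr.trans ?_)) (exp_pos _).le (by positivity)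
        exact mul_le_mul_of_nonneg_right hθ4 hr
    _ = θ * (4 / θD) * (θD / 4 * r2 * exp (θD / 4 * r2)) := by field_simp
    _ ≤ θ * (4 / θD) * (exp (θD / 4 * r2) * exp (θD / 4 * r2)) :=
        mul_le_mul_of_nonneg_left (mul_le_mul_of_nonneg_right h2 (exp_pos _).le) (by positivity)
    _ = _ := by rw [← exp_add]; ring_nf

lemma psiW_le_data {θ : ℝ} (hθ : 0 ≤ θ) (hD : 0 < θD) (hθ4 : θ ≤ θD / 4) (v : V3) :
    psiW θ 0 v ≤ ENNReal.ofReal (θ ^ 2 * (64 / θD ^ 2)) * gexp (θD / 2) v := by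
  rw [psiW, gexp, ← ENNReal.ofReal_mul (by positivity)]
  refine ENNReal.ofReal_le_ofReal ?_
  set x := xv θ 0 v with hx
  set r2 := ‖v‖ ^ 2 with hr2
  have hr : 0 ≤ r2 := sq_nonneg _
  have hxr : x = θ * r2 := by simp [hx, xv, theta, hr2]
  have hx0 : 0 ≤ x := xv_nonneg hθ 0 v
  have h1 : exp x - 1 - x ≤ x ^ 2 * exp x := by
    have h' := mul_le_mul_of_nonneg_left (add_one_le_exp (-x)) (exp_pos x).le
    rw [← exp_add, add_neg_cancel, exp_zero] at h'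
    nlinarith [add_one_le_exp x, mul_le_mul_of_nonneg_left h' hx0]
  set a := θD / 8 * r2
  have h2 : a ^ 2 ≤ exp a * exp a := by
    have ha : 0 ≤ a := by positivity
    nlinarith [add_one_le_exp a, exp_pos a]
  calc exp x - 1 - x ≤ x ^ 2 * exp x := h1
    _ ≤ (θ * r2) ^ 2 * exp (θD / 4 * r2) := by
        rw [hxr]
        exact mul_le_mul_of_nonneg_left (exp_le_exp.2 (mul_le_mul_of_nonneg_right hθ4 hr))
          (sq_nonneg _)
    _ = θ ^ 2 * (64 / θD ^ 2) * (a ^ 2 * exp (θD / 4 * r2)) := by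
        simp only [a]; field_simp; ring
    _ ≤ θ ^ 2 * (64 / θD ^ 2) * ((exp a * exp a) * exp (θD / 4 * r2)) :=
        mul_le_mul_of_nonneg_left (mul_le_mul_of_nonneg_right h2 (exp_pos _).le) (by positivity)
    _ = _ := by rw [← exp_add, ← exp_add]; simp only [a]; ring_nf

end Vale.Agent.P140.Slab
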