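import Vale.Agent.P140.Slab.Basic

/-!
# The gain along a graph under a Gaussian weight

One half power and one power of the velocity are paid by any positive loss `δ` of the Gaussian
rate, at the cost `δ^(-3/4)`.
-/

open MeasureTheory Real Set Filter
open scoped RealInnerProductSpace ENNReal

namespace Vale.Agent.P140.Slab

open Vale.Agent.P140 Vale.Agent.P140.Renorm

/-- `exp (ρ |v|^2)`. -/
noncomputable def gexp (ρ : ℝ) (v : V3) : ℝ≥0∞ := ENNReal.ofReal (exp (ρ * ‖v‖ ^ 2))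

lemma gw_eq (θ t : ℝ) : gw θ t = gexp (theta θ t) := rfl

lemma measurable_gexp (ρ : ℝ) : Measurable (gexp ρ) := by unfold gexp; fun_prop

lemma gexp_mono {ρ ρ' : ℝ} (h : ρ ≤ ρ') : gexp ρ ≤ gexp ρ' := fun v =>
  ENNReal.ofReal_le_ofReal (exp_le_exp.2 (mul_le_mul_of_nonneg_right h (sq_nonneg _)))

lemma rpow_mul_exp_le {δ r : ℝ} (hδ : 0 < δ) (hr : 0 ≤ r) :
    (1 + r) ^ (3 / 2 : ℝ) * exp (-(δ * r ^ 2)) ≤ 3 * (1 + δ ^ (-(3 / 4) : ℝ)) := by
  have hd : 0 < δ ^ (-(3 / 4) : ℝ) := rpow_pos_of_pos hδ _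
  have he : exp (-(δ * r ^ 2)) ≤ 1 := exp_le_one_iff.2 (by nlinarith)
  have h22 : (2 : ℝ) ^ (3 / 2 : ℝ) ≤ 3 := by
    have h : ((2 : ℝ) ^ (3 / 2 : ℝ)) ^ 2 = 8 := by
      rw [← rpow_natCast, ← rpow_mul (by norm_num)]; norm_num
    nlinarith [rpow_pos_of_pos (show (0 : ℝ) < 2 by norm_num) (3 / 2)]
  rcases le_or_gt r 1 with h | h
  · have h1 : (1 + r) ^ (3 / 2 : ℝ) ≤ 3 :=
      (rpow_le_rpow (by linarith) (by linarith) (by norm_num)).trans h22
    nlinarith [rpow_nonneg (show 0 ≤ 1 + r by linarith) (3 / 2 : ℝ), exp_pos (-(δ * r ^ 2))]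
  · set u := δ * r ^ 2 with hu
    have hu0 : 0 < u := by positivity
    have h1 : (1 + r) ^ (3 / 2 : ℝ) ≤ 3 * r ^ (3 / 2 : ℝ) := by
      refine (rpow_le_rpow (by linarith) (show 1 + r ≤ 2 * r by linarith) (by norm_num)).trans ?_
      rw [mul_rpow (by norm_num) hr]
      exact mul_le_mul_of_nonneg_right h22 (rpow_nonneg hr _)
    have h2 : u ^ (3 / 4 : ℝ) * exp (-u) ≤ 1 := by
      rw [exp_neg, ← div_eq_mul_inv, div_le_one (exp_pos _)]
      refine le_trans ?_ (add_one_le_exp u)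
      rcases le_or_gt u 1 with hu1 | hu1
      · exact (rpow_le_one hu0.le hu1 (by norm_num)).trans (by linarith)
      · calc u ^ (3 / 4 : ℝ) ≤ u ^ (1 : ℝ) := rpow_le_rpow_of_exponent_le hu1.le (by norm_num)
          _ ≤ u + 1 := by rw [rpow_one]; linarith
    have h3 : r ^ (3 / 2 : ℝ) = δ ^ (-(3 / 4) : ℝ) * u ^ (3 / 4 : ℝ) := by
      rw [hu, mul_rpow hδ.le (sq_nonneg r), ← mul_assoc, ← rpow_add hδ, ← rpow_natCast,
        ← rpow_mul hr]
      norm_num
    calc (1 + r) ^ (3 / 2 : ℝ) * exp (-u) ≤ 3 * r ^ (3 / 2 : ℝ) * exp (-u) :=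
          mul_le_mul_of_nonneg_right h1 (exp_pos _).le
      _ = 3 * δ ^ (-(3 / 4) : ℝ) * (u ^ (3 / 4 : ℝ) * exp (-u)) := by rw [h3]; ring
      _ ≤ 3 * δ ^ (-(3 / 4) : ℝ) * 1 := mul_le_mul_of_nonneg_left h2 (by positivity)
      _ ≤ _ := by linarith

lemma abs_le_of_mem_hitSet {v u : V3} {s : ℝ} (hs : s ∈ hitSet v u) : |s| ≤ ‖v‖ + ‖u‖ := by
  have hv : |v 0| ≤ ‖v‖ := by simpa using PiLp.norm_apply_le v 0
  have hu : |u 0| ≤ ‖u‖ := by simpa using PiLp.norm_apply_le u 0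
  have hd := norm_sub_le v u
  obtain ⟨h1, h2⟩ := hs
  rw [abs_le]
  constructor <;> linarith [abs_le.1 hv, abs_le.1 hu, norm_nonneg (v - u)]

/-- The constant of `gain_graph_le`. -/
noncomputable def graphC (δ : ℝ) : ℝ≥0∞ :=
  ENNReal.ofReal (2 * π) * ENNReal.ofReal (3 * (1 + (δ / 2) ^ (-(3 / 4) : ℝ)))

lemma graphC_ne_top (δ : ℝ) : graphC δ ≠ ⊤ :=
  ENNReal.mul_ne_top ENNReal.ofReal_ne_top ENNReal.ofReal_ne_top

theorem gain_graph_le (hP : PinGain) {g : Prof} (hg : Measurable (Function.uncurry g)) {ρ δ : ℝ}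
    (hρ : 0 ≤ ρ) (hδ : 0 < δ) {Z : ℝ≥0∞} (hZ : ∀ y, mom (gexp (ρ + δ)) g y ≤ Z) {ξ : ℝ → ℝ}
    {ψ : ℝ → ℝ≥0∞} (hξ : Measurable ξ) (hψ : Measurable ψ) :
    ∫⁻ v, ψ (v 0) * gexp ρ v * gs g (ξ (v 0)) v ≤ graphC δ * Z * Z * ∫⁻ s, ψ s * dec s := by
  set h : ℝ → V3 → ℝ≥0∞ := fun s => sl g (ξ s) with hh
  have hm : Measurable (Function.uncurry h) :=
    (measurable_sl hg).comp ((hξ.comp measurable_fst).prodMk measurable_snd)
  set K : ℝ → V3 → V3 → ℝ≥0∞ := fun s v u => ψ s * (gexp ρ v * gexp ρ u) with hK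
  have hKm : Measurable fun q : ℝ × V3 × V3 => K q.1 q.2.1 q.2.2 := by
    have := measurable_gexp ρ
    simp only [hK]; fun_prop
  have hW : Measurable fun v : V3 => ψ (v 0) * gexp ρ v :=
    (hψ.comp measurable_coord).mul (measurable_gexp ρ)
  have hWK : ∀ v p, ψ (postV v p 0) * gexp ρ (postV v p) ≤ K (postV v p 0) v p.1 := by
    intro v p
    simp only [hK, gexp]
    rw [← ENNReal.ofReal_mul (exp_pos _).le, ← exp_add, ← mul_add]
    gcongr
    nlinarith [energy_post v p, sq_nonneg ‖postW v p‖]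
  refine (hP _ K h hW hKm hm hWK).trans ?_
  set c := ENNReal.ofReal (3 * (1 + (δ / 2) ^ (-(3 / 4) : ℝ)))
  have key : ∀ s v u, (hitSet v u).indicator (fun s => K s v u * h s v * h s u) s ≤
      c * (ψ s * dec s) * ((gexp (ρ + δ) v * h s v) * (gexp (ρ + δ) u * h s u)) := by
    intro s v u
    by_cases hs : s ∈ hitSet v u
    swap
    · simp [indicator_of_notMem hs]
    rw [indicator_of_mem hs]
    have h1 : gexp ρ v * gexp ρ u ≤ c * dec s * (gexp (ρ + δ) v * gexp (ρ + δ) u) := by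
      simp only [gexp, dec, c]
      rw [← ENNReal.ofReal_mul (exp_pos _).le, ← ENNReal.ofReal_mul (exp_pos _).le,
        ← ENNReal.ofReal_mul (by positivity), ← ENNReal.ofReal_mul (by positivity)]
      refine ENNReal.ofReal_le_ofReal ?_
      have hsq : s ^ 2 ≤ 2 * (‖v‖ ^ 2 + ‖u‖ ^ 2) := by
        have := abs_le_of_mem_hitSet hs
        nlinarith [sq_abs s, sq_nonneg (‖v‖ - ‖u‖), abs_nonneg s]
      have hb := rpow_mul_exp_le (half_pos hδ) (abs_nonneg s)
      rw [sq_abs] at hb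
      have hp : 0 < (1 + |s|) ^ (3 / 2 : ℝ) := by positivity
      rw [show (1 + |s|) ^ (-(3 / 2) : ℝ) = ((1 + |s|) ^ (3 / 2 : ℝ))⁻¹ from rpow_neg (by positivity) _,
        ← exp_add, ← exp_add]
      have h3 : exp (ρ * ‖v‖ ^ 2 + ρ * ‖u‖ ^ 2) ≤
          exp (-(δ / 2 * s ^ 2)) * exp ((ρ + δ) * ‖v‖ ^ 2 + (ρ + δ) * ‖u‖ ^ 2) := by
        rw [← exp_add]
        exact exp_le_exp.2 (by nlinarith)
      refine h3.trans (mul_le_mul_of_nonneg_right ?_ (exp_pos _).le)
      rw [← div_eq_mul_inv, le_div_iff₀ hp]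
      linarith
    calc K s v u * h s v * h s u = ψ s * (gexp ρ v * gexp ρ u) * (h s v * h s u) := by
          simp only [hK]; ring
      _ ≤ ψ s * (c * dec s * (gexp (ρ + δ) v * gexp (ρ + δ) u)) * (h s v * h s u) := by gcongr
      _ = _ := by ring
  have hsec : ∀ s, Measurable fun v => gexp (ρ + δ) v * h s v := fun s =>
    (measurable_gexp _).mul (measurable_sl_at hg _)
  calc ENNReal.ofReal (2 * π) *
        ∫⁻ s, ∫⁻ v, ∫⁻ u, (hitSet v u).indicator (fun s => K s v u * h s v * h s u) s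
      ≤ ENNReal.ofReal (2 * π) * ∫⁻ s, c * (ψ s * dec s) * (Z * Z) := by
        refine mul_le_mul' le_rfl (lintegral_mono fun s => ?_)
        calc ∫⁻ v, ∫⁻ u, (hitSet v u).indicator (fun s => K s v u * h s v * h s u) s
            ≤ ∫⁻ v, ∫⁻ u, c * (ψ s * dec s) *
                ((gexp (ρ + δ) v * h s v) * (gexp (ρ + δ) u * h s u)) :=
              lintegral_mono fun v => lintegral_mono fun u => key s v u
          _ = c * (ψ s * dec s) * (mom (gexp (ρ + δ)) g (ξ s) * mom (gexp (ρ + δ)) g (ξ s)) := by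
              have e : ∀ v, ∫⁻ u, c * (ψ s * dec s) *
                  ((gexp (ρ + δ) v * h s v) * (gexp (ρ + δ) u * h s u)) =
                  (c * (ψ s * dec s) * ∫⁻ u, gexp (ρ + δ) u * h s u) *
                    (gexp (ρ + δ) v * h s v) := fun v => by
                rw [lintegral_const_mul _ ((hsec s).const_mul _), lintegral_const_mul _ (hsec s)]
                ring
              rw [lintegral_congr e, lintegral_const_mul _ (hsec s)]
              simp only [mom, hh]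
              ring
          _ ≤ _ := mul_le_mul' le_rfl (mul_le_mul' (hZ _) (hZ _))
    _ = _ := by
        have hd : Measurable fun s => ψ s * dec s := by unfold dec; fun_prop
        rw [lintegral_mul_const (Z * Z) (f := fun s => c * (ψ s * dec s)) (hd.const_mul c),
          lintegral_const_mul _ hd, graphC]
        ring

end Vale.Agent.P140.Slab
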