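import Vale.Agent.P140.Slab.Balance
import Vale.Agent.P140.Slab.GainBound

/-!
# Finiteness and excess estimates for weighted moments
-/

open MeasureTheory Real Set Filter
open scoped RealInnerProductSpace ENNReal

namespace Vale.Agent.P140.Slab

open Vale.Agent.P140 Vale.Agent.P140.Renorm

variable {θ T : ℝ} {f : ℝ → Prof}

lemma theta_ge (hθ : 0 ≤ θ) {t : ℝ} (ht : t ≤ T) : theta θ T ≤ theta θ t :=
  mul_le_mul_of_nonneg_left (exp_le_exp.2 (by linarith)) hθ

lemma theta_pos (hθ : 0 < θ) (t : ℝ) : 0 < theta θ t := mul_pos hθ (exp_pos _)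

/-- Powers of `1 + |v|` are below any Gaussian. -/
lemma pow_le_gexp {ρ : ℝ} (hρ : 0 < ρ) (n : ℕ) :
    ∃ c : ℝ≥0∞, c ≠ ⊤ ∧ ∀ v : V3, ENNReal.ofReal ((1 + ‖v‖) ^ n) ≤ c * gexp ρ v := by
  refine ⟨ENNReal.ofReal (exp ((n : ℝ) ^ 2 / (4 * ρ))), ENNReal.ofReal_ne_top, fun v => ?_⟩
  rw [gexp, ← ENNReal.ofReal_mul (exp_pos _).le, ← exp_add]
  refine ENNReal.ofReal_le_ofReal ?_
  calc (1 + ‖v‖) ^ n ≤ exp ‖v‖ ^ n :=
        pow_le_pow_left₀ (by positivity) (by linarith [add_one_le_exp ‖v‖]) n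
    _ = exp (n * ‖v‖) := (exp_nat_mul _ n).symm
    _ ≤ _ := by
        refine exp_le_exp.2 ?_
        have e : (n : ℝ) ^ 2 / (4 * ρ) + ρ * ‖v‖ ^ 2 - n * ‖v‖ =
            (2 * ρ * ‖v‖ - n) ^ 2 / (4 * ρ) := by field_simp; ring
        linarith [show 0 ≤ (2 * ρ * ‖v‖ - n) ^ 2 / (4 * ρ) by positivity]

/-- A weight below a Gaussian of the final rate has bounded moments. -/
lemma mom_bdd (hθ : 0 ≤ θ) (h : IsSlabSol θ T f) :
    ∃ K : ℝ≥0∞, K ≠ ⊤ ∧ ∀ t ∈ Icc 0 T, ∀ y, mom (gexp (theta θ T)) (f t) y ≤ K := by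
  obtain ⟨C, hC, hb⟩ := h.bounded
  refine ⟨C * ∫⁻ s, dec s, ENNReal.mul_ne_top hC lintegral_dec_ne_top, fun t ht y => ?_⟩
  exact ((hb t ht).mono (gexp_mono (theta_ge hθ ht.2))).mom_le y

lemma mom_bdd_gw (h : IsSlabSol θ T f) :
    ∃ K : ℝ≥0∞, K ≠ ⊤ ∧ ∀ t ∈ Icc 0 T, ∀ y, mom (gw θ t) (f t) y ≤ K := by
  obtain ⟨C, hC, hb⟩ := h.bounded
  exact ⟨C * ∫⁻ s, dec s, ENNReal.mul_ne_top hC lintegral_dec_ne_top,
    fun t ht y => (hb t ht).mom_le y⟩

lemma gexp_le_gw (hθ : 0 ≤ θ) {t : ℝ} (ht : t ≤ T) (v : V3) : gexp (theta θ T) v ≤ gw θ t v :=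
  gexp_mono (theta_ge hθ ht) v

lemma mom_le_mul {W V : V3 → ℝ≥0∞} {g : Prof} {c : ℝ≥0∞} (hV : Measurable V)
    (hg : Measurable (Function.uncurry g)) (h : ∀ v, W v ≤ c * V v) (y : ℝ) :
    mom W g y ≤ c * mom V g y := by
  unfold mom
  rw [← lintegral_const_mul c (f := fun v => V v * sl g y v) (hV.mul (measurable_sl_at hg y))]
  exact lintegral_mono fun v => (mul_le_mul' (h v) le_rfl).trans_eq (mul_assoc _ _ _)

lemma ls_le {g : Prof} (hg : Measurable (Function.uncurry g)) (y : ℝ) (v : V3) :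
    ls g y v ≤ surface univ * (lin v * sl g y v) * mom lin g y := by
  have hl : Measurable fun w => lin w * sl g y w :=
    (by unfold lin; fun_prop : Measurable lin).mul (measurable_sl_at hg y)
  have e : lossRate (sl g y) v ≤ lin v * (surface univ * mom lin g y) := by
    unfold lossRate mom
    rw [lintegral_prod _ (by
      have := measurable_sl_at hg y
      fun_prop), ← lintegral_const_mul _ hl, ← lintegral_const_mul _ (hl.const_mul _)]
    refine lintegral_mono fun w => ?_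
    calc ∫⁻ ω, ENNReal.ofReal |impact v (w, ω)| * sl g y w ∂surface
        ≤ ∫⁻ _, lin v * (lin w * sl g y w) ∂surface := by
          refine lintegral_mono fun ω => ?_
          unfold lin
          rw [← mul_assoc, ← ENNReal.ofReal_mul (by positivity)]
          gcongr
          exact abs_impact_le v (w, ω)
      _ = _ := by rw [lintegral_const]; ring
  calc ls g y v ≤ sl g y v * (lin v * (surface univ * mom lin g y)) := mul_le_mul' le_rfl e
    _ = _ := by ring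

/-- The weighted loss is finite for a weight below the current Gaussian. -/
lemma loss_finite (hθ : 0 < θ) (h : IsSlabSol θ T f) {a : ℝ → V3 → ℝ≥0∞}
    {c : ℝ≥0∞} (hc : c ≠ ⊤) (ha : Measurable (Function.uncurry a))
    {t : ℝ} (ht : t ∈ Icc 0 T) (hac : ∀ s ∈ Icc 0 t, ∀ v, a s v * lin v ≤ c * gw θ s v) :
    (∫⁻ s in Ioc 0 t, ∫⁻ y in Ioc (0 : ℝ) 1, ∫⁻ v, a s v * ls (f s) y v) ≠ ⊤ := by
  obtain ⟨K, hK, hKb⟩ := mom_bdd hθ.le h
  obtain ⟨K', hK', hKb'⟩ := mom_bdd_gw h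
  obtain ⟨c₂, hc₂, h₂⟩ := pow_le_gexp (theta_pos hθ T) 1
  set Kf := surface univ * (c * K') * (c₂ * K) with hKf
  have hKf' : Kf ≠ ⊤ := ENNReal.mul_ne_top (ENNReal.mul_ne_top (measure_ne_top _ _)
    (ENNReal.mul_ne_top hc hK')) (ENNReal.mul_ne_top hc₂ hK)
  refine ne_top_of_le_ne_top (b := ∫⁻ _ in Ioc 0 t, Kf) ?_
    (lintegral_mono_ae ((ae_restrict_iff' measurableSet_Ioc).2
      (Eventually.of_forall fun s hs => ?_)))
  · rw [setLIntegral_const]
    exact ENNReal.mul_ne_top hKf' (measure_Ioc_lt_top).ne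
  have hsT : s ∈ Icc 0 T := ⟨hs.1.le, hs.2.trans ht.2⟩
  have hm := h.measurable_time s
  refine le_trans (lintegral_mono fun y => ?_) (b := ∫⁻ _ in Ioc (0 : ℝ) 1, Kf) ?_
  · calc ∫⁻ v, a s v * ls (f s) y v
        ≤ ∫⁻ v, surface univ * (a s v * lin v * sl (f s) y v) * mom lin (f s) y :=
          lintegral_mono fun v => (mul_le_mul' le_rfl (ls_le hm y v)).trans_eq (by ring)
      _ = surface univ * mom (fun v => a s v * lin v) (f s) y * mom lin (f s) y := by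
          have hmv : Measurable fun v => a s v * lin v * sl (f s) y v :=
            ((ha.comp measurable_prodMk_left).mul (by unfold lin; fun_prop)).mul
              (measurable_sl_at hm y)
          rw [lintegral_mul_const (mom lin (f s) y)
            (f := fun v => surface univ * (a s v * lin v * sl (f s) y v)) (hmv.const_mul _),
            lintegral_const_mul _ hmv]
          rfl
      _ ≤ Kf := by
          refine mul_le_mul' (mul_le_mul' le_rfl ?_) ?_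
          · exact (mom_le_mul (V := gw θ s) (measurable_gexp _) hm
              (hac s (Ioc_subset_Icc_self hs)) y).trans (mul_le_mul' le_rfl (hKb' s hsT y))
          · refine (mom_le_mul (measurable_gexp _) hm (fun v => ?_) y).trans
              (mul_le_mul' le_rfl (hKb s hsT y))
            simpa [lin] using h₂ v
  · simp

/-- A decreasing weight whose pairwise excess is `D` grows at most by the integral of `D`. -/
theorem excess (hθ : 0 < θ) (h : IsSlabSol θ T f) {a b : ℝ → V3 → ℝ≥0∞}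
    {D : ℝ → V3 → V3 → ℝ≥0∞} {c : ℝ≥0∞} (hc : c ≠ ⊤)
    (ha : Measurable (Function.uncurry a)) (hb : Measurable (Function.uncurry b))
    (hD : ∀ s, Measurable (Function.uncurry (D s))) {t : ℝ} (ht : t ∈ Icc 0 T)
    (hac : ∀ s ∈ Icc 0 t, ∀ v, a s v * lin v ≤ c * gw θ s v)
    (hab : ∀ s ∈ Icc 0 t, ∀ v, a s v = a t v + ∫⁻ r in Ioc s t, b r v)
    (hΔ : ∀ s ∈ Ioc 0 t, ∀ v (p : V3 × S2),
      a s (postV v p) + a s (postW v p) ≤ a s v + a s p.1 + D s v p.1) :
    2 * (xint (a t) (f t) + ∫⁻ r in Ioc 0 t, xint (b r) (f r)) ≤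
      2 * xint (a 0) (f 0) + surface univ * ∫⁻ s in Ioc 0 t, ∫⁻ y in Ioc (0 : ℝ) 1,
        ∫⁻ v, ∫⁻ u, ENNReal.ofReal (‖v‖ + ‖u‖) * D s v u * sl (f s) y v * sl (f s) y u := by
  set L := ∫⁻ s in Ioc 0 t, ∫⁻ y in Ioc (0 : ℝ) 1, ∫⁻ v, a s v * ls (f s) y v with hL
  have hLf : L ≠ ⊤ := loss_finite hθ h hc ha ht hac
  have hG : 2 * (∫⁻ s in Ioc 0 t, ∫⁻ y in Ioc (0 : ℝ) 1, ∫⁻ v, a s v * gs (f s) y v) ≤
      2 * L + surface univ * ∫⁻ s in Ioc 0 t, ∫⁻ y in Ioc (0 : ℝ) 1,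
        ∫⁻ v, ∫⁻ u, ENNReal.ofReal (‖v‖ + ‖u‖) * D s v u * sl (f s) y v * sl (f s) y u := by
    have hml : Measurable fun w : ℝ × ℝ × V3 => a w.1 w.2.2 * ls (f w.1) w.2.1 w.2.2 :=
      (ha.comp (measurable_fst.prodMk (measurable_snd.comp measurable_snd))).mul
        (measurable_ls_param h.measurable)
    have hl1 : Measurable fun w : ℝ × ℝ => ∫⁻ v, a w.1 v * ls (f w.1) w.2 v :=
      Measurable.lintegral_prod_right' (f := fun w : (ℝ × ℝ) × V3 =>
        a w.1.1 w.2 * ls (f w.1.1) w.1.2 w.2)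
        (hml.comp (f := fun w : (ℝ × ℝ) × V3 => (w.1.1, w.1.2, w.2)) (by fun_prop))
    have hl2 : Measurable fun s => ∫⁻ y in Ioc (0 : ℝ) 1, ∫⁻ v, a s v * ls (f s) y v :=
      Measurable.lintegral_prod_right' (f := fun w : ℝ × ℝ => ∫⁻ v, a w.1 v * ls (f w.1) w.2 v)
        hl1
    rw [hL, ← lintegral_const_mul _ hl2,
      ← lintegral_const_mul' _ _ ENNReal.ofNat_ne_top, ← lintegral_const_mul' _ _ (measure_ne_top surface univ),
      ← lintegral_add_left (hl2.const_mul 2)]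
    refine lintegral_mono_ae ((ae_restrict_iff' measurableSet_Ioc).2
      (Eventually.of_forall fun s hs => ?_))
    have hls : Measurable fun y => ∫⁻ v, a s v * ls (f s) y v := hl1.comp measurable_prodMk_left
    rw [← lintegral_const_mul' _ _ ENNReal.ofNat_ne_top, ← lintegral_const_mul _ hls,
      ← lintegral_const_mul' _ _ (measure_ne_top surface univ),
      ← lintegral_add_left (hls.const_mul 2)]
    refine lintegral_mono fun y => ?_
    exact pair_excess (ha.comp measurable_prodMk_left) (hD s)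
      (measurable_sl_at (h.measurable_time s) y) (hΔ s hs)
  have e := balance h ha hb ht hab
  refine (ENNReal.add_le_add_iff_right
    (ENNReal.mul_ne_top (ENNReal.ofNat_ne_top (n := 2)) hLf)).1 ?_
  calc 2 * (xint (a t) (f t) + ∫⁻ r in Ioc 0 t, xint (b r) (f r)) + 2 * L
      = 2 * (xint (a 0) (f 0) +
          ∫⁻ s in Ioc 0 t, ∫⁻ y in Ioc (0 : ℝ) 1, ∫⁻ v, a s v * gs (f s) y v) := by
        rw [← e, ← mul_add, hL]
    _ ≤ 2 * xint (a 0) (f 0) + (2 * L + _) := by rw [mul_add]; exact add_le_add le_rfl hG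
    _ = _ := by ring

/-- A time-independent weight without excess is conserved. -/
lemma conserved (hθ : 0 < θ) (h : IsSlabSol θ T f) {a : V3 → ℝ≥0∞}
    {c : ℝ≥0∞} (hc : c ≠ ⊤) (ha : Measurable a)
    (hac : ∀ v, a v * lin v ≤ c * gexp (theta θ T) v)
    (heq : ∀ g : V3 → ℝ≥0∞, Measurable g →
      ∫⁻ v, a v * gain g g v = ∫⁻ v, a v * (g v * lossRate g v))
    {t : ℝ} (ht : t ∈ Icc 0 T) : xint a (f t) = xint a (f 0) := by
  have e := balance h (a := fun _ => a) (b := fun _ _ => 0) (ha.comp measurable_snd)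
    measurable_const ht (fun s _ v => by simp)
  have hLf : (∫⁻ s in Ioc 0 t, ∫⁻ y in Ioc (0 : ℝ) 1, ∫⁻ v, a v * ls (f s) y v) ≠ ⊤ :=
    loss_finite hθ h (a := fun _ => a) hc (ha.comp measurable_snd) ht (fun s hs v =>
      (hac v).trans (mul_le_mul' le_rfl (gexp_le_gw hθ.le (hs.2.trans ht.2) v)))
  have hb : (∫⁻ r in Ioc 0 t, xint (fun _ => 0) (f r)) = 0 := by simp [xint, mom]
  have hg : (∫⁻ s in Ioc 0 t, ∫⁻ y in Ioc (0 : ℝ) 1, ∫⁻ v, a v * gs (f s) y v) =
      ∫⁻ s in Ioc 0 t, ∫⁻ y in Ioc (0 : ℝ) 1, ∫⁻ v, a v * ls (f s) y v :=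
    lintegral_congr fun s => lintegral_congr fun y => heq _ (measurable_sl_at (h.measurable_time s) y)
  rw [hb, add_zero, hg] at e
  exact (ENNReal.add_left_inj hLf).1 e

lemma xint_one_const (hθ : 0 < θ) (h : IsSlabSol θ T f) {t : ℝ} (ht : t ∈ Icc 0 T) :
    xint (fun _ => 1) (f t) = xint (fun _ => 1) (f 0) := by
  obtain ⟨c, hc, hcb⟩ := pow_le_gexp (theta_pos hθ T) 1
  refine conserved hθ h hc measurable_const
    (fun v => by simpa [lin] using hcb v) (fun g hg => ?_) ht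
  simpa using lintegral_gain hg hg

lemma xint_sqn_const (hθ : 0 < θ) (h : IsSlabSol θ T f) {t : ℝ} (ht : t ∈ Icc 0 T) :
    xint sqn (f t) = xint sqn (f 0) := by
  obtain ⟨c, hc, hcb⟩ := pow_le_gexp (theta_pos hθ T) 3
  refine conserved hθ h hc (by fun_prop)
    (fun v => le_trans ?_ (hcb v)) (fun g hg => lintegral_sq_mul_gain hg) ht
  simp only [lin]
  rw [← ENNReal.ofReal_mul (sq_nonneg _)]
  refine ENNReal.ofReal_le_ofReal ?_
  nlinarith [norm_nonneg v, sq_nonneg ‖v‖]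

/-- An envelope weighted below a Gaussian of lower rate grows at most linearly in time. -/
theorem landSup_lipschitz (hP : PinGain) (hθ : 0 < θ) (h : IsSlabSol θ T f)
    {W : ℝ → V3 → ℝ≥0∞} {ρ : ℝ → ℝ} {δ T₀ : ℝ} (hδ : 0 < δ) (hρ0 : ∀ t ∈ Icc 0 T₀, 0 ≤ ρ t)
    (hρ : ∀ t ∈ Icc 0 T₀, ρ t + δ ≤ theta θ (min T t)) {c : ℝ≥0∞} (hc : c ≠ ⊤)
    (hW : ∀ t, Measurable (W t)) (hWc : ∀ t ∈ Icc 0 T₀, ∀ v, W t v ≤ c * gexp (ρ t) v) :
    ∃ K : ℝ≥0∞, K ≠ ⊤ ∧ ∀ t₀ t₁, 0 ≤ t₀ → t₀ ≤ t₁ → t₁ ≤ T →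
      landSup W f T₀ t₁ ≤ landSup W f T₀ t₀ + K * ENNReal.ofReal (t₁ - t₀) := by
  obtain ⟨Z, hZ, hZb⟩ := mom_bdd_gw h
  set K := c * (graphC δ * Z * Z * ∫⁻ s, dec s) with hK
  refine ⟨K, ENNReal.mul_ne_top hc (ENNReal.mul_ne_top (ENNReal.mul_ne_top
    (ENNReal.mul_ne_top (graphC_ne_top _) hZ) hZ) lintegral_dec_ne_top),
    fun t₀ t₁ h0 h01 h1 => landSup_le_add h.measurable hW fun t ht x => ?_⟩
  calc landGain (W t) f t₀ t₁ t x ≤ ∫⁻ _ in Ioc t₀ (min t₁ t), K := by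
        refine setLIntegral_mono measurable_const fun s hs => ?_
        have hsT : s ∈ Icc 0 T :=
          ⟨h0.trans hs.1.le, hs.2.trans ((min_le_left _ _).trans h1)⟩
        have hm := h.measurable_time s
        have hg := gain_graph_le hP hm (hρ0 t ht) hδ (Z := Z)
          (fun y => le_trans (lintegral_mono fun v => mul_le_mul' (gexp_mono ((hρ t ht).trans
            (theta_ge hθ.le (le_min hsT.2 (hs.2.trans (min_le_right _ _))))) v) le_rfl) (hZb s hsT y))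
          (ξ := fun r => x - (t - s) * r) (ψ := fun _ => 1) (by fun_prop) measurable_const
        simp only [one_mul] at hg
        refine le_trans ?_ (mul_le_mul' (le_refl c) hg)
        rw [← lintegral_const_mul' _ _ hc]
        exact lintegral_mono fun v =>
          (mul_le_mul' (hWc t ht v) le_rfl).trans_eq (mul_assoc _ _ _)
    _ ≤ K * ENNReal.ofReal (t₁ - t₀) := by
        rw [setLIntegral_const, Real.volume_Ioc]
        exact mul_le_mul' le_rfl (ENNReal.ofReal_le_ofReal (by linarith [min_le_left t₁ t]))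

end Vale.Agent.P140.Slab
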