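import Vale.Agent.P140.Slab.DensityStep
import Vale.Agent.P140.Slab.Excess

/-!
# The density stays bounded while the collision count is

Each doubling of the density from `a 2^i` to `a 2^(i+1)` uses up at least `c/(i+1)` collisions,
and the harmonic series diverges.
-/

open MeasureTheory Real Set Filter
open scoped RealInnerProductSpace ENNReal

namespace Vale.Agent.P140.Slab

open Vale.Agent.P140 Vale.Agent.P140.Renorm

lemma lintegral_inv_Ioc {a b : ℝ} (ha : 0 < a) (hab : a ≤ b) :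
    ∫⁻ τ in Ioc a b, ENNReal.ofReal τ⁻¹ = ENNReal.ofReal (log (b / a)) := by
  rw [← ofReal_integral_eq_lintegral_ofReal, ← intervalIntegral.integral_of_le hab,
    integral_inv_of_pos ha (ha.trans_le hab)]
  · exact ((continuousOn_inv₀.mono fun z (hz : z ∈ Icc a b) => (ha.trans_le hz.1).ne')
      |>.integrableOn_Icc).mono_set Ioc_subset_Icc_self
  · filter_upwards [ae_restrict_mem measurableSet_Ioc] with z hz
    exact inv_nonneg.2 (ha.trans hz.1).le

/-- The density gained over an interval of times. -/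
theorem landGain_density_le {θ T T' : ℝ} {f : ℝ → Prof} (hf : IsSlabSol θ T' f) (hT : 0 ≤ T)
    {t₀ t₁ : ℝ} (h0 : 0 ≤ t₀) (h1 : t₁ ≤ T') {b c₀ ε R Lam : ℝ} (hb : 0 ≤ b)
    (hc₀ : 0 ≤ c₀) (hE : ∀ s ∈ Icc 0 T', xint sqn (f s) ≤ ENNReal.ofReal c₀) (hε : 0 < ε)
    (hε1 : ε ≤ 1) (hR : 1 ≤ R) (hLam : 0 < Lam)
    (hY : landSup one f T t₁ ≤ ENNReal.ofReal b) {t : ℝ} (ht : t ∈ Icc 0 T) (x : ℝ) :
    landGain (one t) f t₀ t₁ t x ≤
      ENNReal.ofReal (256 * (ε * b ^ 2 + b * T * c₀ / (ε * R) +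
        b ^ 2 * log ((T + 1) * (1 + R) / ε) / Lam)) +
      ENNReal.ofReal (1 + Lam) * ∫⁻ s in Ioc t₀ t₁, nrate (f s) := by
  set I := Ioc t₀ (min t₁ t) with hI
  set Y := ENNReal.ofReal b with hYdef
  set a := ε / (1 + R) with ha
  have ha0 : 0 < a := div_pos hε (by linarith)
  have ha1 : a ≤ T + 1 :=
    ((div_le_one (by linarith)).2 (by linarith)).trans (by linarith)
  have hH : Measurable (Function.uncurry (env f t₁ t)) := measurable_env_at hf.measurable t₁ t
  have hHY : ∀ y, ∫⁻ u, env f t₁ t y u ≤ Y := fun y =>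
    le_trans (by simpa [one] using lintegral_env_le_landSup (W := one) (f := f) ht t₁ y) hY
  set Sm : ℝ → ℝ≥0∞ := (Ioi a).indicator
    (fun τ => ENNReal.ofReal τ⁻¹ * ENNReal.ofReal (2 / Lam) * Y) with hSm
  have hNs : Measurable fun s => nearDen (env f t₁ t) ε x (t - s) :=
    (measurable_nearDen hH).comp (by fun_prop)
  have hSs : Measurable fun s => Sm (t - s) :=
    (Measurable.indicator (by fun_prop) measurableSet_Ioi).comp (by fun_prop)
  have hsmall : (∫⁻ s in I, Sm (t - s)) ≤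
      ENNReal.ofReal (2 / Lam * log ((T + 1) * (1 + R) / ε)) * Y := by
    calc ∫⁻ s in I, Sm (t - s)
        ≤ ∫⁻ s in I, (Ioc a (T + 1)).indicator
            (fun τ => ENNReal.ofReal τ⁻¹ * ENNReal.ofReal (2 / Lam) * Y) (t - s) := by
          refine lintegral_mono_ae ?_
          filter_upwards [ae_restrict_mem measurableSet_Ioc] with s hs
          simp only [hSm]
          by_cases hτ : t - s ∈ Ioi a
          · rw [indicator_of_mem hτ, indicator_of_mem (show t - s ∈ Ioc a (T + 1) from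
              ⟨hτ, by linarith [hs.1, ht.2]⟩)]
          · rw [indicator_of_notMem hτ]; exact zero_le
      _ ≤ ∫⁻ s, (Ioc a (T + 1)).indicator
            (fun τ => ENNReal.ofReal τ⁻¹ * ENNReal.ofReal (2 / Lam) * Y) (t - s) :=
          setLIntegral_le_lintegral _ _
      _ = ∫⁻ τ in Ioc a (T + 1), ENNReal.ofReal τ⁻¹ * ENNReal.ofReal (2 / Lam) * Y := by
          rw [lintegral_sub_left_eq_self (fun τ => (Ioc a (T + 1)).indicator
            (fun τ => ENNReal.ofReal τ⁻¹ * ENNReal.ofReal (2 / Lam) * Y) τ) t,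
            lintegral_indicator measurableSet_Ioc]
      _ = _ := by
          rw [lintegral_mul_const _ (by fun_prop), lintegral_mul_const _ (by fun_prop),
            lintegral_inv_Ioc ha0 ha1, mul_comm (ENNReal.ofReal (log _)),
            ← ENNReal.ofReal_mul (by positivity), ha, div_div_eq_mul_div]
  have hvol : (∫⁻ _ in I, ENNReal.ofReal (10 / (ε * R) * c₀)) ≤
      ENNReal.ofReal (10 / (ε * R) * c₀ * T) := by
    rw [setLIntegral_const, Real.volume_Ioc, ENNReal.ofReal_mul' hT]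
    exact mul_le_mul' le_rfl (ENNReal.ofReal_le_ofReal (by linarith [min_le_right t₁ t, ht.2]))
  set L := log ((T + 1) * (1 + R) / ε) with hL
  have hL0 : 0 ≤ L := by
    refine log_nonneg ((one_le_div hε).2 ?_)
    nlinarith
  calc landGain (one t) f t₀ t₁ t x
      ≤ ∫⁻ s in I, (ENNReal.ofReal (4 * π) * Y * (nearDen (env f t₁ t) ε x (t - s) +
          ENNReal.ofReal (10 / (ε * R) * c₀) + Sm (t - s)) +
          ENNReal.ofReal (1 + Lam) * nrate (f s)) := by
        refine lintegral_mono_ae ?_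
        filter_upwards [ae_restrict_mem measurableSet_Ioc,
          ae_restrict_of_ae (Measure.ae_ne volume t)] with s hs hst
        have hs0 : s ∈ Icc 0 T' :=
          ⟨h0.trans hs.1.le, (hs.2.trans (min_le_left _ _)).trans h1⟩
        simp only [one, one_mul]
        exact gain_density_le hf hs0 (hs.2.trans (min_le_left _ _))
          (lt_of_le_of_ne (hs.2.trans (min_le_right _ _)) hst) ht hY (hE s hs0) hε hε1 hR hLam
    _ = ENNReal.ofReal (4 * π) * Y * ((∫⁻ s in I, nearDen (env f t₁ t) ε x (t - s)) +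
          (∫⁻ _ in I, ENNReal.ofReal (10 / (ε * R) * c₀)) + ∫⁻ s in I, Sm (t - s)) +
          ENNReal.ofReal (1 + Lam) * ∫⁻ s in I, nrate (f s) := by
        rw [lintegral_add_left (((hNs.add_const _).fun_add hSs).const_mul _),
          lintegral_const_mul _ ((hNs.add_const _).fun_add hSs),
          lintegral_add_left (hNs.add_const _), lintegral_add_left hNs,
          lintegral_const_mul' _ _ ENNReal.ofReal_ne_top]
    _ ≤ ENNReal.ofReal (4 * π) * Y * (ENNReal.ofReal (16 * ε) * Y +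
          ENNReal.ofReal (10 / (ε * R) * c₀ * T) + ENNReal.ofReal (2 / Lam * L) * Y) +
          ENNReal.ofReal (1 + Lam) * ∫⁻ s in Ioc t₀ t₁, nrate (f s) := by
        refine add_le_add (mul_le_mul' le_rfl (add_le_add (add_le_add ?_ hvol) hsmall))
          (mul_le_mul' le_rfl (lintegral_mono_set (Ioc_subset_Ioc le_rfl (min_le_left _ _))))
        exact lintegral_nearDen_le hH hε hHY fun s hs => hs.2.trans (min_le_right _ _)
    _ ≤ _ := by
        refine add_le_add ?_ le_rfl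
        rw [hYdef, ← ENNReal.ofReal_mul (by positivity), ← ENNReal.ofReal_mul (by positivity),
          ← ENNReal.ofReal_mul (by positivity), ← ENNReal.ofReal_add (by positivity) (by positivity),
          ← ENNReal.ofReal_add (by positivity) (by positivity),
          ← ENNReal.ofReal_mul (by positivity)]
        refine ENNReal.ofReal_le_ofReal ?_
        calc 4 * π * b * (16 * ε * b + 10 / (ε * R) * c₀ * T + 2 / Lam * L * b)
            ≤ 16 * b * (16 * ε * b + 16 / (ε * R) * c₀ * T + 16 / Lam * L * b) := by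
              gcongr
              · nlinarith [Real.pi_le_four]
              · norm_num
              · norm_num
          _ = _ := by ring

/-- The parameters of the `i`th doubling. -/
lemma exists_params {T c₀ a : ℝ} (hT : 0 ≤ T) (hc₀ : 0 ≤ c₀) (ha : 1 ≤ a) :
    ∃ E : ℝ, 1 ≤ E ∧ ∀ i : ℕ, ∃ ε R Lam : ℝ, 0 < ε ∧ ε ≤ 1 ∧ 1 ≤ R ∧ 0 < Lam ∧
      256 * (ε * (a * 2 ^ (i + 1)) ^ 2 + a * 2 ^ (i + 1) * T * c₀ / (ε * R) +
        (a * 2 ^ (i + 1)) ^ 2 * log ((T + 1) * (1 + R) / ε) / Lam) ≤ a * 2 ^ (i + 1) / 4 ∧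
      1 + Lam ≤ a * 2 ^ (i + 1) * (E * ((i : ℝ) + 1)) := by
  obtain ⟨Q, hQ⟩ : ∃ Q, Q = (T + 1) * (2 + 3072 ^ 2 * T * c₀) * 3072 := ⟨_, rfl⟩
  have hM : 0 ≤ 3072 ^ 2 * T * c₀ := by positivity
  have hQ1 : 1 ≤ Q := by rw [hQ]; nlinarith
  obtain ⟨D, hD⟩ : ∃ D, D = log Q + 2 * log a + 2 * log 2 + 1 := ⟨_, rfl⟩
  have hl2 : 0 ≤ log 2 := log_nonneg one_le_two
  have hla : 0 ≤ log a := log_nonneg ha
  have hlQ : 0 ≤ log Q := log_nonneg hQ1
  have hD1 : 1 ≤ D := by rw [hD]; linarith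
  refine ⟨1 + 3072 * D, by linarith, fun i => ?_⟩
  obtain ⟨b, hb⟩ : ∃ b, b = a * 2 ^ (i + 1) := ⟨_, rfl⟩
  rw [← hb]
  have hb1 : 1 ≤ b := by
    rw [hb]
    exact le_trans ha (le_mul_of_one_le_right (by linarith) (one_le_pow₀ one_le_two))
  obtain ⟨ε, hε⟩ : ∃ ε, ε = 1 / (3072 * b) := ⟨_, rfl⟩
  obtain ⟨R, hR⟩ : ∃ R, R = 1 + 3072 ^ 2 * T * c₀ * b := ⟨_, rfl⟩
  have hε0 : 0 < ε := by rw [hε]; positivity
  have hMb : 0 ≤ 3072 ^ 2 * T * c₀ * b := by positivity
  have hR1 : 1 ≤ R := by rw [hR]; linarith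
  have hi : (0 : ℝ) ≤ i := Nat.cast_nonneg i
  refine ⟨ε, R, 3072 * b * (D * ((i : ℝ) + 1)), hε0, ?_, hR1, by positivity, ?_, ?_⟩
  · rw [hε, div_le_one (by linarith)]; linarith
  · have hX : log ((T + 1) * (1 + R) / ε) ≤ D * ((i : ℝ) + 1) := by
      calc log ((T + 1) * (1 + R) / ε) ≤ log (Q * b ^ 2) := by
            refine log_le_log (by positivity) ?_
            calc (T + 1) * (1 + R) / ε = (T + 1) * (2 + 3072 ^ 2 * T * c₀ * b) * 3072 * b := by
                  rw [hε, hR]; field_simp; ring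
              _ ≤ (T + 1) * ((2 + 3072 ^ 2 * T * c₀) * b) * 3072 * b := by
                  gcongr
                  nlinarith
              _ = _ := by rw [hQ]; ring
        _ = log Q + 2 * (log a + ((i : ℝ) + 1) * log 2) := by
            rw [log_mul (x := Q) (by linarith) (by positivity), log_pow, hb,
              log_mul (x := a) (by linarith) (by positivity), log_pow]
            push_cast
            ring
        _ ≤ _ := by rw [hD]; nlinarith
    have h1 : ε * b ^ 2 = b / 3072 := by rw [hε]; field_simp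
    have h2 : b * T * c₀ / (ε * R) ≤ b / 3072 := by
      rw [div_le_div_iff₀ (by positivity) (by norm_num)]
      calc b * T * c₀ * 3072 = (3072 ^ 2 * T * c₀ * b) * (b * ε) := by rw [hε]; field_simp
        _ ≤ R * (b * ε) := mul_le_mul_of_nonneg_right (by rw [hR]; linarith) (by positivity)
        _ = _ := by ring
    have h3 : b ^ 2 * log ((T + 1) * (1 + R) / ε) / (3072 * b * (D * ((i : ℝ) + 1))) ≤ b / 3072 := by
      calc b ^ 2 * log ((T + 1) * (1 + R) / ε) / (3072 * b * (D * ((i : ℝ) + 1)))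
          ≤ b ^ 2 * (D * ((i : ℝ) + 1)) / (3072 * b * (D * ((i : ℝ) + 1))) := by gcongr
        _ = _ := by field_simp
    rw [h1]; linarith
  · nlinarith [mul_le_mul hb1 (show (1 : ℝ) ≤ (i : ℝ) + 1 by linarith) zero_le_one (by linarith)]

/-- A doubling of the density costs collisions. -/
lemma collisions_of_doubling {θ T T' : ℝ} {f : ℝ → Prof} (hf : IsSlabSol θ T' f) (hT : 0 ≤ T)
    {t₀ t₁ : ℝ} (h0 : 0 ≤ t₀) (h1 : t₁ ≤ T') {b c₀ ε R Lam F : ℝ} (hb : 0 < b)
    (hc₀ : 0 ≤ c₀) (hE : ∀ s ∈ Icc 0 T', xint sqn (f s) ≤ ENNReal.ofReal c₀) (hε : 0 < ε)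
    (hε1 : ε ≤ 1) (hR : 1 ≤ R) (hLam : 0 < Lam) (hF : 0 < F)
    (hP : 256 * (ε * b ^ 2 + b * T * c₀ / (ε * R) +
      b ^ 2 * log ((T + 1) * (1 + R) / ε) / Lam) ≤ b / 4)
    (hLF : 1 + Lam ≤ b * F)
    (hY₀ : landSup one f T t₀ = ENNReal.ofReal (b / 2))
    (hY₁ : landSup one f T t₁ = ENNReal.ofReal b) :
    ENNReal.ofReal (1 / (4 * F)) ≤ ∫⁻ s in Ioc t₀ t₁, nrate (f s) := by
  have hG := landSup_le_add (T := T) hf.measurable (W := one) (fun _ => measurable_const)
    (t₀ := t₀) (t₁ := t₁) fun t ht x =>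
      landGain_density_le hf hT h0 h1 hb.le hc₀ hE hε hε1 hR hLam hY₁.le ht x
  set N := ∫⁻ s in Ioc t₀ t₁, nrate (f s) with hN
  by_contra hlt
  rw [not_le] at hlt
  rw [hY₀, hY₁] at hG
  refine absurd hG (not_le.2 ?_)
  calc ENNReal.ofReal (b / 2) + (ENNReal.ofReal (256 * (ε * b ^ 2 + b * T * c₀ / (ε * R) +
        b ^ 2 * log ((T + 1) * (1 + R) / ε) / Lam)) + ENNReal.ofReal (1 + Lam) * N)
      < ENNReal.ofReal (b / 2) + (ENNReal.ofReal (b / 4) + ENNReal.ofReal (b / 4)) := by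
        refine ENNReal.add_lt_add_left ENNReal.ofReal_ne_top
          (ENNReal.add_lt_add_of_le_of_lt ENNReal.ofReal_ne_top (ENNReal.ofReal_le_ofReal hP) ?_)
        calc ENNReal.ofReal (1 + Lam) * N < ENNReal.ofReal (1 + Lam) * ENNReal.ofReal (1 / (4 * F)) :=
              ENNReal.mul_lt_mul_right (by simp; linarith) ENNReal.ofReal_ne_top hlt
          _ ≤ _ := by
              rw [← ENNReal.ofReal_mul (by linarith)]
              refine ENNReal.ofReal_le_ofReal ?_
              rw [mul_one_div, div_le_iff₀ (by positivity)]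
              linarith
    _ = _ := by
        rw [← ENNReal.ofReal_add (by positivity) (by positivity),
          ← ENNReal.ofReal_add (by positivity) (by positivity)]
        congr 1; ring

theorem density_bound : PinDensity := by
  intro T C₀ K A hT hC hK hA
  set c₀ := C₀.toReal with hc₀
  set a := max 1 A.toReal with ha
  have hc0 : 0 ≤ c₀ := ENNReal.toReal_nonneg
  have ha1 : 1 ≤ a := le_max_left _ _
  obtain ⟨E, hE1, hpar⟩ := exists_params hT hc0 ha1
  have hE0 : 0 < E := by linarith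
  obtain ⟨n, hn⟩ := (Real.tendsto_sum_range_one_div_nat_succ_atTop.eventually_gt_atTop
    (4 * E * K.toReal)).exists
  refine ⟨ENNReal.ofReal (a * 2 ^ n), ENNReal.ofReal_ne_top,
    fun θ T' f hθ hT' hf hC' hN hA' => ?_⟩
  by_contra hcon
  rw [not_le] at hcon
  obtain ⟨k, hk, hlip⟩ := landSup_lipschitz gain_projection hθ hf (W := one) (ρ := fun _ => 0)
    (δ := theta θ T') (T₀ := T) (theta_pos hθ T') (fun _ _ => le_rfl)
    (fun t _ => (le_of_eq (zero_add _)).trans (theta_ge hθ.le (min_le_left T' t))) (c := 1)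
    ENNReal.one_ne_top (fun _ => measurable_const) (fun t _ v => by simp [one, gexp])
  set Y := fun t => landSup one f T t with hYdef
  have hfin : ∀ t ∈ Icc 0 T', Y t ≠ ⊤ := fun t ht =>
    ne_top_of_le_ne_top (ENNReal.add_ne_top.2 ⟨hA, ENNReal.mul_ne_top hk ENNReal.ofReal_ne_top⟩)
      ((hlip 0 t le_rfl ht.1 ht.2).trans (add_le_add hA' le_rfl))
  set y := fun t => (Y t).toReal with hy
  have hmono : ∀ p ∈ Icc 0 T', ∀ q ∈ Icc 0 T', p ≤ q → y p ≤ y q := fun p _ q hq hpq =>
    ENNReal.toReal_mono (hfin q hq) (landSup_mono hpq)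
  have hcont : ContinuousOn y (Icc 0 T') := by
    refine (LipschitzOnWith.of_le_add_mul k.toNNReal fun p hp q hq => ?_).continuousOn
    rcases le_total p q with h | h
    · exact (hmono p hp q hq h).trans (le_add_of_nonneg_right (by positivity))
    · have h2 := ENNReal.toReal_mono (ENNReal.add_ne_top.2
        ⟨hfin q hq, ENNReal.mul_ne_top hk ENNReal.ofReal_ne_top⟩) (hlip q p hq.1 h hp.2)
      rw [ENNReal.toReal_add (hfin q hq) (ENNReal.mul_ne_top hk ENNReal.ofReal_ne_top),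
        ENNReal.toReal_mul, ENNReal.toReal_ofReal (sub_nonneg.2 h)] at h2
      rw [Real.dist_eq, abs_of_nonneg (sub_nonneg.2 h)]
      exact h2
  have hy0 : y 0 ≤ a := (ENNReal.toReal_mono hA hA').trans (le_max_right _ _)
  have h0T : (0 : ℝ) ∈ Icc 0 T' := ⟨le_rfl, hT'.1⟩
  have hTT : T' ∈ Icc 0 T' := ⟨hT'.1, le_rfl⟩
  have hyT : a * 2 ^ n < y T' :=
    (ENNReal.ofReal_lt_iff_lt_toReal (by positivity) (hfin T' hTT)).1 hcon
  have hex : ∀ i, i ≤ n → ∃ τ ∈ Icc 0 T', y τ = a * 2 ^ i := fun i hi => by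
    obtain ⟨τ, h1, h2⟩ := intermediate_value_Icc hT'.1 hcont
      (show a * 2 ^ i ∈ Icc (y 0) (y T') from
        ⟨hy0.trans (le_mul_of_one_le_right (by linarith) (one_le_pow₀ one_le_two)),
          le_trans (mul_le_mul_of_nonneg_left (pow_le_pow_right₀ one_le_two hi) (by linarith))
            hyT.le⟩)
    exact ⟨τ, h1, h2⟩
  choose! τ hτ hyτ using hex
  have hstep : ∀ i, i + 1 ≤ n → τ i ≤ τ (i + 1) ∧ ENNReal.ofReal (1 / (4 * E * ((i : ℝ) + 1))) ≤
      ∫⁻ s in Ioc (τ i) (τ (i + 1)), nrate (f s) := by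
    intro i hi
    have hi' : i ≤ n := by omega
    set b := a * 2 ^ (i + 1) with hb
    have hb1 : 1 ≤ b := le_trans ha1 (le_mul_of_one_le_right (by linarith) (one_le_pow₀ one_le_two))
    have hyi : y (τ i) = b / 2 := by rw [hyτ i hi', hb, pow_succ]; ring
    have hle : τ i ≤ τ (i + 1) := by
      by_contra h
      have h2 := hmono _ (hτ _ hi) _ (hτ i hi') (not_le.1 h).le
      rw [hyτ _ hi, ← hb, hyi] at h2
      linarith
    refine ⟨hle, ?_⟩
    obtain ⟨ε, R, Lam, hε, hε1, hR, hLam, hP, hLF⟩ := hpar i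
    rw [mul_assoc (4 : ℝ)]
    refine collisions_of_doubling hf hT (hτ i hi').1 (hτ _ hi).2 (b := b) (by linarith) hc0
      (fun s hs => (hC' s hs).2.trans (ENNReal.ofReal_toReal hC).ge) hε hε1 hR hLam (by positivity)
      hP hLF ?_ ?_
    · exact (ENNReal.ofReal_toReal (hfin _ (hτ i hi'))).symm.trans (congrArg ENNReal.ofReal hyi)
    · exact (ENNReal.ofReal_toReal (hfin _ (hτ _ hi))).symm.trans
        (congrArg ENNReal.ofReal (hyτ _ hi))
  have hsum : ∀ m, m ≤ n → ENNReal.ofReal (∑ i ∈ Finset.range m, 1 / (4 * E * ((i : ℝ) + 1))) ≤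
      ∫⁻ s in Ioc 0 (τ m), nrate (f s) := by
    intro m
    induction m with
    | zero => simp
    | succ m ih =>
      intro hm
      have h := hstep m hm
      rw [Finset.sum_range_succ,
        ENNReal.ofReal_add (Finset.sum_nonneg fun i _ => by positivity) (by positivity),
        ← Ioc_union_Ioc_eq_Ioc (hτ m (by omega)).1 h.1,
        lintegral_union measurableSet_Ioc (Ioc_disjoint_Ioc_of_le le_rfl)]
      exact add_le_add (ih (by omega)) h.2
  have hfinal : ∑ i ∈ Finset.range n, 1 / (4 * E * ((i : ℝ) + 1)) ≤ K.toReal := by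
    refine (ENNReal.ofReal_le_iff_le_toReal hK).1 ?_
    exact ((hsum n le_rfl).trans (lintegral_mono_set (Ioc_subset_Ioc le_rfl (hτ n le_rfl).2))).trans hN
  have e : ∑ i ∈ Finset.range n, 1 / (4 * E * ((i : ℝ) + 1)) =
      (∑ i ∈ Finset.range n, 1 / ((i : ℝ) + 1)) / (4 * E) := by
    rw [Finset.sum_div]
    exact Finset.sum_congr rfl fun i _ => by rw [div_div, mul_comm]
  rw [e, div_le_iff₀ (by positivity)] at hfinal
  linarith

end Vale.Agent.P140.Slab
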