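import Vale.Agent.P140.Slab.Land

/-!
# One step of the density estimate

Of the collisions that land at a point at a given time, the ones within `ε / (1 + |u|)` cost
`ε` times the density, the fast ones an inverse power of the speed bound `R`, the ones over a short
piece of the period `1/Lam` times a logarithm, and the others are counted by `nrate`.
-/

open MeasureTheory Real Set
open scoped RealInnerProductSpace ENNReal

namespace Vale.Agent.P140.Slab

open Vale.Agent.P140 Vale.Agent.P140.Renorm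

lemma lossRate_eq {h : V3 → ℝ≥0∞} (hh : Measurable h) (v : V3) :
    lossRate h v = ENNReal.ofReal (2 * π) * ∫⁻ u, ENNReal.ofReal ‖v - u‖ * h u := by
  rw [lossRate, lintegral_prod _ (by fun_prop), ← lintegral_const_mul _ (by fun_prop)]
  refine lintegral_congr fun u => ?_
  have e := angular_projection (v - u) (fun _ => 1) measurable_const
  simp only [mul_one, lintegral_const, Measure.restrict_apply_univ, Real.volume_Icc,
    one_mul] at e
  dsimp only
  rw [lintegral_mul_const _ (by fun_prop)]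
  simp only [impact]
  rw [e, ← mul_assoc]
  congr 2
  ring_nf

/-- The collision count as an integral over pairs. -/
lemma nrate_eq {g : Prof} (hg : Measurable (Function.uncurry g)) :
    nrate g = ∫⁻ y in Ioc (0 : ℝ) 1,
      ENNReal.ofReal (2 * π) * ∫⁻ v, ∫⁻ u, ENNReal.ofReal ‖v - u‖ * (sl g y v * sl g y u) := by
  refine lintegral_congr fun y => ?_
  have hs := measurable_sl_at hg y
  have hI : Measurable fun v => ∫⁻ u, ENNReal.ofReal ‖v - u‖ * (sl g y v * sl g y u) :=
    Measurable.lintegral_prod_right'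
      (f := fun q : V3 × V3 => ENNReal.ofReal ‖q.1 - q.2‖ * (sl g y q.1 * sl g y q.2)) (by fun_prop)
  unfold gs
  rw [lintegral_gain hs hs, ← lintegral_const_mul _ hI]
  refine lintegral_congr fun v => ?_
  rw [lossRate_eq hs, ← mul_assoc, mul_comm (sl g y v), mul_assoc,
    ← lintegral_const_mul _ (by fun_prop)]
  congr 1
  exact lintegral_congr fun u => by ring

/-- Pairs that are apart for more than `1/Lam` of a period are counted by `nrate`. -/
lemma long_pairs_le {g : Prof} (hg : Measurable (Function.uncurry g))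
    (hper : ∀ x v, g (x + 1) v = g x v) {τ Lam : ℝ} (hτ : 0 < τ) (hLam : 0 < Lam) (x : ℝ) :
    ENNReal.ofReal (2 * π) * ∫⁻ z, ∫⁻ v, ∫⁻ u,
      {q : ℝ × V3 × V3 | q.1 ∈ hitSet q.2.1 q.2.2 ∧ 1 / Lam ≤ ‖q.2.1 - q.2.2‖ * τ}.indicator
        (fun q => sl g (x - τ * q.1) q.2.1 * sl g (x - τ * q.1) q.2.2) (z, v, u) ≤
      ENNReal.ofReal (1 + Lam) * nrate g := by
  set S := {q : ℝ × V3 × V3 | q.1 ∈ hitSet q.2.1 q.2.2 ∧ 1 / Lam ≤ ‖q.2.1 - q.2.2‖ * τ} with hS
  set F := S.indicator (fun q => sl g (x - τ * q.1) q.2.1 * sl g (x - τ * q.1) q.2.2) with hF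
  have hs : Measurable fun q : ℝ × V3 => sl g q.1 q.2 := measurable_sl hg
  have hSm : MeasurableSet S :=
    MeasurableSet.inter (s₁ := {q : ℝ × V3 × V3 | q.1 ∈ hitSet q.2.1 q.2.2})
      (MeasurableSet.inter
        (measurableSet_le (f := fun q : ℝ × V3 × V3 =>
          (q.2.1 0 + q.2.2 0) / 2 - ‖q.2.1 - q.2.2‖ / 2) (by fun_prop) measurable_fst)
        (measurableSet_le (g := fun q : ℝ × V3 × V3 =>
          (q.2.1 0 + q.2.2 0) / 2 + ‖q.2.1 - q.2.2‖ / 2) measurable_fst (by fun_prop)))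
      (measurableSet_le (g := fun q : ℝ × V3 × V3 => ‖q.2.1 - q.2.2‖ * τ) measurable_const
        (by fun_prop))
  have hFm : Measurable F :=
    ((hs.comp (f := fun q : ℝ × V3 × V3 => (x - τ * q.1, q.2.1)) (by fun_prop)).mul
      (hs.comp (f := fun q : ℝ × V3 × V3 => (x - τ * q.1, q.2.2)) (by fun_prop))).indicator hSm
  have hpm : Measurable fun q : ℝ × V3 × V3 =>
      ENNReal.ofReal ‖q.2.1 - q.2.2‖ * (sl g q.1 q.2.1 * sl g q.1 q.2.2) :=
    (Measurable.ennreal_ofReal (by fun_prop)).mul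
      ((hs.comp (f := fun q : ℝ × V3 × V3 => (q.1, q.2.1)) (by fun_prop)).mul
        (hs.comp (f := fun q : ℝ × V3 × V3 => (q.1, q.2.2)) (by fun_prop)))
  have hvu : ∀ v u, (∫⁻ z, F (z, v, u)) ≤ ENNReal.ofReal (1 + Lam) *
      ∫⁻ y in Ioc (0 : ℝ) 1, ENNReal.ofReal ‖v - u‖ * (sl g y v * sl g y u) := by
    intro v u
    set r := ‖v - u‖
    by_cases hr : 1 / Lam ≤ r * τ
    · set p : ℝ → ℝ≥0∞ := fun y => sl g y v * sl g y u
      have hp : Function.Periodic p 1 := fun y => by simp only [p, sl_periodic hper]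
      calc ∫⁻ z, F (z, v, u)
          = ∫⁻ z in Icc ((v 0 + u 0) / 2 - r / 2) ((v 0 + u 0) / 2 + r / 2), p (x - τ * z) := by
            rw [← lintegral_indicator measurableSet_Icc]
            refine lintegral_congr fun z => ?_
            by_cases hz : z ∈ hitSet v u
            · rw [indicator_of_mem (show z ∈ Icc ((v 0 + u 0) / 2 - r / 2)
                ((v 0 + u 0) / 2 + r / 2) from hz)]
              exact indicator_of_mem (show (z, v, u) ∈ S from ⟨hz, hr⟩) _
            · rw [indicator_of_notMem (show z ∉ Icc ((v 0 + u 0) / 2 - r / 2)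
                ((v 0 + u 0) / 2 + r / 2) from hz)]
              exact indicator_of_notMem (show (z, v, u) ∉ S from fun h => hz h.1) _
        _ ≤ ENNReal.ofReal (2 * (r / 2) + τ⁻¹) * ∫⁻ y in Ioc (0 : ℝ) 1, p y :=
            slice_period_le hp hτ (by positivity) _ x
        _ ≤ ENNReal.ofReal (1 + Lam) *
              (ENNReal.ofReal r * ∫⁻ y in Ioc (0 : ℝ) 1, p y) := by
            rw [← mul_assoc, ← ENNReal.ofReal_mul (by positivity)]
            refine mul_le_mul' (ENNReal.ofReal_le_ofReal ?_) le_rfl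
            have : τ⁻¹ ≤ Lam * r := by
              rw [inv_eq_one_div, div_le_iff₀ hτ]
              rw [div_le_iff₀ hLam] at hr
              linarith
            linarith
        _ = _ := by rw [lintegral_const_mul' _ _ ENNReal.ofReal_ne_top]
    · refine le_of_eq_of_le ?_ zero_le
      exact lintegral_eq_zero_of_ae_eq_zero (Filter.Eventually.of_forall fun z =>
        indicator_of_notMem (show (z, v, u) ∉ S from fun h => hr h.2) _)
  have e1 : (∫⁻ z, ∫⁻ v, ∫⁻ u, F (z, v, u)) = ∫⁻ v, ∫⁻ u, ∫⁻ z, F (z, v, u) := by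
    rw [lintegral_lintegral_swap (Measurable.lintegral_prod_right'
      (f := fun q : (ℝ × V3) × V3 => F (q.1.1, q.1.2, q.2))
      (hFm.comp (by fun_prop))).aemeasurable]
    exact lintegral_congr fun v => lintegral_lintegral_swap
      (hFm.comp (f := fun q : ℝ × V3 => (q.1, v, q.2)) (by fun_prop)).aemeasurable
  have e2 : (∫⁻ v, ∫⁻ u, ∫⁻ y in Ioc (0 : ℝ) 1,
      ENNReal.ofReal ‖v - u‖ * (sl g y v * sl g y u)) =
      ∫⁻ y in Ioc (0 : ℝ) 1, ∫⁻ v, ∫⁻ u, ENNReal.ofReal ‖v - u‖ * (sl g y v * sl g y u) := by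
    rw [lintegral_lintegral_swap (f := fun y v => ∫⁻ u,
      ENNReal.ofReal ‖v - u‖ * (sl g y v * sl g y u)) (μ := volume.restrict (Ioc (0 : ℝ) 1))
      (Measurable.lintegral_prod_right'
        (f := fun q : (ℝ × V3) × V3 =>
          ENNReal.ofReal ‖q.1.2 - q.2‖ * (sl g q.1.1 q.1.2 * sl g q.1.1 q.2))
        (hpm.comp (f := fun q : (ℝ × V3) × V3 => (q.1.1, q.1.2, q.2)) (by fun_prop))).aemeasurable]
    exact lintegral_congr fun v => lintegral_lintegral_swap
      (hpm.comp (f := fun q : V3 × ℝ => (q.2, v, q.1)) (by fun_prop)).aemeasurable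
  calc ENNReal.ofReal (2 * π) * ∫⁻ z, ∫⁻ v, ∫⁻ u, F (z, v, u)
      ≤ ENNReal.ofReal (2 * π) * ∫⁻ v, ∫⁻ u, ENNReal.ofReal (1 + Lam) *
          ∫⁻ y in Ioc (0 : ℝ) 1, ENNReal.ofReal ‖v - u‖ * (sl g y v * sl g y u) := by
        rw [e1]
        exact mul_le_mul' le_rfl (lintegral_mono fun v => lintegral_mono fun u => hvu v u)
    _ = _ := by
        have e3 : (∫⁻ v, ∫⁻ u, ENNReal.ofReal (1 + Lam) * ∫⁻ y in Ioc (0 : ℝ) 1,
            ENNReal.ofReal ‖v - u‖ * (sl g y v * sl g y u)) = ENNReal.ofReal (1 + Lam) *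
            ∫⁻ v, ∫⁻ u, ∫⁻ y in Ioc (0 : ℝ) 1, ENNReal.ofReal ‖v - u‖ * (sl g y v * sl g y u) := by
          rw [← lintegral_const_mul' _ _ ENNReal.ofReal_ne_top]
          exact lintegral_congr fun v => lintegral_const_mul' _ _ ENNReal.ofReal_ne_top
        rw [e3, e2, nrate_eq hg, lintegral_const_mul' (ENNReal.ofReal (2 * π)) _ ENNReal.ofReal_ne_top]
        ring

/-- The density gained by one collision time. -/
lemma gain_density_le {θ T : ℝ} {f : ℝ → Prof} (hf : IsSlabSol θ T f) {T₀ s t t₁ x : ℝ}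
    (hs : s ∈ Icc 0 T) (hst₁ : s ≤ t₁) (hst : s < t) (ht : t ∈ Icc 0 T₀) {Y : ℝ≥0∞}
    (hY : landSup one f T₀ t₁ ≤ Y) {c₀ ε R Lam : ℝ}
    (hE : xint sqn (f s) ≤ ENNReal.ofReal c₀) (hε : 0 < ε) (hε1 : ε ≤ 1) (hR : 1 ≤ R) (hLam : 0 < Lam) :
    ∫⁻ v, gs (f s) (x - (t - s) * v 0) v ≤
      ENNReal.ofReal (4 * π) * Y *
        (nearDen (env f t₁ t) ε x (t - s) + ENNReal.ofReal (10 / (ε * R) * c₀) +
          (Ioi (ε / (1 + R))).indicator (fun τ => ENNReal.ofReal τ⁻¹ * ENNReal.ofReal (2 / Lam) * Y)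
            (t - s)) +
      ENNReal.ofReal (1 + Lam) * nrate (f s) := by
  classical
  set τ := t - s with hτ
  have hτ0 : 0 < τ := sub_pos.2 hst
  have hfs := hf.measurable_time s
  have hmm := hf.measurable
  set h : ℝ → V3 → ℝ≥0∞ := fun z => sl (f s) (x - τ * z) with hh
  have hhm : Measurable (Function.uncurry h) :=
    (measurable_sl hfs).comp (f := fun q : ℝ × V3 => (x - τ * q.1, q.2)) (by fun_prop)
  have hH : Measurable (Function.uncurry (env f t₁ t)) := measurable_env_at hmm t₁ t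
  have hHY : ∀ y, ∫⁻ u, env f t₁ t y u ≤ Y := fun y =>
    le_trans (by simpa [one] using lintegral_env_le_landSup (W := one) (f := f) ht t₁ y) hY
  have hle : ∀ z u, h z u ≤ env f t₁ t (x - τ * (z - u 0)) u := fun z u => by
    refine (sl_le_env hf hs (le_min hst₁ hst.le) (x - τ * z) u).trans_eq ?_
    congr 1
    simp only [hτ]; ring
  have hsl : ∀ z, ∫⁻ v, h z v ≤ Y := fun z =>
    le_trans (by simpa [mom, one] using
      mom_le_landSup (W := one) hf hs (hst.le.trans ht.2) hst₁ (x - τ * z)) hY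
  refine le_trans (le_of_eq (by simp only [one_mul]; rfl))
    ((gain_projection (fun _ => 1) (fun _ _ _ => 1) h measurable_const measurable_const hhm
      fun _ _ => le_rfl).trans ?_)
  -- the three kinds of fast partners
  set a := ε / (1 + R) with ha
  set Sa := {q : ℝ × V3 | |q.1 - q.2 0| ≤ 2 * ‖q.2‖ ∧ τ * (1 + ‖q.2‖) ≤ ε}
  set Sb := {q : ℝ × V3 | |q.1 - q.2 0| ≤ 2 * ‖q.2‖ ∧ ε < τ * (1 + ‖q.2‖) ∧ R < ‖q.2‖}
  set Sc := {q : ℝ × V3 | a < τ ∧ |τ * (q.1 - q.2 0)| ≤ 1 / Lam}
  set F : ℝ × V3 → ℝ≥0∞ := fun q => h q.1 q.2 with hFdef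
  have hFm : Measurable F := hhm
  set G : ℝ → V3 → ℝ≥0∞ := fun z u => Sa.indicator F (z, u) + Sb.indicator F (z, u) +
    Sc.indicator F (z, u) with hG
  have hdist : MeasurableSet {q : ℝ × V3 | |q.1 - q.2 0| ≤ 2 * ‖q.2‖} :=
    measurableSet_le (by fun_prop) (by fun_prop)
  have hSa : MeasurableSet Sa := hdist.inter
    (measurableSet_le (f := fun q : ℝ × V3 => τ * (1 + ‖q.2‖)) (by fun_prop) measurable_const)
  have hSb : MeasurableSet Sb := hdist.inter
    ((measurableSet_lt (g := fun q : ℝ × V3 => τ * (1 + ‖q.2‖)) measurable_const (by fun_prop)).inter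
      (measurableSet_lt (g := fun q : ℝ × V3 => ‖q.2‖) measurable_const (by fun_prop)))
  have hSc : MeasurableSet Sc := (MeasurableSet.const (a < τ)).inter
    (measurableSet_le (f := fun q : ℝ × V3 => |τ * (q.1 - q.2 0)|) (by fun_prop) measurable_const)
  have hGm : Measurable (Function.uncurry G) :=
    ((hFm.indicator hSa).add (hFm.indicator hSb)).add (hFm.indicator hSc)
  set L : ℝ × V3 × V3 → ℝ≥0∞ :=
    {q : ℝ × V3 × V3 | q.1 ∈ hitSet q.2.1 q.2.2 ∧ 1 / Lam ≤ ‖q.2.1 - q.2.2‖ * τ}.indicator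
      (fun q => sl (f s) (x - τ * q.1) q.2.1 * sl (f s) (x - τ * q.1) q.2.2) with hL
  have hfast : ∀ z v u, z ∈ hitSet v u → ‖v‖ ≤ ‖u‖ → ¬ 1 / Lam ≤ ‖v - u‖ * τ →
      h z u ≤ G z u := by
    intro z v u hz hc hr
    have hd := dist_le_of_mem_hitSet hz hc
    simp only [hG]
    by_cases hca : τ * (1 + ‖u‖) ≤ ε
    · rw [indicator_of_mem (show (z, u) ∈ Sa from ⟨hd, hca⟩), add_assoc]
      exact le_self_add
    by_cases hcb : R < ‖u‖
    · rw [indicator_of_mem (show (z, u) ∈ Sb from ⟨hd, lt_of_not_ge hca, hcb⟩)]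
      exact le_add_right (le_add_left le_rfl)
    refine le_add_left (le_of_eq (indicator_of_mem (f := F) (show (z, u) ∈ Sc from ⟨?_, ?_⟩)).symm)
    · rw [ha, div_lt_iff₀ (by linarith)]
      exact (lt_of_not_ge hca).trans_le
        (mul_le_mul_of_nonneg_left (by linarith [not_lt.1 hcb]) hτ0.le)
    · have h2 := abs_le.1 (abs_coord_le (v - u))
      simp only [PiLp.sub_apply] at h2
      simp only [hitSet, mem_Icc] at hz
      have h3 : |z - u 0| ≤ ‖v - u‖ :=
        abs_le.2 ⟨by linarith [hz.1, h2.1], by linarith [hz.2, h2.2]⟩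
      show |τ * (z - u 0)| ≤ 1 / Lam
      rw [abs_mul, abs_of_pos hτ0]
      nlinarith [lt_of_not_ge hr]
  have hpt : ∀ z v u, (hitSet v u).indicator (fun z => 1 * h z v * h z u) z ≤
      h z v * G z u + h z u * G z v + L (z, v, u) := by
    intro z v u
    by_cases hz : z ∈ hitSet v u
    swap
    · rw [indicator_of_notMem hz]; exact zero_le
    rw [indicator_of_mem hz, one_mul]
    by_cases hr : 1 / Lam ≤ ‖v - u‖ * τ
    · refine le_add_left (le_of_eq ?_)
      simp only [hL, hh]
      rw [indicator_of_mem (show (z, v, u) ∈ {q : ℝ × V3 × V3 |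
        q.1 ∈ hitSet q.2.1 q.2.2 ∧ 1 / Lam ≤ ‖q.2.1 - q.2.2‖ * τ} from ⟨hz, hr⟩)]
    rcases le_total ‖v‖ ‖u‖ with hc | hc
    · exact le_add_right (le_add_right (mul_le_mul' le_rfl (hfast z v u hz hc hr)))
    · refine le_add_right (le_add_left ?_)
      rw [mul_comm]
      exact mul_le_mul' le_rfl
        (hfast z u v (hitSet_comm v u ▸ hz) hc (by rwa [norm_sub_rev]))
  have hGz : ∀ z, Measurable (G z) := fun z => hGm.comp measurable_prodMk_left
  have hhz : ∀ z, Measurable (h z) := fun z => hhm.comp measurable_prodMk_left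
  have hGM : Measurable fun z => ∫⁻ u, G z u := Measurable.lintegral_prod_right' hGm
  have hsum : ∀ z, (∫⁻ v, ∫⁻ u, (hitSet v u).indicator (fun z => 1 * h z v * h z u) z) ≤
      2 * Y * (∫⁻ u, G z u) + ∫⁻ v, ∫⁻ u, L (z, v, u) := by
    intro z
    refine (lintegral_mono fun v => lintegral_mono fun u => hpt z v u).trans ?_
    have e : ∀ v, (∫⁻ u, (h z v * G z u + h z u * G z v + L (z, v, u))) =
        h z v * (∫⁻ u, G z u) + (∫⁻ u, h z u) * G z v + ∫⁻ u, L (z, v, u) := fun v => by
      rw [lintegral_add_left (((hGz z).const_mul _).fun_add ((hhz z).mul_const _)),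
        lintegral_add_left ((hGz z).const_mul _), lintegral_const_mul _ (hGz z),
        lintegral_mul_const _ (hhz z)]
    simp only [e]
    rw [lintegral_add_left (((hhz z).mul_const _).fun_add ((hGz z).const_mul _)),
      lintegral_add_left ((hhz z).mul_const _), lintegral_mul_const _ (hhz z),
      lintegral_const_mul _ (hGz z), ← two_mul, mul_assoc]
    exact add_le_add (mul_le_mul' le_rfl (mul_le_mul' (hsl z) le_rfl)) le_rfl
  -- partners at one velocity
  have hmE : Measurable fun u => ∫⁻ y in Ioc (0 : ℝ) 1, sqn u * sl (f s) y u :=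
    Measurable.lintegral_prod_right' (f := fun q : V3 × ℝ => sqn q.1 * sl (f s) q.2 q.1)
      ((Measurable.comp (g := sqn) (by unfold sqn; fun_prop) measurable_fst).mul
        ((measurable_sl hfs).comp measurable_swap))
  have hsb : ∀ u, (∫⁻ z, Sb.indicator F (z, u)) ≤
      ENNReal.ofReal (10 / (ε * R)) * ∫⁻ y in Ioc (0 : ℝ) 1, sqn u * sl (f s) y u := by
    intro u
    by_cases hcu : ε < τ * (1 + ‖u‖) ∧ R < ‖u‖
    swap
    · refine le_of_eq_of_le ?_ zero_le
      exact lintegral_eq_zero_of_ae_eq_zero (Filter.Eventually.of_forall fun z =>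
        indicator_of_notMem (show (z, u) ∉ Sb from fun hm => hcu hm.2) _)
    have hp : Function.Periodic (fun y => sl (f s) y u) 1 := fun y => by
      simp only [sl_periodic (hf.periodic s)]
    calc ∫⁻ z, Sb.indicator F (z, u)
        = ∫⁻ z in Icc (u 0 - 2 * ‖u‖) (u 0 + 2 * ‖u‖), sl (f s) (x - τ * z) u := by
          rw [← lintegral_indicator measurableSet_Icc]
          refine lintegral_congr fun z => ?_
          by_cases hz : |z - u 0| ≤ 2 * ‖u‖
          · rw [indicator_of_mem (show (z, u) ∈ Sb from ⟨hz, hcu⟩), indicator_of_mem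
              (show z ∈ Icc (u 0 - 2 * ‖u‖) (u 0 + 2 * ‖u‖) from
                ⟨by linarith [(abs_le.1 hz).1], by linarith [(abs_le.1 hz).2]⟩)]
          · rw [indicator_of_notMem (show (z, u) ∉ Sb from fun hm => hz hm.1),
              indicator_of_notMem fun hm : z ∈ Icc (u 0 - 2 * ‖u‖) (u 0 + 2 * ‖u‖) =>
                hz (abs_le.2 ⟨by linarith [hm.1], by linarith [hm.2]⟩)]
      _ ≤ ENNReal.ofReal (2 * (2 * ‖u‖) + τ⁻¹) * ∫⁻ y in Ioc (0 : ℝ) 1, sl (f s) y u :=
          slice_period_le hp hτ0 (by positivity) _ x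
      _ ≤ ENNReal.ofReal (10 / (ε * R)) * (sqn u * ∫⁻ y in Ioc (0 : ℝ) 1, sl (f s) y u) := by
          rw [sqn, ← mul_assoc (ENNReal.ofReal (10 / (ε * R))),
            ← ENNReal.ofReal_mul (by positivity)]
          refine mul_le_mul' (ENNReal.ofReal_le_ofReal ?_) le_rfl
          have h1 : τ⁻¹ ≤ (1 + ‖u‖) / ε := by
            rw [inv_eq_one_div, div_le_div_iff₀ hτ0 hε]
            linarith [hcu.1]
          have hu1 : 1 ≤ ‖u‖ := hR.trans hcu.2.le
          have h2 : 4 * ε * ‖u‖ + (1 + ‖u‖) ≤ 10 * ‖u‖ ^ 2 / R := by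
            rw [le_div_iff₀ (by linarith)]
            nlinarith [hcu.2, mul_le_mul_of_nonneg_left hcu.2.le (norm_nonneg u),
              mul_le_mul_of_nonneg_right hε1 (norm_nonneg u)]
          calc 2 * (2 * ‖u‖) + τ⁻¹ ≤ (4 * ε * ‖u‖ + (1 + ‖u‖)) / ε := by
                rw [add_div, show 4 * ε * ‖u‖ / ε = 2 * (2 * ‖u‖) by field_simp; ring]
                linarith
            _ ≤ 10 * ‖u‖ ^ 2 / R / ε := by gcongr
            _ = _ := by field_simp
      _ = _ := by rw [lintegral_const_mul' (sqn u) _ ENNReal.ofReal_ne_top]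
  have hsc : ∀ u, (∫⁻ z, Sc.indicator F (z, u)) ≤ (Ioi a).indicator
      (fun τ => ENNReal.ofReal τ⁻¹ *
        ∫⁻ w in Icc (-(1 / Lam)) (1 / Lam), env f t₁ t (x - w) u) τ := by
    intro u
    by_cases hcτ : τ ∈ Ioi a
    swap
    · refine le_of_eq_of_le ?_ zero_le
      exact lintegral_eq_zero_of_ae_eq_zero (Filter.Eventually.of_forall fun z =>
        indicator_of_notMem (show (z, u) ∉ Sc from fun hm => hcτ hm.1) _)
    rw [indicator_of_mem hcτ]
    calc ∫⁻ z, Sc.indicator F (z, u)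
        ≤ ∫⁻ z, (Icc (-(1 / Lam)) (1 / Lam)).indicator (fun w => env f t₁ t (x - w) u)
            (τ * (z - u 0)) := by
          refine lintegral_mono fun z => ?_
          by_cases hz : |τ * (z - u 0)| ≤ 1 / Lam
          · rw [indicator_of_mem (show (z, u) ∈ Sc from ⟨hcτ, hz⟩),
              indicator_of_mem (show τ * (z - u 0) ∈ Icc (-(1 / Lam)) (1 / Lam) from abs_le.1 hz)]
            exact hle z u
          · rw [indicator_of_notMem (show (z, u) ∉ Sc from fun hm => hz hm.2)]
            exact zero_le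
      _ = _ := by
          rw [lintegral_affine (fun w => (Icc (-(1 / Lam)) (1 / Lam)).indicator
            (fun w => env f t₁ t (x - w) u) w) hτ0.ne', abs_of_pos hτ0,
            lintegral_indicator measurableSet_Icc]
  have hGint : (∫⁻ z, ∫⁻ u, G z u) ≤ nearDen (env f t₁ t) ε x τ +
      ENNReal.ofReal (10 / (ε * R) * c₀) +
        (Ioi a).indicator (fun τ => ENNReal.ofReal τ⁻¹ * ENNReal.ofReal (2 / Lam) * Y) τ := by
    have hma : Measurable fun u => ∫⁻ z, Sa.indicator F (z, u) :=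
      (hFm.indicator hSa).lintegral_prod_left'
    have hmb : Measurable fun u => ∫⁻ z, Sb.indicator F (z, u) :=
      (hFm.indicator hSb).lintegral_prod_left'
    have ea : ∀ u, (∫⁻ z, G z u) = (∫⁻ z, Sa.indicator F (z, u)) +
        (∫⁻ z, Sb.indicator F (z, u)) + ∫⁻ z, Sc.indicator F (z, u) := fun u => by
      have m1 : Measurable fun z => Sa.indicator F (z, u) :=
        (hFm.indicator hSa).comp measurable_prodMk_right
      have m2 : Measurable fun z => Sb.indicator F (z, u) :=
        (hFm.indicator hSb).comp measurable_prodMk_right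
      simp only [hG]
      rw [lintegral_add_left (m1.fun_add m2), lintegral_add_left m1]
    rw [lintegral_lintegral_swap hGm.aemeasurable, lintegral_congr ea,
      lintegral_add_left (hma.fun_add hmb), lintegral_add_left hma]
    refine add_le_add (add_le_add ?_ ?_) ?_
    · refine lintegral_mono fun u => ?_
      by_cases hc : τ * (1 + ‖u‖) ≤ ε
      · refine le_trans (le_of_eq ?_) (slice_near_le hτ0 hc (q := fun z => h z u) fun z => hle z u)
        refine lintegral_congr fun z => ?_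
        by_cases hz : |z - u 0| ≤ 2 * ‖u‖
        · rw [indicator_of_mem (show (z, u) ∈ Sa from ⟨hz, hc⟩),
            indicator_of_mem (show z ∈ {z : ℝ | |z - u 0| ≤ 2 * ‖u‖} from hz)]
        · rw [indicator_of_notMem (show (z, u) ∉ Sa from fun hm => hz hm.1),
            indicator_of_notMem (show z ∉ {z : ℝ | |z - u 0| ≤ 2 * ‖u‖} from hz)]
      · refine le_of_eq_of_le ?_ zero_le
        exact lintegral_eq_zero_of_ae_eq_zero (Filter.Eventually.of_forall fun z =>
          indicator_of_notMem (show (z, u) ∉ Sa from fun hm => hc hm.2) _)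
    · refine (lintegral_mono hsb).trans ?_
      rw [lintegral_const_mul _ hmE, ENNReal.ofReal_mul (by positivity)]
      refine mul_le_mul' le_rfl (le_trans (le_of_eq ?_) hE)
      rw [lintegral_lintegral_swap (f := fun u y => sqn u * sl (f s) y u)
        ((Measurable.comp (g := sqn) (by unfold sqn; fun_prop) measurable_fst).mul
          ((measurable_sl hfs).comp measurable_swap)).aemeasurable]
      rfl
    · refine (lintegral_mono hsc).trans ?_
      by_cases hcτ : τ ∈ Ioi a
      swap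
      · simp [indicator_of_notMem hcτ]
      simp only [indicator_of_mem hcτ]
      rw [lintegral_const_mul' _ _ ENNReal.ofReal_ne_top, mul_assoc,
        lintegral_lintegral_swap (f := fun u w => env f t₁ t (x - w) u)
          (μ := (volume : Measure V3)) (ν := volume.restrict (Icc (-(1 / Lam)) (1 / Lam)))
          (hH.comp (f := fun q : V3 × ℝ => (x - q.2, q.1)) (by fun_prop)).aemeasurable]
      refine mul_le_mul' le_rfl ((lintegral_mono fun w => hHY (x - w)).trans_eq ?_)
      rw [setLIntegral_const, Real.volume_Icc, mul_comm]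
      congr 2
      ring
  calc ENNReal.ofReal (2 * π) *
        ∫⁻ z, ∫⁻ v, ∫⁻ u, (hitSet v u).indicator (fun z => 1 * h z v * h z u) z
      ≤ ENNReal.ofReal (2 * π) *
          ∫⁻ z, (2 * Y * (∫⁻ u, G z u) + ∫⁻ v, ∫⁻ u, L (z, v, u)) :=
        mul_le_mul' le_rfl (lintegral_mono hsum)
    _ = ENNReal.ofReal (4 * π) * Y * (∫⁻ z, ∫⁻ u, G z u) +
          ENNReal.ofReal (2 * π) * ∫⁻ z, ∫⁻ v, ∫⁻ u, L (z, v, u) := by
        rw [lintegral_add_left (hGM.const_mul _), lintegral_const_mul _ hGM, mul_add]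
        have e : ENNReal.ofReal (2 * π) * (2 * Y) = ENNReal.ofReal (4 * π) * Y := by
          rw [← mul_assoc, ← ENNReal.ofReal_ofNat 2, ← ENNReal.ofReal_mul (by positivity)]
          congr 2; ring
        rw [← mul_assoc, e]
    _ ≤ _ := add_le_add (mul_le_mul' le_rfl hGint)
        (long_pairs_le hfs (hf.periodic s) hτ0 hLam x)

end Vale.Agent.P140.Slab
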