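import Vale.Agent.P140.Renorm.Defs

/-!
# The entropy clause of a renormalized entropy solution

Only the finiteness of the relative entropy and of the dissipation on bounded time intervals is
kept, both as extended nonnegative integrals.
-/

open MeasureTheory Real
open scoped ENNReal

namespace Vale.Agent.P140.Slab

open Vale.Agent.P140 Vale.Agent.P140.Renorm

/-- `(a - b) log (a / b)`, with its extended value where one argument vanishes. -/
noncomputable def dissDen (a b : ℝ) : ℝ≥0∞ :=
  if a = b then 0 else if a = 0 ∨ b = 0 then ⊤ else ENNReal.ofReal ((a - b) * log (a / b))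

/-- `ℋ_M(F)`, the integral of the nonnegative integrand `F log (F/M) - F + M`. -/
noncomputable def relEntM (F : Omega → ℝ) : ℝ≥0∞ :=
  ∫⁻ z : Omega, ENNReal.ofReal (F z * log (F z / M0 z.2) - F z + M0 z.2)

/-- The entropy dissipation, up to the factor `1/4`. -/
noncomputable def dissip (F : Omega → ℝ) : ℝ≥0∞ :=
  ∫⁻ z : Omega, ∫⁻ p : V3 × S2, ENNReal.ofReal |impact z.2 p| *
    dissDen (F (z.1, postV z.2 p) * F (z.1, postW z.2 p)) (F z * F (z.1, p.1))
    ∂((volume : Measure V3).prod surface)

/-- Relative entropy and dissipation are finite on bounded time intervals. -/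
def IsEntropyBounded (F : ℝ → Omega → ℝ) : Prop :=
  ∀ T : ℝ, 0 ≤ T → ∃ C : ℝ≥0∞, C ≠ ⊤ ∧ (∀ t ∈ Set.Icc 0 T, relEntM (F t) ≤ C) ∧
    (∫⁻ t in Set.Icc 0 T, dissip (F t)) ≤ C

end Vale.Agent.P140.Slab
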