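import Vale.Agent.P140.Slab.Basic
import Vale.Agent.P140.Slab.Proj

/-!
# The gain landing at a point

Collisions at most `ε / (1 + |u|)` before landing cost `ε` times the envelope at the point, the
earlier ones a moment of one order more over a period.
-/

open MeasureTheory Real Set
open scoped RealInnerProductSpace ENNReal

namespace Vale.Agent.P140.Slab

open Vale.Agent.P140 Vale.Agent.P140.Renorm

lemma abs_coord_le (v : V3) : |v 0| ≤ ‖v‖ := by
  simpa [Real.norm_eq_abs] using PiLp.norm_apply_le v 0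

/-- Affine change of variable on the line. -/
lemma lintegral_affine (F : ℝ → ℝ≥0∞) {τ : ℝ} (hτ : τ ≠ 0) (c : ℝ) :
    ∫⁻ z, F (τ * (z - c)) = ENNReal.ofReal |τ|⁻¹ * ∫⁻ w, F w := by
  have him : (fun z : ℝ => τ * (z - c)) '' univ = univ :=
    eq_univ_of_forall fun w => ⟨c + w / τ, mem_univ _, by field_simp; ring⟩
  have h := lintegral_image_eq_lintegral_abs_deriv_mul MeasurableSet.univ (f' := fun _ => τ)
    (fun z _ => by simpa using (((hasDerivAt_id z).sub_const c).const_mul τ))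
    (fun a _ b _ hab => by simpa using mul_left_cancel₀ hτ hab) F
  rw [him, Measure.restrict_univ, lintegral_const_mul' _ _ ENNReal.ofReal_ne_top] at h
  rw [h, ← mul_assoc, ← ENNReal.ofReal_mul (by positivity), inv_mul_cancel₀ (abs_ne_zero.2 hτ),
    ENNReal.ofReal_one, one_mul]

/-- `∫₀ᵃ τ^(-1/2) = 2 √a`. -/
lemma lintegral_inv_sqrt {a : ℝ} (ha : 0 ≤ a) :
    ∫⁻ τ in Ioc 0 a, ENNReal.ofReal (√τ)⁻¹ = ENNReal.ofReal (2 * √a) := by
  have him : (fun σ : ℝ => σ ^ 2) '' Ioc 0 (√a) = Ioc 0 a := by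
    ext τ
    constructor
    · rintro ⟨σ, ⟨h1, h2⟩, rfl⟩
      exact ⟨by positivity, by
        calc σ ^ 2 ≤ (√a) ^ 2 := pow_le_pow_left₀ h1.le h2 2
          _ = a := Real.sq_sqrt ha⟩
    · rintro ⟨h1, h2⟩
      exact ⟨√τ, ⟨Real.sqrt_pos.2 h1, Real.sqrt_le_sqrt h2⟩, Real.sq_sqrt h1.le⟩
  rw [← him, lintegral_image_eq_lintegral_abs_deriv_mul measurableSet_Ioc (f' := fun σ => 2 * σ)
    (fun σ _ => by
      simpa using ((hasDerivAt_id σ).fun_pow 2).hasDerivWithinAt)
    (fun p hp q hq h => (sq_eq_sq₀ hp.1.le hq.1.le).1 h)]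
  have e : ∀ σ ∈ Ioc (0 : ℝ) (√a), ENNReal.ofReal |2 * σ| * ENNReal.ofReal (√(σ ^ 2))⁻¹ = 2 := by
    intro σ hσ
    rw [Real.sqrt_sq hσ.1.le, ← ENNReal.ofReal_mul (abs_nonneg _),
      abs_of_pos (by linarith [hσ.1] : (0 : ℝ) < 2 * σ), mul_assoc, mul_inv_cancel₀ hσ.1.ne']
    simp
  rw [setLIntegral_congr_fun measurableSet_Ioc e, setLIntegral_const, Real.volume_Ioc, sub_zero,
    ENNReal.ofReal_mul zero_le_two, ENNReal.ofReal_ofNat]

lemma lintegral_inv_sqrt_abs {b : ℝ} (hb : 0 ≤ b) :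
    ∫⁻ w in Icc (-b) b, ENNReal.ofReal (√|w|)⁻¹ = ENNReal.ofReal (4 * √b) := by
  have hpos : ∫⁻ w in Ioc (0 : ℝ) b, ENNReal.ofReal (√|w|)⁻¹ = ENNReal.ofReal (2 * √b) := by
    rw [← lintegral_inv_sqrt hb]
    exact setLIntegral_congr_fun measurableSet_Ioc fun w hw => by rw [abs_of_pos hw.1]
  have hneg : ∫⁻ w in Ico (-b) (0 : ℝ), ENNReal.ofReal (√|w|)⁻¹ = ENNReal.ofReal (2 * √b) := by
    rw [← hpos]
    have h := (Measure.measurePreserving_neg (volume : Measure ℝ)).setLIntegral_comp_preimage_emb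
      (MeasurableEquiv.neg ℝ).measurableEmbedding (fun w => ENNReal.ofReal (√|w|)⁻¹) (Ioc 0 b)
    simp only [abs_neg] at h
    rw [← h]
    congr 2
    ext w
    simp
  have hu : Icc (-b) b =ᵐ[volume] (Ico (-b) 0 ∪ Ioc 0 b : Set ℝ) := by
    refine (ae_eq_set.2 ⟨?_, ?_⟩)
    · refine measure_mono_null (fun w hw => ?_) (Real.volume_singleton (a := (0 : ℝ)))
      simp only [mem_sdiff, mem_Icc, mem_union, mem_Ico, mem_Ioc, not_or, not_and] at hw
      show w = 0
      rcases lt_trichotomy w 0 with h | h | h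
      · exact absurd h (hw.2.1 hw.1.1)
      · exact h
      · exact absurd hw.1.2 (hw.2.2 h)
    · refine measure_mono_null (fun w hw => ?_) (measure_empty (μ := (volume : Measure ℝ)))
      exact hw.2 (by
        rcases hw.1 with h | h
        · exact ⟨h.1, by linarith [h.2]⟩
        · exact ⟨by linarith [h.1], h.2⟩)
  rw [setLIntegral_congr hu, lintegral_union measurableSet_Ioc, hneg, hpos,
    ← ENNReal.ofReal_add (by positivity) (by positivity)]
  · congr 1; ring
  · exact Set.disjoint_left.2 fun w h1 h2 => absurd h2.1 (not_lt.2 h1.2.le)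

/-- The time weight of the collisions that land within `ε / (1 + |u|)`. -/
lemma time_weight_le {ε : ℝ} (hε : 0 < ε) (u : V3) {w : ℝ} (hw : w ≠ 0) :
    (∫⁻ τ in Ioi (0 : ℝ), ({τ : ℝ | |w| ≤ 2 * ‖u‖ * τ ∧ τ * (1 + ‖u‖) ≤ ε}).indicator
      (fun τ => ENNReal.ofReal τ⁻¹) τ) ≤
    (Icc (-(2 * ε)) (2 * ε)).indicator (fun w => ENNReal.ofReal (2 * √(2 * ε) * (√|w|)⁻¹)) w := by
  set A := {τ : ℝ | |w| ≤ 2 * ‖u‖ * τ ∧ τ * (1 + ‖u‖) ≤ ε} with hA
  have hAm : MeasurableSet A :=
    (measurableSet_le (f := fun _ : ℝ => |w|) measurable_const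
      (g := fun τ : ℝ => 2 * ‖u‖ * τ) (by fun_prop)).inter
      (measurableSet_le (f := fun τ : ℝ => τ * (1 + ‖u‖)) (by fun_prop) measurable_const)
  have hw0 : 0 < |w| := abs_pos.2 hw
  have hu1 : 0 < 1 + ‖u‖ := by positivity
  rw [setLIntegral_indicator hAm]
  by_cases hne : (A ∩ Ioi 0).Nonempty
  · obtain ⟨τ₀, ⟨h1, h2⟩, h3⟩ := hne
    have hwin : w ∈ Icc (-(2 * ε)) (2 * ε) := by
      have : 2 * ‖u‖ * τ₀ ≤ 2 * ε := by nlinarith [h3.out, norm_nonneg u]
      exact abs_le.1 (h1.trans this)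
    rw [indicator_of_mem hwin]
    calc ∫⁻ τ in A ∩ Ioi 0, ENNReal.ofReal τ⁻¹
        ≤ ∫⁻ τ in A ∩ Ioi 0,
            ENNReal.ofReal (√(2 * ‖u‖) / √|w|) * ENNReal.ofReal (√τ)⁻¹ := by
          refine setLIntegral_mono' (hAm.inter measurableSet_Ioi) fun τ ⟨⟨hτ1, _⟩, (hτ : 0 < τ)⟩ => ?_
          rw [← ENNReal.ofReal_mul (by positivity)]
          refine ENNReal.ofReal_le_ofReal ?_
          have hs : √|w| ≤ √(2 * ‖u‖) * √τ := by
            rw [← Real.sqrt_mul (by positivity)]; exact Real.sqrt_le_sqrt hτ1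
          rw [div_mul_eq_mul_div, le_div_iff₀ (Real.sqrt_pos.2 hw0)]
          calc τ⁻¹ * √|w| ≤ τ⁻¹ * (√(2 * ‖u‖) * √τ) :=
                mul_le_mul_of_nonneg_left hs (by positivity)
            _ = √(2 * ‖u‖) * (√τ)⁻¹ := by
                have h := Real.sq_sqrt hτ.le
                have h0 : √τ ≠ 0 := (Real.sqrt_pos.2 hτ).ne'
                field_simp
                rw [h]
                ring
      _ ≤ ∫⁻ τ in Ioc 0 (ε / (1 + ‖u‖)),
            ENNReal.ofReal (√(2 * ‖u‖) / √|w|) * ENNReal.ofReal (√τ)⁻¹ :=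
          lintegral_mono_set fun τ ⟨⟨_, hτ2⟩, hτ⟩ => ⟨hτ, (le_div_iff₀ hu1).2 hτ2⟩
      _ = ENNReal.ofReal (√(2 * ‖u‖) / √|w| * (2 * √(ε / (1 + ‖u‖)))) := by
          rw [lintegral_const_mul' _ _ ENNReal.ofReal_ne_top, lintegral_inv_sqrt (by positivity),
            ← ENNReal.ofReal_mul (by positivity)]
      _ ≤ _ := by
          refine ENNReal.ofReal_le_ofReal ?_
          have : √(2 * ‖u‖) * √(ε / (1 + ‖u‖)) ≤ √(2 * ε) := by
            rw [← Real.sqrt_mul (by positivity)]
            refine Real.sqrt_le_sqrt ?_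
            rw [← mul_div_assoc, div_le_iff₀ hu1]
            nlinarith [norm_nonneg u]
          rw [div_eq_mul_inv]
          calc √(2 * ‖u‖) * (√|w|)⁻¹ * (2 * √(ε / (1 + ‖u‖)))
              = (√(2 * ‖u‖) * √(ε / (1 + ‖u‖))) * (2 * (√|w|)⁻¹) := by ring
            _ ≤ √(2 * ε) * (2 * (√|w|)⁻¹) := mul_le_mul_of_nonneg_right this (by positivity)
            _ = _ := by ring
  · rw [Set.not_nonempty_iff_eq_empty.1 hne]
    simp

lemma dist_le_of_mem_hitSet {v u : V3} {z : ℝ} (h : z ∈ hitSet v u) (hvu : ‖v‖ ≤ ‖u‖) :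
    |z - u 0| ≤ 2 * ‖u‖ := by
  have h1 : ‖v - u‖ ≤ 2 * ‖u‖ := (norm_sub_le v u).trans (by linarith)
  have h2 := abs_le.1 ((abs_coord_le (v - u)).trans le_rfl)
  simp only [hitSet, mem_Icc] at h
  simp only [PiLp.sub_apply] at h2
  exact abs_le.2 ⟨by linarith [h.1, h.2, h2.1, h2.2], by linarith [h.1, h.2, h2.1, h2.2]⟩

lemma hitSet_comm (v u : V3) : hitSet v u = hitSet u v := by
  simp only [hitSet, add_comm (v 0), norm_sub_rev v u]

/-- The two velocities of a collision, the slower one costs `κ`. -/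
lemma gain_split {W κ : V3 → ℝ≥0∞} (hW : Measurable W) (hκ : Measurable κ)
    (hle : ∀ v u q : V3, ‖v‖ ≤ ‖u‖ → ‖q‖ ^ 2 ≤ ‖v‖ ^ 2 + ‖u‖ ^ 2 → W q ≤ κ v * W u)
    {h : ℝ → V3 → ℝ≥0∞} (hh : Measurable (Function.uncurry h)) {Z : ℝ≥0∞}
    (hZ : ∀ᵐ z : ℝ, ∫⁻ v, κ v * h z v ≤ Z) :
    ∫⁻ v, W v * gain (h (v 0)) (h (v 0)) v ≤ ENNReal.ofReal (4 * π) * Z *
      ∫⁻ z, ∫⁻ u, {q : ℝ × V3 | |q.1 - q.2 0| ≤ 2 * ‖q.2‖}.indicator
        (fun q => W q.2 * h q.1 q.2) (z, u) := by
  classical
  set K : ℝ → V3 → V3 → ℝ≥0∞ := fun _ v u => if ‖v‖ ≤ ‖u‖ then κ v * W u else κ u * W v with hK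
  have hKm : Measurable fun q : ℝ × V3 × V3 => K q.1 q.2.1 q.2.2 := by
    simp only [hK]
    exact Measurable.ite (measurableSet_le (by fun_prop) (by fun_prop)) (by fun_prop) (by fun_prop)
  have hb := gain_projection W K h hW hKm hh (fun v p => by
    have he := energy_post v p
    have h0 := sq_nonneg ‖postW v p‖
    simp only [hK]
    split_ifs with hc
    · exact hle v p.1 _ hc (by linarith)
    · exact hle p.1 v _ (le_of_not_ge hc) (by linarith))
  refine hb.trans ?_
  set S := {q : ℝ × V3 | |q.1 - q.2 0| ≤ 2 * ‖q.2‖} with hS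
  have hSm : MeasurableSet S := measurableSet_le (by fun_prop) (by fun_prop)
  set G : ℝ → V3 → ℝ≥0∞ := fun z u => S.indicator (fun q => W q.2 * h q.1 q.2) (z, u) with hG
  have hGm : Measurable (Function.uncurry G) :=
    ((hW.comp measurable_snd).mul hh).indicator hSm
  set P : ℝ → V3 → ℝ≥0∞ := fun z v => κ v * h z v with hP
  have hPm : Measurable (Function.uncurry P) := (hκ.comp measurable_snd).mul hh
  have hGz : ∀ z, Measurable (G z) := fun z => hGm.comp measurable_prodMk_left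
  have hPz : ∀ z, Measurable (P z) := fun z => hPm.comp measurable_prodMk_left
  have hGM : Measurable fun z => ∫⁻ u, G z u := Measurable.lintegral_prod_right' hGm
  have hpt : ∀ z v u, (hitSet v u).indicator (fun z => K z v u * h z v * h z u) z ≤
      P z v * G z u + P z u * G z v := by
    intro z v u
    by_cases hz : z ∈ hitSet v u
    · rw [indicator_of_mem hz]
      simp only [hK]
      split_ifs with hc
      · refine le_add_right (le_of_eq ?_)
        simp only [hG, hP, indicator_of_mem (show (z, u) ∈ S from dist_le_of_mem_hitSet hz hc)]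
        ring
      · refine le_add_left (le_of_eq ?_)
        simp only [hG, hP, indicator_of_mem (show (z, v) ∈ S from
          dist_le_of_mem_hitSet (hitSet_comm v u ▸ hz) (le_of_not_ge hc))]
        ring
    · rw [indicator_of_notMem hz]
      exact zero_le
  have hsum : ∀ z, (∫⁻ v, ∫⁻ u, (hitSet v u).indicator (fun z => K z v u * h z v * h z u) z) ≤
      2 * ((∫⁻ v, P z v) * ∫⁻ u, G z u) := by
    intro z
    refine (lintegral_mono fun v => lintegral_mono fun u => hpt z v u).trans_eq ?_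
    have e : ∀ v, (∫⁻ u, P z v * G z u + P z u * G z v) =
        P z v * (∫⁻ u, G z u) + (∫⁻ u, P z u) * G z v := fun v => by
      rw [lintegral_add_left ((hGz z).const_mul _), lintegral_const_mul _ (hGz z),
        lintegral_mul_const _ (hPz z)]
    simp only [e]
    rw [lintegral_add_left ((hPz z).mul_const _), lintegral_mul_const _ (hPz z),
      lintegral_const_mul _ (hGz z), two_mul]
  calc ENNReal.ofReal (2 * π) * ∫⁻ z, ∫⁻ v, ∫⁻ u,
        (hitSet v u).indicator (fun z => K z v u * h z v * h z u) z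
      ≤ ENNReal.ofReal (2 * π) * ∫⁻ z, 2 * Z * ∫⁻ u, G z u := by
        refine mul_le_mul' le_rfl (lintegral_mono_ae ?_)
        filter_upwards [hZ] with z hz
        refine (hsum z).trans ?_
        rw [mul_assoc]
        exact mul_le_mul' le_rfl (mul_le_mul' hz le_rfl)
    _ = _ := by
        have e : ENNReal.ofReal (2 * π) * (2 * Z) = ENNReal.ofReal (4 * π) * Z := by
          rw [← mul_assoc, ← ENNReal.ofReal_ofNat 2, ← ENNReal.ofReal_mul (by positivity)]
          congr 2; ring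
        rw [lintegral_const_mul _ hGM, ← mul_assoc, e]

/-- A periodic density along an interval of velocities, seen after a time `τ`. -/
lemma slice_period_le {p : ℝ → ℝ≥0∞} (hp : Function.Periodic p 1) {τ l : ℝ} (hτ : 0 < τ)
    (hl : 0 ≤ l) (c x : ℝ) :
    ∫⁻ z in Icc (c - l) (c + l), p (x - τ * z) ≤
      ENNReal.ofReal (2 * l + τ⁻¹) * ∫⁻ y in Ioc (0 : ℝ) 1, p y := by
  calc ∫⁻ z in Icc (c - l) (c + l), p (x - τ * z)
      = ∫⁻ z, (fun w => (Icc (x - τ * c - τ * l) (x - τ * c - τ * l + 2 * τ * l)).indicator p w)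
          ((-τ) * (z - x / τ)) := by
        rw [← lintegral_indicator measurableSet_Icc]
        refine lintegral_congr fun z => ?_
        have e : -τ * (z - x / τ) = x - τ * z := by field_simp; ring
        simp only [e]
        have hiff : z ∈ Icc (c - l) (c + l) ↔
            x - τ * z ∈ Icc (x - τ * c - τ * l) (x - τ * c - τ * l + 2 * τ * l) := by
          rw [mem_Icc, mem_Icc]
          constructor <;> intro h <;> constructor <;> nlinarith [h.1, h.2]
        by_cases hz : z ∈ Icc (c - l) (c + l)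
        · rw [indicator_of_mem hz, indicator_of_mem (hiff.1 hz)]
        · rw [indicator_of_notMem hz, indicator_of_notMem fun h => hz (hiff.2 h)]
    _ ≤ ENNReal.ofReal τ⁻¹ * (ENNReal.ofReal (2 * τ * l + 1) * ∫⁻ y in Ioc (0 : ℝ) 1, p y) := by
        rw [lintegral_affine _ (neg_ne_zero.2 hτ.ne'), abs_neg, abs_of_pos hτ,
          lintegral_indicator measurableSet_Icc]
        exact mul_le_mul' le_rfl (lintegral_window hp _ (by positivity))
    _ = _ := by
        rw [← mul_assoc, ← ENNReal.ofReal_mul (by positivity)]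
        congr 2
        field_simp

/-- The particles that land within `ε / (1 + |u|)`, by time and displacement. -/
noncomputable def nearKer (H : ℝ → V3 → ℝ≥0∞) (ε x : ℝ) : ℝ × V3 × ℝ → ℝ≥0∞ :=
  {q : ℝ × V3 × ℝ | |q.2.2| ≤ 2 * ‖q.2.1‖ * q.1 ∧ q.1 * (1 + ‖q.2.1‖) ≤ ε}.indicator
    fun q => ENNReal.ofReal q.1⁻¹ * H (x - q.2.2) q.2.1

/-- Their contribution at one time. -/
noncomputable def nearDen (H : ℝ → V3 → ℝ≥0∞) (ε x τ : ℝ) : ℝ≥0∞ :=
  ∫⁻ u, ∫⁻ w, nearKer H ε x (τ, u, w)

variable {H : ℝ → V3 → ℝ≥0∞} {ε x : ℝ}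

lemma measurable_nearKer (hH : Measurable (Function.uncurry H)) :
    Measurable (nearKer H ε x) :=
  ((measurable_fst.inv.ennreal_ofReal).mul
    (hH.comp (f := fun q : ℝ × V3 × ℝ => (x - q.2.2, q.2.1)) (by fun_prop))).indicator
    ((measurableSet_le (f := fun q : ℝ × V3 × ℝ => |q.2.2|)
      (g := fun q : ℝ × V3 × ℝ => 2 * ‖q.2.1‖ * q.1) (by fun_prop) (by fun_prop)).inter
      (measurableSet_le (f := fun q : ℝ × V3 × ℝ => q.1 * (1 + ‖q.2.1‖)) (by fun_prop)
        measurable_const))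

lemma measurable_nearDen (hH : Measurable (Function.uncurry H)) :
    Measurable (nearDen H ε x) :=
  Measurable.lintegral_prod_right'
    (f := fun q : ℝ × V3 => ∫⁻ w, nearKer H ε x (q.1, q.2, w))
    (Measurable.lintegral_prod_right'
      (f := fun q : (ℝ × V3) × ℝ => nearKer H ε x (q.1.1, q.1.2, q.2))
      ((measurable_nearKer hH).comp (by fun_prop)))

/-- A density below `H` along a collision interval is below `nearKer`. -/
lemma slice_near_le {u : V3} {τ : ℝ} (hτ : 0 < τ)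
    (hc : τ * (1 + ‖u‖) ≤ ε) {q : ℝ → ℝ≥0∞} (hq : ∀ z, q z ≤ H (x - τ * (z - u 0)) u) :
    ∫⁻ z, {z : ℝ | |z - u 0| ≤ 2 * ‖u‖}.indicator q z ≤ ∫⁻ w, nearKer H ε x (τ, u, w) := by
  calc ∫⁻ z, {z : ℝ | |z - u 0| ≤ 2 * ‖u‖}.indicator q z
      ≤ ∫⁻ z, (fun w => {w : ℝ | |w| ≤ 2 * ‖u‖ * τ}.indicator (fun w => H (x - w) u) w)
          (τ * (z - u 0)) := by
        refine lintegral_mono fun z => ?_
        by_cases hz : |z - u 0| ≤ 2 * ‖u‖
        · rw [indicator_of_mem (show z ∈ {z : ℝ | |z - u 0| ≤ 2 * ‖u‖} from hz)]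
          refine (hq z).trans_eq ?_
          dsimp only
          rw [indicator_of_mem (show τ * (z - u 0) ∈ {w : ℝ | |w| ≤ 2 * ‖u‖ * τ} by
            show |τ * (z - u 0)| ≤ 2 * ‖u‖ * τ
            rw [abs_mul, abs_of_pos hτ, mul_comm]
            exact mul_le_mul_of_nonneg_right hz hτ.le)]
        · rw [indicator_of_notMem (show z ∉ {z : ℝ | |z - u 0| ≤ 2 * ‖u‖} from hz)]
          exact zero_le
    _ = _ := by
        rw [lintegral_affine _ hτ.ne', ← lintegral_const_mul' _ _ ENNReal.ofReal_ne_top]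
        refine lintegral_congr fun w => ?_
        simp only [nearKer, abs_of_pos hτ]
        by_cases hw : |w| ≤ 2 * ‖u‖ * τ
        · rw [indicator_of_mem (show w ∈ {w : ℝ | |w| ≤ 2 * ‖u‖ * τ} from hw),
            indicator_of_mem (show (τ, u, w) ∈ {q : ℝ × V3 × ℝ | |q.2.2| ≤ 2 * ‖q.2.1‖ * q.1 ∧
              q.1 * (1 + ‖q.2.1‖) ≤ ε} from ⟨hw, hc⟩)]
        · rw [indicator_of_notMem (show w ∉ {w : ℝ | |w| ≤ 2 * ‖u‖ * τ} from hw),
            indicator_of_notMem (show (τ, u, w) ∉ {q : ℝ × V3 × ℝ | |q.2.2| ≤ 2 * ‖q.2.1‖ * q.1 ∧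
              q.1 * (1 + ‖q.2.1‖) ≤ ε} from fun h => hw h.1), mul_zero]

/-- Over all times before `t` they cost `ε` times the largest moment. -/
lemma lintegral_nearDen_le (hH : Measurable (Function.uncurry H)) (hε : 0 < ε) {Y : ℝ≥0∞}
    (hY : ∀ y, ∫⁻ u, H y u ≤ Y) {t : ℝ} {I : Set ℝ} (hI : ∀ s ∈ I, s ≤ t) :
    ∫⁻ s in I, nearDen H ε x (t - s) ≤ ENNReal.ofReal (16 * ε) * Y := by
  have hnm := measurable_nearKer (ε := ε) (x := x) hH
  have hker : ∀ u : V3, ∀ w : ℝ, w ≠ 0 → (∫⁻ τ in Ioi (0 : ℝ), nearKer H ε x (τ, u, w)) ≤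
      (Icc (-(2 * ε)) (2 * ε)).indicator
        (fun w => ENNReal.ofReal (2 * √(2 * ε) * (√|w|)⁻¹)) w * H (x - w) u := by
    intro u w hw
    refine le_trans (le_of_eq ?_) (mul_le_mul' (time_weight_le hε u hw) le_rfl)
    have hmi : Measurable ({τ : ℝ | |w| ≤ 2 * ‖u‖ * τ ∧ τ * (1 + ‖u‖) ≤ ε}.indicator
        fun τ => ENNReal.ofReal τ⁻¹) :=
      (Measurable.ennreal_ofReal (by fun_prop)).indicator
        ((measurableSet_le (f := fun _ : ℝ => |w|) (g := fun τ : ℝ => 2 * ‖u‖ * τ)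
          measurable_const (by fun_prop)).inter
        (measurableSet_le (f := fun τ : ℝ => τ * (1 + ‖u‖)) (by fun_prop) measurable_const))
    rw [← lintegral_mul_const _ hmi]
    refine lintegral_congr fun τ => ?_
    by_cases hmem : |w| ≤ 2 * ‖u‖ * τ ∧ τ * (1 + ‖u‖) ≤ ε
    · rw [indicator_of_mem (show τ ∈ {τ : ℝ | |w| ≤ 2 * ‖u‖ * τ ∧ τ * (1 + ‖u‖) ≤ ε} from hmem)]
      exact indicator_of_mem (show (τ, u, w) ∈ {q : ℝ × V3 × ℝ |
        |q.2.2| ≤ 2 * ‖q.2.1‖ * q.1 ∧ q.1 * (1 + ‖q.2.1‖) ≤ ε} from hmem) _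
    · rw [indicator_of_notMem (show τ ∉ {τ : ℝ | |w| ≤ 2 * ‖u‖ * τ ∧ τ * (1 + ‖u‖) ≤ ε} from hmem),
        zero_mul]
      exact indicator_of_notMem (show (τ, u, w) ∉ {q : ℝ × V3 × ℝ |
        |q.2.2| ≤ 2 * ‖q.2.1‖ * q.1 ∧ q.1 * (1 + ‖q.2.1‖) ≤ ε} from hmem) _
  calc ∫⁻ s in I, nearDen H ε x (t - s)
      ≤ ∫⁻ s in Iio t, nearDen H ε x (t - s) := by
        refine lintegral_mono' (Measure.restrict_mono' ?_ le_rfl) le_rfl
        filter_upwards [Measure.ae_ne volume t] with s hs hsI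
        exact lt_of_le_of_ne (hI s hsI) hs
    _ = ∫⁻ τ in Ioi (0 : ℝ), nearDen H ε x τ := by
        have h := (Measure.measurePreserving_sub_left (volume : Measure ℝ) t)
          |>.setLIntegral_comp_preimage (measurableSet_Ioi (a := (0 : ℝ))) (measurable_nearDen hH (ε := ε) (x := x))
        rw [← h]
        congr 2
        ext s; simp
    _ = ∫⁻ u, ∫⁻ w, (∫⁻ τ in Ioi (0 : ℝ), nearKer H ε x (τ, u, w)) := by
        unfold nearDen
        rw [lintegral_lintegral_swap (Measurable.lintegral_prod_right'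
          (f := fun q : (ℝ × V3) × ℝ => nearKer H ε x (q.1.1, q.1.2, q.2))
          (hnm.comp (by fun_prop))).aemeasurable]
        exact lintegral_congr fun u => lintegral_lintegral_swap
          (hnm.comp (f := fun q : ℝ × ℝ => (q.1, u, q.2)) (by fun_prop)).aemeasurable
    _ ≤ ∫⁻ u, ∫⁻ w, (Icc (-(2 * ε)) (2 * ε)).indicator
          (fun w => ENNReal.ofReal (2 * √(2 * ε) * (√|w|)⁻¹)) w * H (x - w) u := by
        refine lintegral_mono fun u => lintegral_mono_ae ?_
        filter_upwards [Measure.ae_ne volume (0 : ℝ)] with w hw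
        exact hker u w hw
    _ = ∫⁻ w, (Icc (-(2 * ε)) (2 * ε)).indicator
          (fun w => ENNReal.ofReal (2 * √(2 * ε) * (√|w|)⁻¹)) w * ∫⁻ u, H (x - w) u := by
        rw [lintegral_lintegral_swap]
        · exact lintegral_congr fun w =>
            lintegral_const_mul _ (hH.comp measurable_prodMk_left)
        · exact (((Measurable.indicator (by fun_prop) measurableSet_Icc).comp measurable_snd).mul
            (hH.comp (f := fun q : V3 × ℝ => (x - q.2, q.1)) (by fun_prop))).aemeasurable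
    _ ≤ ∫⁻ w, (Icc (-(2 * ε)) (2 * ε)).indicator
          (fun w => ENNReal.ofReal (2 * √(2 * ε) * (√|w|)⁻¹)) w * Y :=
        lintegral_mono fun w => mul_le_mul' le_rfl (hY (x - w))
    _ = _ := by
        rw [lintegral_mul_const _ (Measurable.indicator (by fun_prop) measurableSet_Icc),
          lintegral_indicator measurableSet_Icc]
        congr 1
        simp only [ENNReal.ofReal_mul (by positivity : 0 ≤ 2 * √(2 * ε))]
        rw [lintegral_const_mul' _ _ ENNReal.ofReal_ne_top,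
          lintegral_inv_sqrt_abs (by linarith), ← ENNReal.ofReal_mul (by positivity)]
        congr 1
        linear_combination 8 * Real.sq_sqrt (by linarith : (0 : ℝ) ≤ 2 * ε)

theorem land_gain : PinLand := by
  intro θ T f W κ _ hf hW hκ hle ε t₀ t₁ t x Z hε hε1 ht₀ _ ht₁T _ hZ
  have hm := hf.measurable
  set I := Ioc t₀ (min t₁ t) with hI
  set Y := ⨆ x' : ℝ, ∫⁻ v, W v * env f t₁ t x' v with hY
  set H : ℝ → V3 → ℝ≥0∞ := fun y u => W u * env f t₁ t y u with hH
  have hHm : Measurable (Function.uncurry H) :=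
    (hW.comp measurable_snd).mul (measurable_env_at hm t₁ t)
  set Near : ℝ → ℝ≥0∞ := nearDen H ε x with hNear
  have hNearm : Measurable Near := measurable_nearDen hHm
  -- one collision time
  have hone : ∀ s ∈ I, s < t →
      (∫⁻ v, W v * gs (f s) (x - (t - s) * v 0) v) ≤ ENNReal.ofReal (4 * π) * Z *
        (Near (t - s) + ENNReal.ofReal (5 / ε) * xint (fun v => lin v * W v) (f s)) := by
    intro s hs hst
    set τ := t - s with hτ
    have hτ0 : 0 < τ := sub_pos.2 hst
    have hsT : s ∈ Icc 0 T :=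
      ⟨ht₀.trans hs.1.le, (hs.2.trans (min_le_left _ _)).trans ht₁T⟩
    have hfs := hf.measurable_time s
    have hhm : Measurable (Function.uncurry fun z : ℝ => sl (f s) (x - τ * z)) :=
      (measurable_sl hfs).comp (f := fun q : ℝ × V3 => (x - τ * q.1, q.2)) (by fun_prop)
    have hZ' : ∀ᵐ z : ℝ, ∫⁻ v, κ v * sl (f s) (x - τ * z) v ≤ Z := by
      refine Measure.QuasiMeasurePreserving.ae (f := fun z : ℝ => x - τ * z) ?_ (hZ s hs)
      refine (Measure.measurePreserving_sub_left (volume : Measure ℝ) x).quasiMeasurePreserving.comp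
        ⟨by fun_prop, ?_⟩
      rw [Real.map_volume_mul_left hτ0.ne']
      exact Measure.smul_absolutelyContinuous
    refine (gain_split hW hκ hle hhm hZ').trans (mul_le_mul' le_rfl ?_)
    set G : ℝ → V3 → ℝ≥0∞ := fun z u => {q : ℝ × V3 | |q.1 - q.2 0| ≤ 2 * ‖q.2‖}.indicator
        (fun q => W q.2 * sl (f s) (x - τ * q.1) q.2) (z, u) with hG
    have hGm : Measurable (Function.uncurry G) :=
      ((hW.comp measurable_snd).mul hhm).indicator (measurableSet_le (by fun_prop) (by fun_prop))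
    set p : V3 → ℝ → ℝ≥0∞ := fun u y => lin u * W u * sl (f s) y u with hp
    have hpm : Measurable fun q : V3 × ℝ => p q.1 q.2 := by
      simp only [hp, lin]
      exact (Measurable.mul (by fun_prop) (hW.comp measurable_fst)).mul
        ((measurable_sl hfs).comp measurable_swap)
    have hu : ∀ u : V3, (∫⁻ z, G z u) ≤
        (∫⁻ w, nearKer H ε x (τ, u, w)) +
          ENNReal.ofReal (5 / ε) * ∫⁻ y in Ioc (0 : ℝ) 1, p u y := by
      intro u
      by_cases hc : τ * (1 + ‖u‖) ≤ ε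
      · refine le_add_right (slice_near_le hτ0 hc (q := fun z => W u * sl (f s) (x - τ * z) u)
          fun z => mul_le_mul' le_rfl ((sl_le_env hf hsT hs.2 (x - τ * z) u).trans_eq ?_))
        congr 1
        simp only [hτ]; ring
      · refine le_add_left ?_
        set q : ℝ → ℝ≥0∞ := fun y => W u * sl (f s) y u with hq
        have hqp : Function.Periodic q 1 := fun y => by
          simp only [hq, sl_periodic (hf.periodic s)]
        calc ∫⁻ z, G z u
            ≤ ENNReal.ofReal (2 * (2 * ‖u‖) + τ⁻¹) * ∫⁻ y in Ioc (0 : ℝ) 1, q y := by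
              refine le_trans (le_of_eq ?_) (slice_period_le hqp hτ0 (by positivity) (u 0) x)
              rw [← lintegral_indicator measurableSet_Icc]
              refine lintegral_congr fun z => ?_
              have hiff : |z - u 0| ≤ 2 * ‖u‖ ↔ z ∈ Icc (u 0 - 2 * ‖u‖) (u 0 + 2 * ‖u‖) := by
                rw [abs_le, mem_Icc]
                constructor <;> intro h <;> constructor <;> linarith [h.1, h.2]
              by_cases hz : |z - u 0| ≤ 2 * ‖u‖
              · simp only [hG, indicator_of_mem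
                  (show (z, u) ∈ {q : ℝ × V3 | |q.1 - q.2 0| ≤ 2 * ‖q.2‖} from hz),
                  indicator_of_mem (hiff.1 hz), hq]
              · simp only [hG, indicator_of_notMem
                  (show (z, u) ∉ {q : ℝ × V3 | |q.1 - q.2 0| ≤ 2 * ‖q.2‖} from hz),
                  indicator_of_notMem fun h => hz (hiff.2 h)]
          _ ≤ ENNReal.ofReal (5 / ε) * (ENNReal.ofReal (1 + ‖u‖) *
                ∫⁻ y in Ioc (0 : ℝ) 1, q y) := by
              rw [← mul_assoc (ENNReal.ofReal (5 / ε)), ← ENNReal.ofReal_mul (by positivity)]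
              refine mul_le_mul' (ENNReal.ofReal_le_ofReal ?_) le_rfl
              have h1 : τ⁻¹ ≤ (1 + ‖u‖) / ε := by
                rw [inv_eq_one_div, div_le_div_iff₀ hτ0 hε]
                nlinarith
              have h2 : 4 * ‖u‖ ≤ 4 * (1 + ‖u‖) / ε := by
                rw [le_div_iff₀ hε]; nlinarith [norm_nonneg u]
              calc 2 * (2 * ‖u‖) + τ⁻¹ ≤ 4 * (1 + ‖u‖) / ε + (1 + ‖u‖) / ε := by linarith
                _ = 5 / ε * (1 + ‖u‖) := by ring
          _ = ENNReal.ofReal (5 / ε) * ∫⁻ y in Ioc (0 : ℝ) 1, p u y := by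
              rw [← lintegral_const_mul' _ _ ENNReal.ofReal_ne_top]
              congr 1
              refine lintegral_congr fun y => ?_
              simp only [hp, hq, lin]
              ring
    have hpI : Measurable fun u => ∫⁻ y in Ioc (0 : ℝ) 1, p u y :=
      Measurable.lintegral_prod_right' hpm
    calc ∫⁻ z, ∫⁻ u, G z u = ∫⁻ u, ∫⁻ z, G z u := lintegral_lintegral_swap hGm.aemeasurable
      _ ≤ ∫⁻ u, ((∫⁻ w, nearKer H ε x (τ, u, w)) +
            ENNReal.ofReal (5 / ε) * ∫⁻ y in Ioc (0 : ℝ) 1, p u y) := lintegral_mono hu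
      _ = Near τ + ENNReal.ofReal (5 / ε) * xint (fun v => lin v * W v) (f s) := by
          rw [lintegral_add_right _ (hpI.const_mul _), lintegral_const_mul _ hpI,
            lintegral_lintegral_swap (f := p) hpm.aemeasurable]
          rfl
  -- all of them
  have hXm : Measurable fun s => xint (fun v => lin v * W v) (f s) := by
    unfold xint mom
    refine Measurable.lintegral_prod_right'
      (f := fun q : ℝ × ℝ => ∫⁻ v, lin v * W v * sl (f q.1) q.2 v) ?_
    refine Measurable.lintegral_prod_right'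
      (f := fun q : (ℝ × ℝ) × V3 => lin q.2 * W q.2 * sl (f q.1.1) q.1.2 q.2) ?_
    refine (Measurable.mul (by unfold lin; fun_prop) (hW.comp measurable_snd)).mul ?_
    exact hm.ennreal_ofReal.comp (f := fun q : (ℝ × ℝ) × V3 => (q.1.1, q.1.2, q.2)) (by fun_prop)
  have hnearint : (∫⁻ s in I, Near (t - s)) ≤ ENNReal.ofReal (16 * ε) * Y :=
    lintegral_nearDen_le hHm hε (fun y => le_iSup (fun x' : ℝ => ∫⁻ v, W v * env f t₁ t x' v) y)
      fun s hs => hs.2.trans (min_le_right _ _)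
  calc landGain W f t₀ t₁ t x
      ≤ ∫⁻ s in I, ENNReal.ofReal (4 * π) * Z *
          (Near (t - s) + ENNReal.ofReal (5 / ε) * xint (fun v => lin v * W v) (f s)) := by
        refine lintegral_mono_ae ?_
        filter_upwards [ae_restrict_mem measurableSet_Ioc,
          ae_restrict_of_ae (Measure.ae_ne volume t)] with s hs hst
        exact hone s hs (lt_of_le_of_ne (hs.2.trans (min_le_right _ _)) hst)
    _ = ENNReal.ofReal (4 * π) * Z * ((∫⁻ s in I, Near (t - s)) +
          ENNReal.ofReal (5 / ε) * ∫⁻ s in I, xint (fun v => lin v * W v) (f s)) := by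
        have hNs : Measurable fun s => Near (t - s) := hNearm.comp (by fun_prop)
        rw [lintegral_const_mul _ (hNs.fun_add (hXm.const_mul _)),
          lintegral_add_right _ (hXm.const_mul _), lintegral_const_mul _ hXm]
    _ ≤ ENNReal.ofReal (4 * π) * Z * ((ENNReal.ofReal 16 *
          (ENNReal.ofReal ε * Y)) + ENNReal.ofReal 16 * (ENNReal.ofReal ε⁻¹ *
            ∫⁻ s in I, xint (fun v => lin v * W v) (f s))) := by
        refine mul_le_mul' le_rfl (add_le_add (hnearint.trans_eq ?_) ?_)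
        · rw [ENNReal.ofReal_mul (by norm_num : (0 : ℝ) ≤ 16), mul_assoc]
        · rw [← mul_assoc (ENNReal.ofReal 16), ← ENNReal.ofReal_mul (by norm_num : (0 : ℝ) ≤ 16)]
          refine mul_le_mul' (ENNReal.ofReal_le_ofReal ?_) le_rfl
          rw [div_eq_mul_inv]
          exact mul_le_mul_of_nonneg_right (by norm_num) (by positivity)
    _ ≤ _ := by
        rw [← mul_add, ← mul_assoc, mul_comm (ENNReal.ofReal (4 * π)) Z, mul_assoc Z,
          ← ENNReal.ofReal_mul (by positivity), mul_comm (256 : ℝ≥0∞) Z]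
        refine mul_le_mul' (mul_le_mul' le_rfl ?_) le_rfl
        rw [← ENNReal.ofReal_ofNat]
        exact ENNReal.ofReal_le_ofReal (by nlinarith [Real.pi_le_four])

end Vale.Agent.P140.Slab
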