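import Vale.Agent.P140.Slab.Embed
import Vale.Agent.P140.Slab.Excess
import Vale.Agent.P140.Renorm.ProdUnique

/-!
# Transfer from a renormalized solution to a slab solution

A slab solution is an energy-conserving mild solution on phase space, so every renormalized
solution with its datum equals it; entropy and dissipation only see the almost everywhere class.
-/

open MeasureTheory Real Set Filter
open scoped RealInnerProductSpace ENNReal

namespace Vale.Agent.P140.Slab

open Vale.Agent.P140 Vale.Agent.P140.Renorm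

variable {θ T : ℝ} {f : ℝ → Prof}

lemma integral_energy_emb (h : IsSlabSol θ T f) (t : ℝ) :
    ∫ z : Omega, emb f t z * ‖z.2‖ ^ 2 = (xint sqn (f t)).toReal := by
  have hm : Measurable (emb f t) := (measurable_emb h).comp measurable_prodMk_left
  have hnn : ∀ z : Omega, 0 ≤ emb f t z * ‖z.2‖ ^ 2 := fun z =>
    mul_nonneg (h.nonneg _ _ _) (sq_nonneg _)
  have hmm : Measurable fun z : Omega => emb f t z * ‖z.2‖ ^ 2 :=
    hm.mul (measurable_snd.norm.pow_const 2)
  rw [integral_eq_lintegral_of_nonneg_ae (Filter.Eventually.of_forall hnn) hmm.aestronglyMeasurable]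
  congr 1
  rw [← lintegral_emb h (by unfold sqn; fun_prop) t]
  refine lintegral_congr fun z => ?_
  rw [sqn, ← ENNReal.ofReal_mul (sq_nonneg _), mul_comm]

theorem toProdMild (hθ : 0 < θ) (h : IsSlabSol θ T f) : ∃ C, IsProdMild T C (emb f) := by
  obtain ⟨K, hK, hKb⟩ := mom_bdd hθ.le h
  obtain ⟨c, hc, hcb⟩ := pow_le_gexp (theta_pos hθ T) 3
  set B := (c * K).toReal
  have hBK : c * K = ENNReal.ofReal B := (ENNReal.ofReal_toReal (ENNReal.mul_ne_top hc hK)).symm
  have hB : 0 ≤ B := ENNReal.toReal_nonneg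
  have hmom : ∀ t ∈ Icc 0 T, ∀ X : T3, ∀ W : V3 → ℝ≥0∞,
      (∀ v, W v ≤ ENNReal.ofReal ((1 + ‖v‖) ^ 3)) →
      ∫⁻ v : V3, W v * slice (emb f t) X v ≤ ENNReal.ofReal B := by
    intro t ht X W hW
    rw [slice_emb, ← hBK]
    exact (mom_le_mul (measurable_gexp _) (h.measurable_time t)
      (fun v => (hW v).trans (hcb v)) _).trans (mul_le_mul' le_rfl (hKb t ht _))
  refine ⟨B * (1 + |T|), measurable_emb h, fun t _ z => h.nonneg _ _ _, ?_, ?_, ?_, emb_mild h⟩
  · intro t ht X
    refine (hmom t ht X _ fun v => ENNReal.ofReal_le_ofReal ?_).trans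
      (ENNReal.ofReal_le_ofReal (le_mul_of_one_le_right hB (by simp)))
    nlinarith [norm_nonneg v, sq_nonneg ‖v‖, pow_nonneg (norm_nonneg v) 3]
  · intro t ht X
    refine (hmom t (Ioc_subset_Icc_self ht) X _ fun v => le_rfl).trans
      (ENNReal.ofReal_le_ofReal ?_)
    rw [le_div_iff₀ ht.1]
    exact mul_le_mul_of_nonneg_left (by linarith [ht.2, le_abs_self T]) hB
  · intro t ht
    rw [integral_energy_emb h, integral_energy_emb h, xint_sqn_const hθ h ht]

lemma dissip_congr {F G : Omega → ℝ} (h : F =ᵐ[volume] G) : dissip F = dissip G := by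
  obtain ⟨S, hFS, hS, hS0⟩ := exists_measurable_superset_of_null (ae_iff.1 h)
  have hF : ∀ z, z ∉ S → F z = G z := fun z hz => by_contra fun hne => hz (hFS hne)
  set P := (volume : Measure V3).prod surface
  set ι := fun z : Omega => S.indicator (fun _ => (1 : ℝ≥0∞)) z with hι
  have hιm : Measurable ι := measurable_const.indicator hS
  set Φ := fun (z : Omega) (p : V3 × S2) => ι (z.1, postV z.2 p) + ι (z.1, postW z.2 p) +
    (ι z + ι (z.1, p.1)) with hΦ
  have hΦm : Measurable (Function.uncurry Φ) := by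
    simp only [hΦ]
    fun_prop
  have hslice : ∀ᵐ X : T3, volume {v : V3 | (X, v) ∈ S} = 0 :=
    Measure.measure_ae_null_of_prod_null (by rwa [← Measure.volume_eq_prod])
  have hzero : ∫⁻ z, ∫⁻ p, Φ z p ∂P = 0 := by
    rw [Measure.volume_eq_prod, lintegral_prod _ hΦm.lintegral_prod_right.aemeasurable,
      lintegral_congr_ae (g := fun _ => 0) ?_, lintegral_zero]
    filter_upwards [hslice] with X hX
    set j := fun v => ι (X, v) with hj
    have hjm : Measurable j := hιm.comp measurable_prodMk_left
    have hj0 : ∫⁻ v, j v = 0 := by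
      have e : j = {v : V3 | (X, v) ∈ S}.indicator fun _ => 1 := rfl
      have hSX : MeasurableSet {v : V3 | (X, v) ∈ S} := measurable_prodMk_left hS
      rw [e, lintegral_indicator_const hSX, hX, mul_zero]
    have a3 : ∫⁻ v, ∫⁻ p : V3 × S2, j v ∂P = 0 := by
      simp only [lintegral_const]
      rw [lintegral_mul_const _ hjm, hj0, zero_mul]
    have a4 : ∫⁻ v : V3, ∫⁻ p : V3 × S2, j p.1 ∂P = 0 := by
      have : ∫⁻ p : V3 × S2, j p.1 ∂P = 0 := by
        rw [lintegral_prod (fun p : V3 × S2 => j p.1) (hjm.comp measurable_fst).aemeasurable]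
        simp only [lintegral_const]
        rw [lintegral_mul_const _ hjm, hj0, zero_mul]
      rw [this, lintegral_zero]
    have a1 : ∫⁻ v, ∫⁻ p, j (postV v p) ∂P = 0 :=
      (lintegral_collision (f := fun v _ => j v) (hjm.comp measurable_fst)).trans a3
    have a2 : ∫⁻ v, ∫⁻ p, j (postW v p) ∂P = 0 :=
      (lintegral_collision (f := fun _ p => j p.1) (hjm.comp measurable_snd.fst)).trans a4
    have m1 : Measurable fun q : V3 × V3 × S2 => j (postV q.1 q.2) := by fun_prop
    have m2 : Measurable fun q : V3 × V3 × S2 => j (postW q.1 q.2) := by fun_prop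
    have m3 : Measurable fun q : V3 × V3 × S2 => j q.1 := by fun_prop
    calc ∫⁻ v, ∫⁻ p, Φ (X, v) p ∂P
        = ∫⁻ v, ((∫⁻ p, j (postV v p) ∂P) + (∫⁻ p, j (postW v p) ∂P) +
            ((∫⁻ _, j v ∂P) + ∫⁻ p, j p.1 ∂P)) := by
          refine lintegral_congr fun v => ?_
          have n1 : Measurable fun p => j (postV v p) := m1.comp measurable_prodMk_left
          have n2 : Measurable fun p => j (postW v p) := m2.comp measurable_prodMk_left
          rw [← lintegral_add_left n1, ← lintegral_add_left measurable_const,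
            ← lintegral_add_left (n1.fun_add n2)]
      _ = 0 := by
          have l1 : Measurable fun v => ∫⁻ p, j (postV v p) ∂P := m1.lintegral_prod_right'
          have l2 : Measurable fun v => ∫⁻ p, j (postW v p) ∂P := m2.lintegral_prod_right'
          have l3 : Measurable fun v => ∫⁻ _, j v ∂P := m3.lintegral_prod_right'
          rw [lintegral_add_left (l1.fun_add l2), lintegral_add_left l1, lintegral_add_left l3,
            a1, a2, a3, a4, add_zero, add_zero]
  refine lintegral_congr_ae ?_
  filter_upwards [(lintegral_eq_zero_iff hΦm.lintegral_prod_right).1 hzero] with z hz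
  have hp : (fun p => Φ z p) =ᵐ[P] 0 :=
    (lintegral_eq_zero_iff (hΦm.comp measurable_prodMk_left)).1 hz
  refine lintegral_congr_ae (hp.mono fun p hp => ?_)
  simp only [hΦ, hι, Pi.zero_apply, add_eq_zero, indicator_apply_eq_zero, one_ne_zero] at hp
  simp only [hF _ fun hm => hp.1.1 hm, hF _ fun hm => hp.1.2 hm, hF _ fun hm => hp.2.1 hm,
    hF _ fun hm => hp.2.2 hm]

lemma relEntM_congr {F G : Omega → ℝ} (h : F =ᵐ[volume] G) : relEntM F = relEntM G :=
  lintegral_congr_ae (h.mono fun z hz => by simp only [hz])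

/-- A renormalized solution with the datum of a slab solution equals it, with its entropy and
dissipation. -/
theorem transfer {F₀ : Omega → ℝ} {F : ℝ → Omega → ℝ} (hθ : 0 < θ) (h : IsSlabSol θ T f)
    (hF : IsRenormSolution F₀ F) (hd : F₀ =ᵐ[volume] emb f 0) {t : ℝ} (ht : t ∈ Icc 0 T) :
    F t =ᵐ[volume] emb f t ∧ slabEnt (f t) = relEntM (F t) ∧ slabDiss (f t) = dissip (F t) := by
  obtain ⟨C, hC⟩ := toProdMild hθ h
  have e := eq_prodMild hC hF hd t ht
  exact ⟨e, by rw [relEntM_congr e, relEntM_emb h], by rw [dissip_congr e, dissip_emb h]⟩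

end Vale.Agent.P140.Slab
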