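import Vale.Agent.P140.Slab.Gauss
import Vale.Agent.P140.Slab.Data
import Vale.Agent.P140.Slab.Count
import Vale.Agent.P140.Slab.Land
import Vale.Agent.P140.Slab.Continuation
import Vale.Agent.P140.Slab.Transfer

/-!
# Global uniqueness from large slab data
-/

open MeasureTheory Real Set Filter
open scoped RealInnerProductSpace ENNReal

namespace Vale.Agent.P140.Slab

open Vale.Agent.P140 Vale.Agent.P140.Renorm

/-- A slab datum below a Gaussian has a strong solution on every interval, given one renormalized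
solution with bounded entropy and dissipation. -/
theorem exists_slab_solution (hD : PinDensity) {A θD : ℝ} (hA : 0 ≤ A) (hθD : 0 < θD)
    {g : Prof} (hgm : Measurable (Function.uncurry g)) (hg0 : ∀ x v, 0 ≤ g x v)
    (hper : ∀ x v, g (x + 1) v = g x v) (hg : ∀ x v, g x v ≤ A * exp (-θD * ‖v‖ ^ 2))
    {F₀ : Omega → ℝ} {F : ℝ → Omega → ℝ} (hF : IsRenormSolution F₀ F) (hE : IsEntropyBounded F)
    (hdat : ∀ h : ℝ → Prof, (∀ᵐ q : ℝ × V3, h 0 q.1 q.2 = g q.1 q.2) → F₀ =ᵐ[volume] emb h 0)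
    {T : ℝ} (hT : 0 ≤ T) :
    ∃ θ f, 0 < θ ∧ IsSlabSol θ T f ∧ F₀ =ᵐ[volume] emb f 0 := by
  obtain ⟨CF, hCF, hrel, hdis⟩ := hE T hT
  obtain ⟨c4, hc4, hc4b⟩ := pow_le_gexp (half_pos hθD) 4
  set D := c4 * dataMass A θD with hDdef
  have hDt : D ≠ ⊤ := ENNReal.mul_ne_top hc4 (dataMass_ne_top A hθD)
  set C₀ := D + CF with hC₀def
  have hC₀ : C₀ ≠ ⊤ := ENNReal.add_ne_top.2 ⟨hDt, hCF⟩
  have hone : ∀ v : V3, (1 : ℝ≥0∞) ≤ c4 * gexp (θD / 2) v := fun v =>
    (ENNReal.one_le_ofReal.2 (one_le_pow₀ (by linarith [norm_nonneg v]))).trans (hc4b v)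
  have hsqn : ∀ v : V3, sqn v ≤ c4 * gexp (θD / 2) v := fun v => by
    refine le_trans ?_ ((wq_le_pow v).trans (hc4b v))
    exact ENNReal.ofReal_le_ofReal (by linarith)
  have hwq : ∀ v : V3, wq v ≤ c4 * gexp (θD / 2) v := fun v => (wq_le_pow v).trans (hc4b v)
  have hwq2 : ∀ v : V3, wq2 v ≤ c4 * gexp (θD / 2) v := fun v => (wq2_le_pow v).trans (hc4b v)
  obtain ⟨N, hN, hcount⟩ := collision_count angular_projection T C₀ hT hC₀
  obtain ⟨B, hB, hden⟩ := hD T C₀ N D hT hC₀ hN hDt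
  obtain ⟨G, hG, hpoly⟩ := poly_bound gain_projection land_gain T C₀ B D D hT hC₀ hB hDt hDt
  obtain ⟨θm, hθm, hgauss⟩ := gauss_bound gain_projection land_gain T B G
    (ENNReal.ofReal (4 / θD) * dataMass A θD) (ENNReal.ofReal (64 / θD ^ 2) * dataMass A θD) hT hB
    hG (ENNReal.mul_ne_top ENNReal.ofReal_ne_top (dataMass_ne_top A hθD))
    (ENNReal.mul_ne_top ENNReal.ofReal_ne_top (dataMass_ne_top A hθD))
  set θ := min θm (θD / 4)
  have hθ : 0 < θ := lt_min hθm (by linarith)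
  have hθ4 : θ ≤ θD / 4 := min_le_right _ _
  obtain ⟨Cs, hCs, hslice⟩ := slice_data hA (show θ < θD by linarith)
  obtain ⟨f, hf, -, hfe⟩ := continuation θ T g Cs (B + 1) hθ hT hgm hg0 hper (hslice g hg) hCs
    (ENNReal.add_ne_top.2 ⟨hB, ENNReal.one_ne_top⟩) (fun T' f hT' h hle hae => by
      have hfg : ∀ x v, f 0 x v ≤ A * exp (-θD * ‖v‖ ^ 2) := fun x v => (hle x v).trans (hg x v)
      have htr := fun t ht => transfer hθ h hF (hdat f hae) (t := t) ht
      have h1 : xint (fun _ => 1) (f 0) ≤ C₀ :=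
        (data_xint hA hfg hone).trans le_self_add
      have h2 : xint sqn (f 0) ≤ C₀ := (data_xint hA hfg hsqn).trans le_self_add
      have hme : ∀ t ∈ Icc 0 T', xint (fun _ => 1) (f t) ≤ C₀ ∧ xint sqn (f t) ≤ C₀ :=
        fun t ht => ⟨(xint_one_const hθ h ht).le.trans h1, (xint_sqn_const hθ h ht).le.trans h2⟩
      have hN' : (∫⁻ t in Ioc 0 T', nrate (f t)) ≤ N := by
        refine hcount θ T' f hθ hT' h (fun t ht => ⟨(hme t ht).1, (hme t ht).2, ?_⟩) ?_
        · rw [(htr t ht).2.1]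
          exact (hrel t ⟨ht.1, ht.2.trans hT'.2⟩).trans le_add_self
        · calc (∫⁻ t in Icc 0 T', slabDiss (f t)) = ∫⁻ t in Icc 0 T', dissip (F t) :=
                setLIntegral_congr_fun measurableSet_Icc fun t ht => (htr t ht).2.2
            _ ≤ ∫⁻ t in Icc 0 T, dissip (F t) := lintegral_mono_set (Icc_subset_Icc le_rfl hT'.2)
            _ ≤ C₀ := hdis.trans le_add_self
      have hB' : landSup one f T T' ≤ B :=
        hden θ T' f hθ hT' h hme hN' (data_landSup hA hfg fun t _ v => hone v)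
      have hG' := hpoly θ T' f hθ hT' h h1 h2 hB' (data_landSup hA hfg fun t _ v => hwq v)
        (data_xint hA hfg hwq2)
      refine hgauss θ T' f hθ (min_le_left _ _) hT' h hB' hG' ?_ ?_
      · refine (data_landSup hA hfg fun t ht v => phi_le_data hθ.le hθD ht.1 hθ4 v).trans_eq ?_
        rw [ENNReal.ofReal_mul hθ.le, mul_assoc]
      · refine (data_xint hA hfg (psiW_le_data hθ.le hθD hθ4)).trans_eq ?_
        rw [ENNReal.ofReal_mul (sq_nonneg θ), mul_assoc])
  exact ⟨θ, f, hθ, hf, hdat f hfe⟩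

/-- Global uniqueness from slab data below a Maxwellian, of any size. -/
theorem slab_uniqueness_of (hD : PinDensity) {A θD : ℝ} (hθD : 0 < θD)
    {f₀ : UnitAddCircle → V3 → ℝ} (hm : Measurable (Function.uncurry f₀))
    (hb : ∀ X v, 0 ≤ f₀ X v ∧ f₀ X v ≤ A * exp (-θD * ‖v‖ ^ 2)) {F F' : ℝ → Omega → ℝ}
    (hF : IsRenormSolution (fun z => f₀ (z.1 0) z.2) F) (hE : IsEntropyBounded F)
    (hF' : IsRenormSolution (fun z => f₀ (z.1 0) z.2) F') {t : ℝ} (ht : 0 ≤ t) :
    F t =ᵐ[volume] F' t ∧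
      ∫ z : Omega, F t z * ‖z.2‖ ^ 2 = ∫ z : Omega, f₀ (z.1 0) z.2 * ‖z.2‖ ^ 2 := by
  have hA : 0 ≤ A := by
    obtain ⟨h0, h1⟩ := hb 0 0
    simpa using h0.trans h1
  set g : Prof := fun y v => f₀ (y : UnitAddCircle) v
  have hgm : Measurable (Function.uncurry g) :=
    hm.comp ((AddCircle.measurable_mk'.comp measurable_fst).prodMk measurable_snd)
  have hper : ∀ x v, g (x + 1) v = g x v := fun x v => by
    simp only [g, AddCircle.coe_add_period]
  have hdat : ∀ h : ℝ → Prof, (∀ᵐ q : ℝ × V3, h 0 q.1 q.2 = g q.1 q.2) →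
      (fun z : Omega => f₀ (z.1 0) z.2) =ᵐ[volume] emb h 0 := fun h hh => by
    filter_upwards [ae_coords hh] with z hz
    rw [emb, hz]
    simp only [g, coords, coe_rep]
  obtain ⟨θ, f, hθ, hf, hf0⟩ := exists_slab_solution hD hA hθD hgm (fun x v => (hb _ v).1) hper
    (fun x v => (hb _ v).2) hF hE hdat (T := t) ht
  obtain ⟨C, hP⟩ := toProdMild hθ hf
  have htI : t ∈ Icc 0 t := ⟨ht, le_rfl⟩
  have h1 := eq_prodMild hP hF hf0 t htI
  refine ⟨h1.trans (eq_prodMild hP hF' hf0 t htI).symm, ?_⟩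
  refine (integral_congr_ae ?_).trans ((hP.energy t htI).trans (integral_congr_ae ?_))
  · filter_upwards [h1] with z hz; rw [hz]
  · filter_upwards [hf0] with z hz; rw [hz]

end Vale.Agent.P140.Slab
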