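import Vale.Agent.P140.Slab.Density
import Vale.Agent.P140.Slab.Main

/-!
# The slab theorem with every module proved
-/

open MeasureTheory Real

namespace Vale.Agent.P140.Slab

open Vale.Agent.P140 Vale.Agent.P140.Renorm

/-- Global uniqueness from slab data below a Maxwellian, of any size. -/
theorem slab_uniqueness {A θ : ℝ} (hθ : 0 < θ) {f₀ : UnitAddCircle → V3 → ℝ}
    (hm : Measurable (Function.uncurry f₀))
    (hb : ∀ X v, 0 ≤ f₀ X v ∧ f₀ X v ≤ A * exp (-θ * ‖v‖ ^ 2)) {F F' : ℝ → Omega → ℝ}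
    (hF : IsRenormSolution (fun z => f₀ (z.1 0) z.2) F) (hE : IsEntropyBounded F)
    (hF' : IsRenormSolution (fun z => f₀ (z.1 0) z.2) F') {t : ℝ} (ht : 0 ≤ t) :
    F t =ᵐ[volume] F' t ∧
      ∫ z : Omega, F t z * ‖z.2‖ ^ 2 = ∫ z : Omega, f₀ (z.1 0) z.2 * ‖z.2‖ ^ 2 :=
  slab_uniqueness_of density_bound hθ hm hb hF hE hF' ht

end Vale.Agent.P140.Slab
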