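import Vale.Agent.P140.Slab.GaussDefs

/-!
# Gaussian moments under a density bound

For a small rate the Gaussian envelope stays of the order of the rate.
-/

open MeasureTheory Real Set Filter
open scoped RealInnerProductSpace ENNReal Topology

namespace Vale.Agent.P140.Slab

open Vale.Agent.P140 Vale.Agent.P140.Renorm

variable {θ θ₁ T T' : ℝ} {f : ℝ → Prof}

lemma lin_gexp_le {d : ℝ} (hd : 0 < d) :
    ∃ c : ℝ≥0∞, c ≠ ⊤ ∧ ∀ (a : ℝ) (v : V3), gexp a v * lin v ≤ c * gexp (a + d) v := by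
  obtain ⟨c, hc, hcb⟩ := pow_le_gexp hd 1
  refine ⟨c, hc, fun a v => ?_⟩
  calc gexp a v * lin v ≤ gexp a v * (c * gexp d v) :=
        mul_le_mul' le_rfl (by simpa [lin] using hcb v)
    _ = c * (gexp a v * gexp d v) := by ring
    _ = _ := by
        simp only [gexp]
        rw [← ENNReal.ofReal_mul (exp_pos _).le, ← exp_add, add_mul]

/-- The envelope, the time integral `L` and the improved bound, under the bootstrap bound `ℓ`. -/
lemma gauss_step (hL : PinLand) (hθ : 0 < θ) (h : IsSlabSol θ T' f) (hT' : T' ≤ T)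
    (hθ₁ : 0 < θ₁) (hlt : θ₁ < θ) {t : ℝ} (ht : t ∈ Icc 0 T')
    {B G A Ψ ℓ : ℝ≥0∞} {ε k : ℝ} (hε : 0 < ε) (hε1 : ε ≤ 1)
    (hεB : 256 * (2 * B + 1) * ENNReal.ofReal ε ≤ ENNReal.ofReal (1 / 2))
    (hk : 1 + exp (T / 2) / sqrt θ₁ ≤ k)
    (hsmall : surface (univ : Set S2) * ℓ * ENNReal.ofReal k ≤ ENNReal.ofReal (1 / 2))
    (hℓ : ℓ ≤ 1) (hB : landSup one f T T' ≤ B)
    (hG : (∫⁻ s in Ioc 0 T', xint lw (f s)) ≤ G) (hA : landSup (phi θ₁) f T 0 ≤ A)
    (hΨ : xint (psiW θ₁ 0) (f 0) ≤ Ψ) (hY : landSup (phi θ₁) f T t ≤ ℓ) :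
    landSup (phi θ₁) f T t ≤ 2 * A + 2 * (256 * (2 * B + 1) * ENNReal.ofReal ε⁻¹) *
      (2 * (ENNReal.ofReal (3 * θ₁) * G + ENNReal.ofReal k * Ψ)) := by
  set L := ∫⁻ s in Ioc 0 t, xint (fun v => lin v * phi θ₁ s v) (f s) with hLdef
  set X := ∫⁻ s in Ioc 0 t, xint (bw θ₁ s) (f s) with hXdef
  set Y := landSup (phi θ₁) f T t with hYdef
  set S := surface (univ : Set S2) with hS
  set d := (θ - θ₁) * exp (-T) with hd
  have hd0 : 0 < d := mul_pos (by linarith) (exp_pos _)
  obtain ⟨c, hc, hcb⟩ := lin_gexp_le hd0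
  have hrate : ∀ s ≤ T', theta θ₁ s + d ≤ theta θ s := fun s hs => by
    have : exp (-T) ≤ exp (-s) := exp_le_exp.2 (by linarith)
    simp only [theta, hd]; nlinarith
  have hphi : ∀ s ≤ T', ∀ v, phi θ₁ s v * lin v ≤ c * gw θ s v := fun s hs v =>
    ((mul_le_mul' (phi_le_gexp s v) le_rfl).trans (hcb _ v)).trans
      (mul_le_mul' le_rfl (gexp_mono (hrate s hs) v))
  have hLtop : L ≠ ⊤ := ne_top_of_le_ne_top
    (xint_integral_finite h (W := fun s v => lin v * phi θ₁ s v) hc
      fun s hs v => by rw [mul_comm]; exact hphi s hs.2 v)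
    (lintegral_mono_set (Ioc_subset_Ioc le_rfl ht.2))
  have hmlin : Measurable (Function.uncurry fun s v => lin v * phi θ₁ s v) :=
    (measurable_lin.comp measurable_snd).mul measurable_phi
  have hmY : ∀ s ∈ Ioc 0 t, ∀ y, mom (phi θ₁ s) (f s) y ≤ Y := fun s hs y =>
    mom_le_landSup h ⟨hs.1.le, hs.2.trans ht.2⟩ ((hs.2.trans ht.2).trans hT') hs.2 y
  have hX : 2 * X ≤ 2 * (Ψ + S * Y * L) := by
    have hψ : ∀ s ∈ Icc 0 t, ∀ v, psiW θ₁ s v * lin v ≤ c * gw θ s v := fun s hs v => by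
      refine le_trans (mul_le_mul' ?_ le_rfl) (hphi s (hs.2.trans ht.2) v)
      exact ENNReal.ofReal_le_ofReal (by linarith [xv_nonneg hθ₁.le s v])
    have hex := excess hθ h (a := psiW θ₁) (b := bw θ₁)
      (D := fun s v u => phi θ₁ s v * phi θ₁ s u) hc measurable_psiW measurable_bw
      (fun s => ((measurable_phi_at s).comp measurable_fst).mul
        ((measurable_phi_at s).comp measurable_snd)) ht hψ
      (fun s hs v => psiW_step hθ₁.le hs.2 v) (fun s _ => psiW_excess hθ₁.le s)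
    refine le_trans (mul_le_mul' le_rfl le_add_self) (hex.trans ?_)
    have hD : (∫⁻ s in Ioc 0 t, ∫⁻ y in Ioc (0 : ℝ) 1, ∫⁻ v, ∫⁻ u, ENNReal.ofReal (‖v‖ + ‖u‖) *
        (phi θ₁ s v * phi θ₁ s u) * sl (f s) y v * sl (f s) y u) ≤ 2 * Y * L := by
      rw [hLdef, ← lintegral_const_mul _ (measurable_xint h hmlin)]
      refine lintegral_mono_ae ((ae_restrict_iff' measurableSet_Ioc).2
        (Eventually.of_forall fun s hs => ?_))
      have hsm := h.measurable_time s
      unfold xint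
      rw [← lintegral_const_mul _ (measurable_mom (W := fun v => lin v * phi θ₁ s v) hsm
        (measurable_lin.mul (measurable_phi_at s)))]
      refine lintegral_mono fun y => ?_
      set g := sl (f s) y
      have hgm : Measurable g := measurable_sl_at hsm y
      have m1 : Measurable fun v => lin v * phi θ₁ s v * g v :=
        (measurable_lin.mul (measurable_phi_at s)).mul hgm
      have m2 : Measurable fun v => phi θ₁ s v * g v := (measurable_phi_at s).mul hgm
      calc ∫⁻ v, ∫⁻ u, ENNReal.ofReal (‖v‖ + ‖u‖) * (phi θ₁ s v * phi θ₁ s u) * g v * g u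
          ≤ ∫⁻ v, ∫⁻ u, (lin v * phi θ₁ s v * g v * (phi θ₁ s u * g u) +
              phi θ₁ s v * g v * (lin u * phi θ₁ s u * g u)) := by
            refine lintegral_mono fun v => lintegral_mono fun u => ?_
            refine (mul_le_mul' (mul_le_mul' (mul_le_mul' (?_ : _ ≤ lin v + lin u) le_rfl)
              le_rfl) le_rfl).trans_eq (by ring)
            simp only [lin]
            rw [← ENNReal.ofReal_add (by positivity) (by positivity)]
            exact ENNReal.ofReal_le_ofReal (by linarith)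
        _ = 2 * mom (phi θ₁ s) (f s) y * mom (fun v => lin v * phi θ₁ s v) (f s) y := by
            have e : ∀ v, ∫⁻ u, (lin v * phi θ₁ s v * g v * (phi θ₁ s u * g u) +
                phi θ₁ s v * g v * (lin u * phi θ₁ s u * g u)) =
                mom (phi θ₁ s) (f s) y * (lin v * phi θ₁ s v * g v) +
                  mom (fun v => lin v * phi θ₁ s v) (f s) y * (phi θ₁ s v * g v) := fun v => by
              rw [lintegral_add_left (m2.const_mul _), lintegral_const_mul _ m2,
                lintegral_const_mul _ m1]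
              simp only [mom]
              ring
            rw [lintegral_congr e, lintegral_add_left (m1.const_mul _), lintegral_const_mul _ m1,
              lintegral_const_mul _ m2]
            simp only [mom]
            ring
        _ ≤ _ := mul_le_mul' (mul_le_mul' le_rfl (hmY s hs y)) le_rfl
    calc 2 * xint (psiW θ₁ 0) (f 0) + S * _ ≤ 2 * Ψ + S * (2 * Y * L) :=
          add_le_add (mul_le_mul' le_rfl hΨ) (mul_le_mul' le_rfl hD)
      _ = _ := by ring
  have hX' := (ENNReal.mul_le_mul_iff_right two_ne_zero ENNReal.ofNat_ne_top).1 hX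
  have hL1 : L ≤ ENNReal.ofReal (3 * θ₁) * G + ENNReal.ofReal k * X := by
    calc L ≤ ∫⁻ s in Ioc 0 t, (ENNReal.ofReal (3 * θ₁) * xint lw (f s) +
          ENNReal.ofReal k * xint (bw θ₁ s) (f s)) := by
          refine lintegral_mono_ae ((ae_restrict_iff' measurableSet_Ioc).2
            (Eventually.of_forall fun s hs => ?_))
          rw [← xint_const_mul (h.measurable_time s) _ measurable_lw,
            ← xint_const_mul (h.measurable_time s) (ENNReal.ofReal k) (U := bw θ₁ s)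
              (measurable_bw.comp measurable_prodMk_left),
            ← xint_add (h.measurable_time s) (measurable_lw.const_mul _)]
          exact xint_mono fun v => (lin_phi_le hθ₁ hs.1.le ((hs.2.trans ht.2).trans hT') v).trans
            (add_le_add le_rfl (mul_le_mul' (ENNReal.ofReal_le_ofReal hk) le_rfl))
      _ ≤ _ := by
          have m := measurable_xint h (W := fun _ => lw) (measurable_lw.comp measurable_snd)
          rw [lintegral_add_left (m.const_mul _), lintegral_const_mul _ m,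
            lintegral_const_mul _ (measurable_xint h (W := bw θ₁) measurable_bw)]
          exact add_le_add (mul_le_mul' le_rfl
            ((lintegral_mono_set (Ioc_subset_Ioc le_rfl ht.2)).trans hG)) le_rfl
  have hL2 : L ≤ 2 * (ENNReal.ofReal (3 * θ₁) * G + ENNReal.ofReal k * Ψ) := by
    set a := ENNReal.ofReal (3 * θ₁) * G + ENNReal.ofReal k * Ψ
    have hhalf : L ≤ a + ENNReal.ofReal (1 / 2) * L := by
      calc L ≤ ENNReal.ofReal (3 * θ₁) * G + ENNReal.ofReal k * (Ψ + S * Y * L) :=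
            hL1.trans (add_le_add le_rfl (mul_le_mul' le_rfl hX'))
        _ = a + S * Y * ENNReal.ofReal k * L := by ring
        _ ≤ _ := add_le_add le_rfl (mul_le_mul' (le_trans
            (mul_le_mul' (mul_le_mul' le_rfl hY) le_rfl) hsmall) le_rfl)
    have h2 : 2 * L ≤ 2 * a + L := by
      refine (mul_le_mul' le_rfl hhalf).trans_eq ?_
      rw [mul_add, ← mul_assoc, show (2 : ℝ≥0∞) * ENNReal.ofReal (1 / 2) = 1 by
        rw [show (2 : ℝ≥0∞) = ENNReal.ofReal 2 by simp, ← ENNReal.ofReal_mul (by norm_num)]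
        norm_num, one_mul]
    rw [two_mul L] at h2
    exact (ENNReal.add_le_add_iff_right hLtop).1 h2
  have hYtop : Y ≠ ⊤ := ne_top_of_le_ne_top ENNReal.one_ne_top (hY.trans hℓ)
  set K := 256 * (2 * B + 1) * ENNReal.ofReal ε⁻¹ with hK
  have hstep : Y ≤ A + (ENNReal.ofReal (1 / 2) * Y + K * L) := by
    refine (landSup_le_add h.measurable measurable_phi_at fun t' ht' x => ?_).trans
      (add_le_add hA le_rfl)
    refine (hL θ T' f (phi θ₁ t') (fun v => 2 + phi θ₁ t' v) hθ h (measurable_phi_at t')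
      (measurable_const.add (measurable_phi_at t')) (fun v u q hvu hq => phi_pair hθ₁.le t' hvu hq)
      ε 0 t t' x (2 * B + 1) hε hε1 le_rfl ht.1 ht.2 ht'.1
      fun s hs => Eventually.of_forall fun y => ?_).trans ?_
    · have hst : s ∈ Ioc 0 t := ⟨hs.1, hs.2.trans (min_le_left _ _)⟩
      have hsT : s ∈ Icc 0 T' := ⟨hs.1.le, hst.2.trans ht.2⟩
      have hgm := measurable_sl_at (h.measurable_time s) y
      have e : mom (fun v => 2 + phi θ₁ t' v) (f s) y =
          2 * mom (one s) (f s) y + mom (phi θ₁ t') (f s) y := by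
        simp only [mom, one, one_mul, add_mul]
        rw [lintegral_add_left (f := fun v => 2 * sl (f s) y v) (hgm.const_mul _),
          lintegral_const_mul _ hgm]
      rw [e]
      refine add_le_add (mul_le_mul' le_rfl
        ((mom_le_landSup h hsT (hsT.2.trans hT') hsT.2 y).trans hB)) ?_
      refine le_trans (lintegral_mono fun v => ?_) ((hmY s hst y).trans (hY.trans hℓ))
      exact mul_le_mul' (phi_anti hθ₁.le (hs.2.trans (min_le_right _ _)) v) le_rfl
    rw [mul_add, ← mul_assoc, ← mul_assoc]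
    refine add_le_add (mul_le_mul' hεB
      (iSup_le fun x' => lintegral_env_le_landSup ht' t x')) (mul_le_mul' le_rfl ?_)
    refine le_trans (lintegral_mono_ae ((ae_restrict_iff' measurableSet_Ioc).2
      (Eventually.of_forall fun s hs => xint_mono fun v => mul_le_mul' le_rfl
        (phi_anti hθ₁.le (hs.2.trans (min_le_right _ _)) v)))) ?_
    exact lintegral_mono_set (Ioc_subset_Ioc le_rfl (min_le_left _ _))
  have h2 : Y + Y ≤ (2 * A + 2 * K * L) + Y := by
    rw [← two_mul]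
    refine (mul_le_mul' le_rfl hstep).trans_eq ?_
    rw [mul_add, mul_add, ← mul_assoc (2 : ℝ≥0∞) (ENNReal.ofReal (1 / 2)),
      show (2 : ℝ≥0∞) * ENNReal.ofReal (1 / 2) = 1 by
        rw [show (2 : ℝ≥0∞) = ENNReal.ofReal 2 by simp, ← ENNReal.ofReal_mul (by norm_num)]
        norm_num, one_mul]
    ring
  refine ((ENNReal.add_le_add_iff_right hYtop).1 h2).trans ?_
  exact add_le_add le_rfl (mul_le_mul' le_rfl hL2)

/-- The arithmetic that closes the bootstrap. -/
lemma gauss_arith {B G A Q : ℝ≥0∞} (hB : B ≠ ⊤) (hG : G ≠ ⊤) (hA : A ≠ ⊤) (hQ : Q ≠ ⊤)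
    {ε R η : ℝ} (hθ : 0 < θ) (hθ1 : θ ≤ 1) (hθ₁ : 0 ≤ θ₁) (h2 : θ₁ ≤ θ) (hε : 0 ≤ ε) (hR : 0 ≤ R)
    (hKθ : θ * (2 * A.toReal + 2 * (256 * (2 * B.toReal + 1) * ε⁻¹) *
      (2 * (3 * G.toReal + R * Q.toReal))) ≤ η * sqrt θ / 2) :
    2 * (ENNReal.ofReal θ * A) + 2 * (256 * (2 * B + 1) * ENNReal.ofReal ε⁻¹) *
        (2 * (ENNReal.ofReal (3 * θ₁) * G +
          ENNReal.ofReal (R / sqrt θ) * (ENNReal.ofReal (θ ^ 2) * Q))) ≤
      ENNReal.ofReal (η * sqrt θ / 2) := by
  have hsθ : 0 < sqrt θ := sqrt_pos.2 hθ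
  obtain ⟨b, hb, rfl⟩ : ∃ b : ℝ, 0 ≤ b ∧ B = ENNReal.ofReal b :=
    ⟨_, ENNReal.toReal_nonneg, (ENNReal.ofReal_toReal hB).symm⟩
  obtain ⟨g, hg, rfl⟩ : ∃ g : ℝ, 0 ≤ g ∧ G = ENNReal.ofReal g :=
    ⟨_, ENNReal.toReal_nonneg, (ENNReal.ofReal_toReal hG).symm⟩
  obtain ⟨a, ha, rfl⟩ : ∃ a : ℝ, 0 ≤ a ∧ A = ENNReal.ofReal a :=
    ⟨_, ENNReal.toReal_nonneg, (ENNReal.ofReal_toReal hA).symm⟩
  obtain ⟨q, hq, rfl⟩ : ∃ q : ℝ, 0 ≤ q ∧ Q = ENNReal.ofReal q :=
    ⟨_, ENNReal.toReal_nonneg, (ENNReal.ofReal_toReal hQ).symm⟩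
  rw [ENNReal.toReal_ofReal hb, ENNReal.toReal_ofReal hg, ENNReal.toReal_ofReal ha,
    ENNReal.toReal_ofReal hq] at hKθ
  have h256 : (256 : ℝ≥0∞) = ENNReal.ofReal 256 := (ENNReal.ofReal_ofNat 256).symm
  rw [h256, ← ENNReal.ofReal_one, ← ENNReal.ofReal_ofNat, ← ENNReal.ofReal_mul hθ.le,
    ← ENNReal.ofReal_mul zero_le_two, ← ENNReal.ofReal_mul zero_le_two,
    ← ENNReal.ofReal_add (by positivity) zero_le_one, ← ENNReal.ofReal_mul (by norm_num),
    ← ENNReal.ofReal_mul (by positivity), ← ENNReal.ofReal_mul zero_le_two,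
    ← ENNReal.ofReal_mul (by positivity), ← ENNReal.ofReal_mul (by positivity),
    ← ENNReal.ofReal_mul (by positivity), ← ENNReal.ofReal_add (by positivity) (by positivity),
    ← ENNReal.ofReal_mul zero_le_two, ← ENNReal.ofReal_mul (by positivity),
    ← ENNReal.ofReal_add (by positivity) (by positivity)]
  refine ENNReal.ofReal_le_ofReal (le_trans ?_ hKθ)
  have e : R / sqrt θ * (θ ^ 2 * q) = θ * sqrt θ * (R * q) := by
    have e2 : θ ^ 2 = sqrt θ * sqrt θ * θ := by rw [mul_self_sqrt hθ.le]; ring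
    rw [e2]; field_simp
  rw [e]
  have h3 : 3 * θ₁ * g + θ * sqrt θ * (R * q) ≤ θ * (3 * g + R * q) := by
    nlinarith [mul_le_mul_of_nonneg_right h2 hg,
      mul_le_mul_of_nonneg_right (mul_le_of_le_one_right hθ.le (sqrt_le_one.2 hθ1))
        (show 0 ≤ R * q by positivity)]
  have hc : 0 ≤ 2 * (256 * (2 * b + 1) * ε⁻¹) := by positivity
  nlinarith [mul_le_mul_of_nonneg_left h3 hc]

/-- A bound that improves itself by one half holds on the whole interval. -/
lemma gauss_boot (hP : PinGain) (hθ : 0 < θ) (h : IsSlabSol θ T' f) (hT' : 0 ≤ T')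
    (hθ₁ : 0 < θ₁) (hlt : θ₁ < θ) {ℓ : ℝ} (hℓ0 : 0 < ℓ)
    (h0 : landSup (phi θ₁) f T 0 ≤ ENNReal.ofReal (ℓ / 2))
    (hstep : ∀ t ∈ Icc 0 T', landSup (phi θ₁) f T t ≤ ENNReal.ofReal ℓ →
      landSup (phi θ₁) f T t ≤ ENNReal.ofReal (ℓ / 2)) :
    landSup (phi θ₁) f T T' ≤ ENNReal.ofReal (ℓ / 2) := by
  set d := (θ - θ₁) * exp (-T) with hd
  have hd0 : 0 < d := mul_pos (by linarith) (exp_pos _)
  obtain ⟨K₁, hK₁, hKl⟩ := landSup_lipschitz hP hθ h (W := phi θ₁) (ρ := theta θ₁) (δ := d)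
    (T₀ := T) hd0 (fun t _ => (theta_pos hθ₁ t).le)
    (fun t ht => by
      refine le_trans ?_ (theta_ge hθ.le (min_le_right T' t))
      have : exp (-T) ≤ exp (-t) := exp_le_exp.2 (by linarith [ht.2])
      simp only [theta, hd]; nlinarith)
    ENNReal.one_ne_top measurable_phi_at (fun t _ v => by rw [one_mul]; exact phi_le_gexp t v)
  set w := ℓ / (2 * (K₁.toReal + 1)) with hw
  have hw0 : 0 < w := div_pos hℓ0 (by positivity)
  have ind : ∀ n : ℕ, landSup (phi θ₁) f T (min (n * w) T') ≤ ENNReal.ofReal (ℓ / 2) := by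
    intro n
    induction n with
    | zero =>
      rw [Nat.cast_zero, zero_mul, min_eq_left hT']
      exact h0
    | succ n ih =>
      set t₀ := min ((n : ℝ) * w) T' with ht₀
      set t := min ((n + 1 : ℕ) * w) T' with ht
      have h01 : t₀ ≤ t := min_le_min_right _ (by push_cast; nlinarith)
      have hdt : t - t₀ ≤ w := by
        rcases le_or_gt T' ((n : ℝ) * w) with hle | hgt
        · have : t₀ = T' := min_eq_right hle
          have ht'' : t ≤ T' := min_le_right _ _
          linarith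
        · have : t₀ = (n : ℝ) * w := min_eq_left hgt.le
          have ht'' : t ≤ (n + 1 : ℕ) * w := min_le_left _ _
          push_cast at ht''
          linarith
      have htI : t ∈ Icc 0 T' := ⟨le_min (by positivity) hT', min_le_right _ _⟩
      have hY : landSup (phi θ₁) f T t ≤ ENNReal.ofReal ℓ := by
        refine (hKl t₀ t (le_min (by positivity) hT') h01 htI.2).trans ?_
        refine (add_le_add ih (mul_le_mul' (ENNReal.ofReal_toReal hK₁).ge
          (ENNReal.ofReal_le_ofReal hdt))).trans ?_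
        rw [← ENNReal.ofReal_mul ENNReal.toReal_nonneg, ← ENNReal.ofReal_add (by positivity)
          (by positivity)]
        refine ENNReal.ofReal_le_ofReal ?_
        have : K₁.toReal * w ≤ ℓ / 2 := by
          rw [hw, mul_div_assoc', div_le_div_iff₀ (by positivity) (by norm_num)]
          nlinarith [ENNReal.toReal_nonneg (a := K₁)]
        linarith
      exact hstep t htI hY
  obtain ⟨n, hn⟩ := exists_nat_ge (T' / w)
  have := ind n
  rw [min_eq_right ((div_le_iff₀ hw0).1 hn)] at this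
  exact this

/-- From all smaller rates to the rate itself. -/
lemma gauss_limit (hθ : 0 < θ) (h : IsSlabSol θ T' f) {B : ℝ≥0∞} (hB : landSup one f T T' ≤ B)
    (main : ∀ θ₁ : ℝ, θ / 2 ≤ θ₁ → θ₁ < θ → landSup (phi θ₁) f T T' ≤ 1) :
    landSup (gw θ) f T T' ≤ B + 1 := by
  refine iSup₂_le fun t ht => iSup_le fun x => ?_
  set lam : ℕ → ℝ := fun n => θ * (1 - 1 / ((n : ℝ) + 2)) with hlam
  have hl1 : ∀ n, θ / 2 ≤ lam n ∧ lam n < θ := fun n => by
    have h2 : 1 / ((n : ℝ) + 2) ≤ 1 / 2 :=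
      one_div_le_one_div_of_le (by norm_num) (by linarith [(Nat.cast_nonneg n : (0 : ℝ) ≤ n)])
    have h3 : 0 < 1 / ((n : ℝ) + 2) := by positivity
    constructor <;> simp only [hlam] <;> nlinarith
  have hmono : Monotone lam := fun i j hij => by
    have : 1 / ((j : ℝ) + 2) ≤ 1 / ((i : ℝ) + 2) :=
      one_div_le_one_div_of_le (by positivity) (by
        have : (i : ℝ) ≤ j := Nat.cast_le.2 hij
        linarith)
    simp only [hlam]
    nlinarith
  have he : Measurable fun v => env f T' t x v :=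
    Measurable.comp (g := fun q : ℝ × V3 => env f T' t q.1 q.2) (f := fun v : V3 => (x, v))
      (measurable_env_at h.measurable T' t) measurable_prodMk_left
  set F : ℕ → V3 → ℝ≥0∞ := fun n v => gexp (theta (lam n) t) v * env f T' t x v
  have hmF : Monotone F := fun i j hij v => mul_le_mul' (gexp_mono
    (mul_le_mul_of_nonneg_right (hmono hij) (exp_pos _).le) v) le_rfl
  have hF : ∀ v, Tendsto (fun n => F n v) atTop (𝓝 (gw θ t v * env f T' t x v)) := by
    intro v
    have h1 : Tendsto lam atTop (𝓝 θ) := by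
      have h0 : Tendsto (fun n : ℕ => 1 / ((n : ℝ) + 2)) atTop (𝓝 0) := by
        simp only [one_div]
        exact (tendsto_natCast_atTop_atTop.atTop_add tendsto_const_nhds).inv_tendsto_atTop
      simpa [hlam] using (h0.const_sub 1).const_mul θ
    have h2 : Tendsto (fun n => gexp (theta (lam n) t) v) atTop (𝓝 (gw θ t v)) := by
      have hc : Continuous fun r : ℝ => gexp (theta r t) v := by
        unfold gexp theta
        exact ENNReal.continuous_ofReal.comp (by fun_prop)
      exact (hc.tendsto θ).comp h1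
    refine ENNReal.Tendsto.mul_const h2 (Or.inl ?_)
    simp only [gw, ne_eq, ENNReal.ofReal_eq_zero, not_le]
    exact exp_pos _
  calc ∫⁻ v, gw θ t v * env f T' t x v = ∫⁻ v, ⨆ n, F n v :=
        lintegral_congr fun v => tendsto_nhds_unique (hF v)
          (tendsto_atTop_iSup fun i j hij => hmF hij v)
    _ = ⨆ n, ∫⁻ v, F n v := lintegral_iSup (fun n => (measurable_gexp _).mul he) hmF
    _ ≤ B + 1 := iSup_le fun n => by
        obtain ⟨h1, h2⟩ := hl1 n
        have hp : ∀ v, gexp (theta (lam n) t) v = 1 + phi (lam n) t v := fun v => by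
          simp only [gexp, phi]
          rw [← ENNReal.ofReal_one, ← ENNReal.ofReal_add zero_le_one
            (exp_xv_sub_nonneg (by linarith) t v)]
          congr 1
          simp [xv]
        simp only [F, hp, add_mul, one_mul]
        rw [lintegral_add_left he]
        exact add_le_add (le_trans (le_of_eq (lintegral_congr fun v => (one_mul _).symm))
          ((lintegral_env_le_landSup (W := one) ht T' x).trans hB))
          ((lintegral_env_le_landSup ht T' x).trans (main _ h1 h2))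

/-- The Gaussian envelope at the rate of the solution is bounded, for small rates. -/
theorem gauss_bound (hP : PinGain) (hL : PinLand) (T : ℝ) (B G A Q : ℝ≥0∞) (hT : 0 ≤ T)
    (hB : B ≠ ⊤) (hG : G ≠ ⊤) (hA : A ≠ ⊤) (hQ : Q ≠ ⊤) :
    ∃ θm : ℝ, 0 < θm ∧ ∀ (θ T' : ℝ) (f : ℝ → Prof), 0 < θ → θ ≤ θm → T' ∈ Icc 0 T →
      IsSlabSol θ T' f → landSup one f T T' ≤ B →
      (∫⁻ s in Ioc 0 T', xint lw (f s)) ≤ G →
      landSup (phi θ) f T 0 ≤ ENNReal.ofReal θ * A →
      xint (psiW θ 0) (f 0) ≤ ENNReal.ofReal (θ ^ 2) * Q →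
      landSup (gw θ) f T T' ≤ B + 1 := by
  set b := B.toReal
  set g := G.toReal
  set a := A.toReal
  set q := Q.toReal
  set S := surface (univ : Set S2) with hS
  set σ := S.toReal
  have hb : 0 ≤ b := ENNReal.toReal_nonneg
  have hg0 : 0 ≤ g := ENNReal.toReal_nonneg
  have ha : 0 ≤ a := ENNReal.toReal_nonneg
  have hq : 0 ≤ q := ENNReal.toReal_nonneg
  have hσ : 0 ≤ σ := ENNReal.toReal_nonneg
  set ε := 1 / (512 * (2 * b + 1)) with hεdef
  have hε : 0 < ε := by positivity
  have hε1 : ε ≤ 1 := by rw [hεdef, div_le_one (by positivity)]; nlinarith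
  set R := 1 + exp (T / 2) * sqrt 2 with hR
  set η := 1 / (2 * σ * R + 2) with hη
  set K := 2 * a + 2 * (256 * (2 * b + 1) * ε⁻¹) * (2 * (3 * g + R * q)) with hK
  have hR0 : 1 ≤ R := by
    have : 0 ≤ exp (T / 2) * sqrt 2 := by positivity
    linarith
  have hK0 : 0 ≤ K := by positivity
  have hη0 : 0 < η := by positivity
  have hη1 : η ≤ 1 := by rw [hη, div_le_one (by positivity)]; nlinarith
  refine ⟨min 1 ((η / (2 * K + 1)) ^ 2), lt_min one_pos (by positivity), ?_⟩
  intro θ T' f hθ hθm hT' h hB' hG' hA' hQ'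
  have hθ1 : θ ≤ 1 := hθm.trans (min_le_left _ _)
  have hsθ : 0 < sqrt θ := sqrt_pos.2 hθ
  have hs2 : sqrt θ * sqrt θ = θ := mul_self_sqrt hθ.le
  have hKθ : θ * K ≤ η * sqrt θ / 2 := by
    have h1 : sqrt θ ≤ η / (2 * K + 1) := by
      rw [← sqrt_sq (show 0 ≤ η / (2 * K + 1) by positivity)]
      exact sqrt_le_sqrt (hθm.trans (min_le_right _ _))
    rw [le_div_iff₀ (by positivity)] at h1
    nlinarith [mul_le_mul_of_nonneg_left h1 hsθ.le]
  have hsθ1 : sqrt θ ≤ 1 := sqrt_le_one.2 hθ1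
  have hθsq : θ * sqrt θ ≤ θ := mul_le_of_le_one_right hθ.le hsθ1
  have main : ∀ θ₁ : ℝ, θ / 2 ≤ θ₁ → θ₁ < θ → landSup (phi θ₁) f T T' ≤ 1 := by
    intro θ₁ h1 h2
    have hθ₁ : 0 < θ₁ := by linarith
    set k := R / sqrt θ with hk
    set ℓ := η * sqrt θ with hℓ
    have hkle : 1 + exp (T / 2) / sqrt θ₁ ≤ k := by
      rw [hk, hR, add_div]
      refine add_le_add ((le_div_iff₀ hsθ).2 (by linarith)) ?_
      rw [mul_div_assoc, div_eq_mul_inv]
      refine mul_le_mul_of_nonneg_left ?_ (exp_pos _).le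
      rw [inv_eq_one_div, div_le_div_iff₀ (sqrt_pos.2 hθ₁) hsθ, one_mul,
        ← sqrt_mul zero_le_two]
      exact sqrt_le_sqrt (by linarith)
    have hsm : surface (univ : Set S2) * ENNReal.ofReal ℓ * ENNReal.ofReal k ≤
        ENNReal.ofReal (1 / 2) := by
      rw [← hS, ← ENNReal.ofReal_toReal (show S ≠ ⊤ from measure_ne_top surface univ),
        ← ENNReal.ofReal_mul hσ, ← ENNReal.ofReal_mul (by positivity)]
      refine ENNReal.ofReal_le_ofReal ?_
      have : σ * ℓ * k = σ * η * R := by rw [hℓ, hk]; field_simp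
      rw [this, hη, mul_one_div, div_mul_eq_mul_div, div_le_div_iff₀ (by positivity) (by norm_num)]
      nlinarith
    have hℓ1 : ENNReal.ofReal ℓ ≤ 1 :=
      ENNReal.ofReal_le_one.2 (mul_le_one₀ hη1 hsθ.le hsθ1)
    have hεB : 256 * (2 * B + 1) * ENNReal.ofReal ε ≤ ENNReal.ofReal (1 / 2) := by
      rw [← ENNReal.ofReal_toReal hB, ← ENNReal.ofReal_ofNat, ← ENNReal.ofReal_ofNat,
        ← ENNReal.ofReal_mul zero_le_two, ← ENNReal.ofReal_one, ← ENNReal.ofReal_add (by positivity)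
          zero_le_one, ← ENNReal.ofReal_mul (by norm_num), ← ENNReal.ofReal_mul (by positivity)]
      refine ENNReal.ofReal_le_ofReal (le_of_eq ?_)
      rw [hεdef]; field_simp; ring
    have hA1 : landSup (phi θ₁) f T 0 ≤ ENNReal.ofReal θ * A :=
      le_trans (iSup₂_mono fun t _ => iSup_mono fun x => lintegral_mono fun v =>
        mul_le_mul' (phi_mono h2.le t v) le_rfl) hA'
    have hΨ1 : xint (psiW θ₁ 0) (f 0) ≤ ENNReal.ofReal (θ ^ 2) * Q :=
      (xint_mono (psiW_mono hθ₁.le h2.le 0)).trans hQ'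
    have hKb' : 2 * (ENNReal.ofReal θ * A) + 2 * (256 * (2 * B + 1) * ENNReal.ofReal ε⁻¹) *
        (2 * (ENNReal.ofReal (3 * θ₁) * G + ENNReal.ofReal k * (ENNReal.ofReal (θ ^ 2) * Q))) ≤
        ENNReal.ofReal (ℓ / 2) :=
      gauss_arith hB hG hA hQ hθ hθ1 hθ₁.le h2.le hε.le (by linarith) hKθ
    have hℓ0 : 0 < ℓ := mul_pos hη0 hsθ
    refine (gauss_boot hP hθ h hT'.1 hθ₁ h2 hℓ0 ((hA1.trans ?_).trans hKb')
      fun t ht hY => (gauss_step hL hθ h hT'.2 hθ₁ h2 ht hε hε1 hεB hkle hsm hℓ1 hB' hG' hA1 hΨ1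
        hY).trans hKb').trans ((ENNReal.ofReal_le_ofReal (by linarith)).trans hℓ1)
    exact le_add_right (le_mul_of_one_le_left' one_le_two)
  exact gauss_limit hθ h hB' main

end Vale.Agent.P140.Slab
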