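import Vale.Agent.P140.Slab.Poly

/-!
# Gaussian weights with their constant and linear parts removed
-/

open MeasureTheory Real Set Filter
open scoped RealInnerProductSpace ENNReal

namespace Vale.Agent.P140.Slab

open Vale.Agent.P140 Vale.Agent.P140.Renorm

/-- `x = θ(t) |v|^2`. -/
noncomputable def xv (θ t : ℝ) (v : V3) : ℝ := theta θ t * ‖v‖ ^ 2

/-- `exp x - 1`. -/
noncomputable def phi (θ t : ℝ) (v : V3) : ℝ≥0∞ := ENNReal.ofReal (exp (xv θ t v) - 1)

/-- `exp x - 1 - x`. -/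
noncomputable def psiW (θ t : ℝ) (v : V3) : ℝ≥0∞ :=
  ENNReal.ofReal (exp (xv θ t v) - 1 - xv θ t v)

/-- `x (exp x - 1)`, the rate at which `psiW` decreases. -/
noncomputable def bw (θ t : ℝ) (v : V3) : ℝ≥0∞ :=
  ENNReal.ofReal (xv θ t v * (exp (xv θ t v) - 1))

variable {θ : ℝ}

lemma xv_nonneg (hθ : 0 ≤ θ) (t : ℝ) (v : V3) : 0 ≤ xv θ t v :=
  mul_nonneg (mul_nonneg hθ (exp_pos _).le) (sq_nonneg _)

lemma exp_xv_sub_nonneg (hθ : 0 ≤ θ) (t : ℝ) (v : V3) : 0 ≤ exp (xv θ t v) - 1 := by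
  linarith [add_one_le_exp (xv θ t v), xv_nonneg hθ t v]

lemma continuous_xv : Continuous fun q : ℝ × V3 => xv θ q.1 q.2 := by
  unfold xv theta; fun_prop

lemma measurable_phi : Measurable (Function.uncurry (phi θ)) :=
  ((continuous_exp.comp continuous_xv).sub continuous_const).measurable.ennreal_ofReal

lemma measurable_psiW : Measurable (Function.uncurry (psiW θ)) :=
  (((continuous_exp.comp continuous_xv).sub continuous_const).sub
    continuous_xv).measurable.ennreal_ofReal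

lemma measurable_bw : Measurable (Function.uncurry (bw θ)) :=
  (continuous_xv.mul
    ((continuous_exp.comp continuous_xv).sub continuous_const)).measurable.ennreal_ofReal

lemma measurable_phi_at (t : ℝ) : Measurable (phi θ t) :=
  measurable_phi.comp measurable_prodMk_left

lemma phi_le_gexp (t : ℝ) (v : V3) : phi θ t v ≤ gexp (theta θ t) v :=
  ENNReal.ofReal_le_ofReal (by simp [xv])

lemma phi_anti (hθ : 0 ≤ θ) {s t : ℝ} (hst : s ≤ t) (v : V3) : phi θ t v ≤ phi θ s v :=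
  ENNReal.ofReal_le_ofReal (sub_le_sub_right (exp_le_exp.2 (mul_le_mul_of_nonneg_right
    (theta_ge hθ hst) (sq_nonneg _))) 1)

lemma phi_mono {θ' : ℝ} (h : θ ≤ θ') (t : ℝ) (v : V3) : phi θ t v ≤ phi θ' t v :=
  ENNReal.ofReal_le_ofReal (sub_le_sub_right (exp_le_exp.2 (mul_le_mul_of_nonneg_right
    (mul_le_mul_of_nonneg_right h (exp_pos _).le) (sq_nonneg _))) 1)

lemma psiW_mono {θ' : ℝ} (hθ : 0 ≤ θ) (h : θ ≤ θ') (t : ℝ) (v : V3) :
    psiW θ t v ≤ psiW θ' t v := by
  refine ENNReal.ofReal_le_ofReal ?_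
  set a := xv θ t v
  set b := xv θ' t v
  have ha : 0 ≤ a := xv_nonneg hθ t v
  have hab : a ≤ b :=
    mul_le_mul_of_nonneg_right (mul_le_mul_of_nonneg_right h (exp_pos _).le) (sq_nonneg _)
  have e : exp b = exp a * exp (b - a) := by rw [← exp_add]; ring_nf
  have h1 : 1 ≤ exp a := one_le_exp ha
  nlinarith [add_one_le_exp (b - a), mul_le_mul_of_nonneg_right h1 (sub_nonneg.2 hab),
    mul_le_mul_of_nonneg_left (add_one_le_exp (b - a)) (exp_pos a).le]

/-- The exact decrease of `psiW`. -/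
lemma psiW_step (hθ : 0 ≤ θ) {s t : ℝ} (hst : s ≤ t) (v : V3) :
    psiW θ s v = psiW θ t v + ∫⁻ r in Ioc s t, bw θ r v := by
  have hx : ∀ r, HasDerivAt (fun r => xv θ r v) (-xv θ r v) r := fun r => by
    have := (((hasDerivAt_neg r).exp).const_mul θ).mul_const (‖v‖ ^ 2)
    simpa [xv, theta, mul_comm, mul_left_comm, mul_assoc] using this
  have hd : ∀ r, HasDerivAt (fun r => -(exp (xv θ r v) - 1 - xv θ r v))
      (xv θ r v * (exp (xv θ r v) - 1)) r := fun r => by
    have h1 : HasDerivAt (fun r => -(exp (xv θ r v) - 1 - xv θ r v))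
        (-(exp (xv θ r v) * -xv θ r v - -xv θ r v)) r :=
      ((((hx r).exp).sub_const 1).sub (hx r)).neg
    convert! h1 using 1
    ring
  have hc : Continuous fun r => xv θ r v * (exp (xv θ r v) - 1) := by
    unfold xv theta; fun_prop
  have hi : ∫⁻ r in Ioc s t, bw θ r v =
      ENNReal.ofReal (∫ r in s..t, xv θ r v * (exp (xv θ r v) - 1)) := by
    rw [intervalIntegral.integral_of_le hst, ofReal_integral_eq_lintegral_ofReal
      hc.integrableOn_Ioc (Eventually.of_forall fun r =>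
        mul_nonneg (xv_nonneg hθ r v) (exp_xv_sub_nonneg hθ r v))]
    rfl
  rw [hi, psiW, psiW, intervalIntegral.integral_eq_sub_of_hasDerivAt (fun r _ => hd r)
    (hc.intervalIntegrable _ _), ← ENNReal.ofReal_add (by linarith [add_one_le_exp (xv θ t v)])]
  · congr 1; ring
  · have h := mul_le_mul_of_nonneg_right (theta_ge hθ hst) (sq_nonneg ‖v‖)
    change xv θ t v ≤ xv θ s v at h
    have h1 : 1 ≤ exp (xv θ t v) := one_le_exp (xv_nonneg hθ t v)
    have e : exp (xv θ s v) = exp (xv θ t v) * exp (xv θ s v - xv θ t v) := by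
      rw [← exp_add]; ring_nf
    nlinarith [mul_le_mul_of_nonneg_left (add_one_le_exp (xv θ s v - xv θ t v))
      (exp_pos (xv θ t v)).le, mul_le_mul_of_nonneg_right h1 (sub_nonneg.2 h)]

/-- The excess of `psiW` in a collision is the product of the excesses of the two velocities. -/
lemma psiW_excess (hθ : 0 ≤ θ) (s : ℝ) (v : V3) (p : V3 × S2) :
    psiW θ s (postV v p) + psiW θ s (postW v p) ≤
      psiW θ s v + psiW θ s p.1 + phi θ s v * phi θ s p.1 := by
  have hn : ∀ x : ℝ, 0 ≤ exp x - 1 - x := fun x => by linarith [add_one_le_exp x]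
  simp only [psiW, phi]
  rw [← ENNReal.ofReal_mul (exp_xv_sub_nonneg hθ s v), ← ENNReal.ofReal_add (hn _) (hn _),
    ← ENNReal.ofReal_add (hn _) (hn _), ← ENNReal.ofReal_add (add_nonneg (hn _) (hn _))
      (mul_nonneg (exp_xv_sub_nonneg hθ s v) (exp_xv_sub_nonneg hθ s p.1))]
  refine ENNReal.ofReal_le_ofReal ?_
  have e : xv θ s (postV v p) + xv θ s (postW v p) = xv θ s v + xv θ s p.1 := by
    simp only [xv]; rw [← mul_add, ← mul_add, energy_post]
  have e2 : exp (xv θ s (postV v p)) * exp (xv θ s (postW v p)) =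
      exp (xv θ s v) * exp (xv θ s p.1) := by rw [← exp_add, ← exp_add, e]
  have := mul_nonneg (exp_xv_sub_nonneg hθ s (postV v p)) (exp_xv_sub_nonneg hθ s (postW v p))
  nlinarith

/-- The gain weight of a pair. -/
lemma phi_pair (hθ : 0 ≤ θ) (t : ℝ) {v u q : V3} (hvu : ‖v‖ ≤ ‖u‖)
    (hq : ‖q‖ ^ 2 ≤ ‖v‖ ^ 2 + ‖u‖ ^ 2) : phi θ t q ≤ (2 + phi θ t v) * phi θ t u := by
  have hv := exp_xv_sub_nonneg hθ t v
  have hu := exp_xv_sub_nonneg hθ t u
  have hc := mul_nonneg hθ (exp_pos (-t)).le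
  have h1 : exp (xv θ t q) ≤ exp (xv θ t v) * exp (xv θ t u) := by
    rw [← exp_add]
    refine exp_le_exp.2 ?_
    simp only [xv, ← mul_add]
    exact mul_le_mul_of_nonneg_left hq hc
  have h2 : exp (xv θ t v) ≤ exp (xv θ t u) :=
    exp_le_exp.2 (mul_le_mul_of_nonneg_left (pow_le_pow_left₀ (norm_nonneg _) hvu 2) hc)
  simp only [phi]
  rw [← ENNReal.ofReal_ofNat, ← ENNReal.ofReal_add zero_le_two hv,
    ← ENNReal.ofReal_mul (by linarith)]
  refine ENNReal.ofReal_le_ofReal ?_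
  nlinarith

/-- Low energies are paid by the third moment, high ones by the decrease of `psiW`. -/
lemma lin_phi_le (hθ : 0 < θ) {T s : ℝ} (hs0 : 0 ≤ s) (hs : s ≤ T) (v : V3) :
    lin v * phi θ s v ≤ ENNReal.ofReal (3 * θ) * lw v +
      ENNReal.ofReal (1 + exp (T / 2) / sqrt θ) * bw θ s v := by
  have hb0 : 0 ≤ xv θ s v * (exp (xv θ s v) - 1) :=
    mul_nonneg (xv_nonneg hθ.le s v) (exp_xv_sub_nonneg hθ.le s v)
  simp only [lw, lin, phi, wq, bw]
  rw [← ENNReal.ofReal_mul (by positivity), ← ENNReal.ofReal_mul (by positivity),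
    ← ENNReal.ofReal_mul (by positivity), ← ENNReal.ofReal_mul (by positivity),
    ← ENNReal.ofReal_add (by positivity) (mul_nonneg (by positivity) hb0)]
  refine ENNReal.ofReal_le_ofReal ?_
  set x := xv θ s v with hx
  set r := ‖v‖ with hr
  have hr0 : 0 ≤ r := norm_nonneg v
  have hx0 : 0 ≤ x := xv_nonneg hθ.le s v
  have hb : 0 ≤ exp x - 1 := exp_xv_sub_nonneg hθ.le s v
  set k := 1 + exp (T / 2) / sqrt θ with hk
  have hk0 : 0 ≤ k := by positivity
  rcases le_or_gt x 1 with h | h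
  · have h1 : exp x - 1 ≤ 3 * x := by
      have h2 : exp x * (1 - x) ≤ 1 := by
        have := mul_le_mul_of_nonneg_left (add_one_le_exp (-x)) (exp_pos x).le
        rw [← exp_add, add_neg_cancel, exp_zero] at this
        linarith
      nlinarith [exp_le_exp.2 h, exp_one_lt_d9, exp_pos x]
    have h3 : x ≤ θ * r ^ 2 := by
      rw [hx, xv, theta, hr]
      exact mul_le_mul_of_nonneg_right (mul_le_of_le_one_right hθ.le
        (exp_le_one_iff.2 (by linarith))) (sq_nonneg _)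
    have h4 : exp x - 1 ≤ 3 * θ * (1 + r ^ 2) := by nlinarith
    nlinarith [mul_le_mul_of_nonneg_left h4 (show 0 ≤ 1 + r by linarith),
      mul_nonneg hk0 (mul_nonneg hx0 hb)]
  · have hsθ : 0 < sqrt θ := sqrt_pos.2 hθ
    have hpos : 0 < sqrt θ * exp (-(T / 2)) := mul_pos hsθ (exp_pos _)
    have hr2 : (sqrt θ * exp (-(T / 2))) ^ 2 * r ^ 2 ≤ x := by
      rw [hx, xv, theta, hr, mul_pow, sq_sqrt hθ.le, ← exp_nat_mul]
      exact mul_le_mul_of_nonneg_right
        (mul_le_mul_of_nonneg_left (exp_le_exp.2 (by push_cast; linarith)) hθ.le) (sq_nonneg _)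
    have h5 : sqrt θ * exp (-(T / 2)) * r ≤ x := by nlinarith [mul_nonneg hpos.le hr0]
    have e : exp (T / 2) / sqrt θ * (sqrt θ * exp (-(T / 2))) = 1 := by
      rw [← mul_assoc, div_mul_cancel₀ _ hsθ.ne', ← exp_add, add_neg_cancel, exp_zero]
    have h6 : r ≤ exp (T / 2) / sqrt θ * x := by
      calc r = exp (T / 2) / sqrt θ * (sqrt θ * exp (-(T / 2)) * r) := by
            rw [← mul_assoc, e, one_mul]
        _ ≤ _ := mul_le_mul_of_nonneg_left h5 (by positivity)
    have h7 : 1 + r ≤ k * x := by rw [hk]; linarith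
    nlinarith [mul_le_mul_of_nonneg_right h7 hb,
      mul_nonneg (mul_nonneg (mul_nonneg hθ.le (show 0 ≤ 1 + r by linarith))
        (show 0 ≤ 1 + r ^ 2 by positivity)) (show (0 : ℝ) ≤ 3 by norm_num)]

end Vale.Agent.P140.Slab
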