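import Vale.Agent.P140.Slab.Pins

/-!
# Smoothing of the gain and of the loss by the decay of the Gaussian rate

Between two times at distance `τ` the Gaussian weight loses `exp (-b τ |v|²)`, which pays the
factor `(1 + |v|)^(3/2)` of the slice norm at the integrable price `τ^(-3/4)`.
-/

open MeasureTheory Real Set
open scoped RealInnerProductSpace ENNReal

namespace Vale.Agent.P140.Slab.Local

open Vale.Agent.P140 Vale.Agent.P140.Renorm

/-- `SliceLE` for an extended nonnegative profile. -/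
def Sl (W : V3 → ℝ≥0∞) (C : ℝ≥0∞) (U : ℝ → V3 → ℝ≥0∞) : Prop :=
  ∀ (ξ : ℝ → ℝ) (ψ : ℝ → ℝ≥0∞), Measurable ξ → Measurable ψ →
    ∫⁻ v, ψ (v 0) * W v * U (ξ (v 0)) v ≤ C * ∫⁻ s, ψ s * dec s

/-- The gain operator. -/
noncomputable def gainU (U : ℝ → ℝ → V3 → ℝ≥0∞) (s y : ℝ) (v : V3) : ℝ≥0∞ :=
  gain (U s y) (U s y) v

/-- The loss operator. -/
noncomputable def lossU (U : ℝ → ℝ → V3 → ℝ≥0∞) (s y : ℝ) (v : V3) : ℝ≥0∞ :=
  U s y v * lossRate (U s y) v

/-- The mass of the slice decay. -/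
noncomputable def D0 : ℝ≥0∞ := ∫⁻ s, dec s

lemma measurable_dec : Measurable dec := by unfold dec; fun_prop

lemma D0_ne_top : D0 ≠ ⊤ := by
  have h : Integrable (fun s : ℝ => (1 + ‖s‖) ^ (-(3 / 2) : ℝ)) :=
    integrable_one_add_norm (by simp; norm_num)
  exact h.lintegral_lt_top.ne

@[fun_prop]
lemma measurable_coord : Measurable (fun v : V3 => v 0) :=
  (PiLp.continuous_apply 2 _ (0 : Fin 3)).measurable

lemma abs_coord_le (v : V3) : |v 0| ≤ ‖v‖ := by
  simpa [Real.norm_eq_abs] using PiLp.norm_apply_le v (0 : Fin 3)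

@[fun_prop]
lemma measurable_gw (θ t : ℝ) : Measurable (gw θ t) := by unfold gw; fun_prop

lemma one_le_gw {θ t : ℝ} (hθ : 0 ≤ θ) (v : V3) : 1 ≤ gw θ t v := by
  rw [gw, ← ENNReal.ofReal_one]
  refine ENNReal.ofReal_le_ofReal (one_le_exp ?_)
  unfold theta; positivity

lemma gw_anti {θ s t : ℝ} (hθ : 0 ≤ θ) (hst : s ≤ t) (v : V3) : gw θ t v ≤ gw θ s v := by
  refine ENNReal.ofReal_le_ofReal (exp_le_exp.2 (mul_le_mul_of_nonneg_right ?_ (sq_nonneg _)))
  exact mul_le_mul_of_nonneg_left (exp_le_exp.2 (by linarith)) hθ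

lemma Sl.mass {θ t : ℝ} {C : ℝ≥0∞} {U : ℝ → V3 → ℝ≥0∞} (h : Sl (gw θ t) C U) (y : ℝ) :
    ∫⁻ v, gw θ t v * U y v ≤ C * D0 := by
  simpa [D0] using h (fun _ => y) (fun _ => 1) measurable_const measurable_const

/-- The lowest decay speed of the rate on `[0,1]`. -/
noncomputable def speed (θlo : ℝ) : ℝ := θlo * exp (-1)

/-- The constant of `poly_gauss`. -/
noncomputable def cA (θlo : ℝ) : ℝ := 2 + 3 / speed θlo

lemma speed_pos {θlo : ℝ} (h : 0 < θlo) : 0 < speed θlo := by unfold speed; positivity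

lemma cA_pos {θlo : ℝ} (h : 0 < θlo) : 0 < cA θlo := by
  have := speed_pos h
  unfold cA; positivity

lemma poly_gauss {θlo τ δ S x : ℝ} (hlo : 0 < θlo) (hτ : 0 < τ) (hτ1 : τ ≤ 1)
    (hδ : speed θlo * τ ≤ δ) (hx : 0 ≤ x) (hxS : x ^ 2 ≤ 2 * S) :
    (1 + x) ^ (3 / 2 : ℝ) * exp (-δ * S) ≤ cA θlo * τ ^ (-(3 / 4) : ℝ) := by
  set b := speed θlo with hb
  have hb0 : 0 < b := speed_pos hlo
  have hS : 0 ≤ S := by nlinarith
  have hδ0 : 0 < δ := lt_of_lt_of_le (by positivity) hδ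
  have h1 : (1 + x) ^ 2 * exp (-(4 / 3 * δ) * S) ≤ (2 + 3 / b) / τ := by
    set c := 4 / 3 * δ
    have he : c * S * exp (-c * S) ≤ 1 := by
      rw [neg_mul, exp_neg, ← div_eq_mul_inv, div_le_one (exp_pos _)]
      linarith [add_one_le_exp (c * S)]
    have he1 : exp (-c * S) ≤ 1 := exp_le_one_iff.2 (by
      have : 0 ≤ c * S := mul_nonneg (mul_nonneg (by norm_num) hδ0.le) hS
      linarith)
    have h4 : 4 * (S * exp (-c * S)) * δ ≤ 3 := by
      have e : 4 * (S * exp (-c * S)) * δ = 3 * (c * S * exp (-c * S)) := by simp only [c]; ring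
      linarith
    have h5 : 4 * (S * exp (-c * S)) * (b * τ) ≤ 3 :=
      le_trans (mul_le_mul_of_nonneg_left hδ (by positivity)) h4
    rw [le_div_iff₀ hτ]
    have h6 : 4 * (S * exp (-c * S)) * τ ≤ 3 / b := by
      rw [le_div_iff₀ hb0]; nlinarith
    calc (1 + x) ^ 2 * exp (-c * S) * τ ≤ (2 + 4 * S) * exp (-c * S) * τ := by
          refine mul_le_mul_of_nonneg_right (mul_le_mul_of_nonneg_right ?_ (exp_pos _).le) hτ.le
          nlinarith [sq_nonneg (x - 1)]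
      _ = 2 * exp (-c * S) * τ + 4 * (S * exp (-c * S)) * τ := by ring
      _ ≤ 2 * 1 * 1 + 3 / b := by gcongr
      _ = _ := by ring
  have hA1 : 1 ≤ 2 + 3 / b := by linarith [show 0 ≤ 3 / b by positivity]
  have h2 : ((1 + x) ^ 2) ^ (3 / 4 : ℝ) = (1 + x) ^ (3 / 2 : ℝ) := by
    rw [← rpow_natCast, ← rpow_mul (by linarith)]; norm_num
  have h3 : exp (-(4 / 3 * δ) * S) ^ (3 / 4 : ℝ) = exp (-δ * S) := by
    rw [← exp_mul]; congr 1; ring
  calc (1 + x) ^ (3 / 2 : ℝ) * exp (-δ * S)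
      = ((1 + x) ^ 2 * exp (-(4 / 3 * δ) * S)) ^ (3 / 4 : ℝ) := by
        rw [mul_rpow (sq_nonneg _) (exp_pos _).le, h2, h3]
    _ ≤ ((2 + 3 / b) / τ) ^ (3 / 4 : ℝ) := rpow_le_rpow (by positivity) h1 (by norm_num)
    _ = (2 + 3 / b) ^ (3 / 4 : ℝ) * τ ^ (-(3 / 4) : ℝ) := by
        rw [div_rpow (by linarith) hτ.le, rpow_neg hτ.le, ← div_eq_mul_inv]
    _ ≤ cA θlo * τ ^ (-(3 / 4) : ℝ) := by
        refine mul_le_mul_of_nonneg_right ?_ (rpow_nonneg hτ.le _)
        calc (2 + 3 / b) ^ (3 / 4 : ℝ) ≤ (2 + 3 / b) ^ (1 : ℝ) :=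
              rpow_le_rpow_of_exponent_le hA1 (by norm_num)
          _ = _ := rpow_one _

lemma rate_gap {θlo θ s t : ℝ} (hlo : 0 < θlo) (hθ : θlo ≤ θ) (ht : t ≤ 1) (hst : s ≤ t) :
    speed θlo * (t - s) ≤ theta θ s - theta θ t := by
  have h1 : t - s ≤ exp (t - s) - 1 := by linarith [add_one_le_exp (t - s)]
  have h2 : exp (-1) ≤ exp (-t) := exp_le_exp.2 (by linarith)
  have h3 : theta θ s - theta θ t = θ * exp (-t) * (exp (t - s) - 1) := by
    have : exp (-s) = exp (-t) * exp (t - s) := by rw [← exp_add]; congr 1; ring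
    unfold theta; rw [this]; ring
  rw [h3, speed]
  exact mul_le_mul (mul_le_mul hθ h2 (exp_pos _).le (by linarith)) h1 (by linarith)
    (by have : 0 < θ := hlo.trans_le hθ; positivity)

/-- The price of one unit of `τ`. -/
noncomputable def price (θlo τ : ℝ) : ℝ≥0∞ := ENNReal.ofReal (cA θlo * τ ^ (-(3 / 4) : ℝ))

lemma measurable_section₂ {U : ℝ → V3 → ℝ≥0∞} (hU : Measurable (Function.uncurry U))
    {ξ : ℝ → ℝ} (hξ : Measurable ξ) :
    Measurable (Function.uncurry fun a v => U (ξ a) v) :=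
  hU.comp ((hξ.comp measurable_fst).prodMk measurable_snd)

lemma abs_le_of_hit {v u : V3} {a : ℝ} (h : a ∈ hitSet v u) : |a| ≤ ‖v‖ + ‖u‖ := by
  obtain ⟨h1, h2⟩ := h
  have hv := abs_le.1 (abs_coord_le v)
  have hu := abs_le.1 (abs_coord_le u)
  have := norm_sub_le v u
  rw [abs_le]
  constructor <;> linarith

lemma hit_weight {θlo θ s t a : ℝ} (hlo : 0 < θlo) (hθ : θlo ≤ θ) (hs : 0 ≤ s) (hst : s < t)
    (ht : t ≤ 1) {v u : V3} (ha : a ∈ hitSet v u) :
    ENNReal.ofReal (exp (theta θ t * (‖v‖ ^ 2 + ‖u‖ ^ 2))) ≤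
      dec a * price θlo (t - s) * (gw θ s v * gw θ s u) := by
  simp only [dec, price, gw]
  rw [← ENNReal.ofReal_mul (by positivity), ← ENNReal.ofReal_mul (exp_pos _).le,
    ← ENNReal.ofReal_mul (mul_nonneg (by positivity)
      (mul_nonneg (cA_pos hlo).le (rpow_nonneg (sub_nonneg.2 hst.le) _)))]
  refine ENNReal.ofReal_le_ofReal ?_
  have h := poly_gauss (S := ‖v‖ ^ 2 + ‖u‖ ^ 2) hlo (sub_pos.2 hst) (by linarith)
    (rate_gap hlo hθ ht hst.le) (abs_nonneg a) (by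
      nlinarith [abs_le_of_hit ha, abs_nonneg a, sq_nonneg (‖v‖ - ‖u‖), norm_nonneg v,
        norm_nonneg u])
  have e1 : exp (theta θ t * (‖v‖ ^ 2 + ‖u‖ ^ 2)) =
      exp (-(theta θ s - theta θ t) * (‖v‖ ^ 2 + ‖u‖ ^ 2)) *
        (exp (theta θ s * ‖v‖ ^ 2) * exp (theta θ s * ‖u‖ ^ 2)) := by
    rw [← exp_add, ← exp_add]; congr 1; ring
  have e2 : (1 + |a|) ^ (-(3 / 2) : ℝ) * (1 + |a|) ^ (3 / 2 : ℝ) = 1 := by
    rw [← rpow_add (by positivity)]; norm_num
  rw [e1]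
  refine mul_le_mul_of_nonneg_right ?_ (by positivity)
  calc exp (-(theta θ s - theta θ t) * (‖v‖ ^ 2 + ‖u‖ ^ 2))
      = (1 + |a|) ^ (-(3 / 2) : ℝ) * ((1 + |a|) ^ (3 / 2 : ℝ) *
          exp (-(theta θ s - theta θ t) * (‖v‖ ^ 2 + ‖u‖ ^ 2))) := by
        rw [← mul_assoc, e2, one_mul]
    _ ≤ _ := mul_le_mul_of_nonneg_left h (by positivity)

/-- Gain. -/
lemma gain_slice (hg : PinGain) {θlo θ s t : ℝ} (hlo : 0 < θlo) (hθ : θlo ≤ θ) (hs : 0 ≤ s)
    (hst : s < t) (ht : t ≤ 1) {U : ℝ → V3 → ℝ≥0∞} (hU : Measurable (Function.uncurry U))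
    {M : ℝ≥0∞} (hM : Sl (gw θ s) M U) {ξ : ℝ → ℝ} {ψ : ℝ → ℝ≥0∞} (hξ : Measurable ξ)
    (hψ : Measurable ψ) :
    ∫⁻ v, ψ (v 0) * gw θ t v * gain (U (ξ (v 0))) (U (ξ (v 0))) v ≤
      ENNReal.ofReal (2 * π) * price θlo (t - s) * ((M * D0) * (M * D0)) *
        ∫⁻ a, ψ a * dec a := by
  have hθ0 : 0 < θ := hlo.trans_le hθ
  set K : ℝ → V3 → V3 → ℝ≥0∞ := fun a v u =>
    ψ a * ENNReal.ofReal (exp (theta θ t * (‖v‖ ^ 2 + ‖u‖ ^ 2))) with hK
  have hKm : Measurable (fun q : ℝ × V3 × V3 => K q.1 q.2.1 q.2.2) := by simp only [hK]; fun_prop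
  refine (hg (fun v => ψ (v 0) * gw θ t v) K (fun a v => U (ξ a) v) (by fun_prop) hKm
    (measurable_section₂ hU hξ) (fun v p => ?_)).trans ?_
  · refine mul_le_mul' le_rfl (ENNReal.ofReal_le_ofReal (exp_le_exp.2 ?_))
    refine mul_le_mul_of_nonneg_left ?_ (by unfold theta; positivity)
    nlinarith [energy_post v p, sq_nonneg ‖postW v p‖]
  set c := price θlo (t - s)
  set G : ℝ → V3 → ℝ≥0∞ := fun a v => gw θ s v * U (ξ a) v with hG
  have hGm : Measurable (Function.uncurry G) :=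
    ((measurable_gw θ s).comp measurable_snd).mul (measurable_section₂ hU hξ)
  have key : ∀ a v u, (hitSet v u).indicator (fun a => K a v u * U (ξ a) v * U (ξ a) u) a ≤
      ψ a * dec a * c * (G a v * G a u) := by
    intro a v u
    by_cases ha : a ∈ hitSet v u
    swap
    · simp [ha]
    rw [indicator_of_mem ha]
    have h1 := hit_weight hlo hθ hs hst ht ha
    calc K a v u * U (ξ a) v * U (ξ a) u
        ≤ ψ a * (dec a * c * (gw θ s v * gw θ s u)) * U (ξ a) v * U (ξ a) u :=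
          mul_le_mul' (mul_le_mul' (mul_le_mul' le_rfl h1) le_rfl) le_rfl
      _ = _ := by simp only [hG]; ring
  have hct : c ≠ ⊤ := ENNReal.ofReal_ne_top
  have hmass : ∀ a, ∫⁻ v, G a v ≤ M * D0 := fun a => hM.mass (ξ a)
  have hin : ∀ a, ∫⁻ v, ∫⁻ u, ψ a * dec a * c * (G a v * G a u) ≤
      ψ a * dec a * c * ((M * D0) * (M * D0)) := by
    intro a
    have hGa : Measurable (G a) :=
      (measurable_gw θ s).mul (measurable_section₂ hU hξ).of_uncurry_left
    calc ∫⁻ v, ∫⁻ u, ψ a * dec a * c * (G a v * G a u)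
        = ∫⁻ v, ψ a * dec a * c * G a v * ∫⁻ u, G a u := lintegral_congr fun v => by
          rw [← lintegral_const_mul _ hGa]
          exact lintegral_congr fun u => by ring
      _ = ψ a * dec a * c * (∫⁻ v, G a v) * ∫⁻ u, G a u := by
          rw [lintegral_mul_const _ (hGa.const_mul _), lintegral_const_mul _ hGa]
      _ ≤ _ := by
          rw [mul_assoc]
          exact mul_le_mul' le_rfl (mul_le_mul' (hmass a) (hmass a))
  calc ENNReal.ofReal (2 * π) * ∫⁻ a, ∫⁻ v, ∫⁻ u,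
        (hitSet v u).indicator (fun a => K a v u * U (ξ a) v * U (ξ a) u) a
      ≤ ENNReal.ofReal (2 * π) * ∫⁻ a, ψ a * dec a * c * ((M * D0) * (M * D0)) :=
        mul_le_mul' le_rfl (lintegral_mono fun a =>
          (lintegral_mono fun v => lintegral_mono fun u => key a v u).trans (hin a))
    _ = _ := by
        rw [lintegral_mul_const _ (by have := measurable_dec; fun_prop),
          lintegral_mul_const _ (by have := measurable_dec; fun_prop)]
        ring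

lemma lossRate_slice {θlo θ s : ℝ} (hlo : 0 < θlo) (hθ : θlo ≤ θ) (hs : s ≤ 1) {f : V3 → ℝ≥0∞}
    (hf : Measurable f) (v : V3) :
    lossRate f v ≤ ENNReal.ofReal (1 + ‖v‖) * surface Set.univ * ENNReal.ofReal (cA θlo) *
      ∫⁻ u, gw θ s u * f u := by
  have hb : speed θlo * 1 ≤ theta θ s := by
    rw [mul_one]
    exact mul_le_mul hθ (exp_le_exp.2 (by linarith)) (exp_pos _).le (by linarith)
  have hpt : ∀ u : V3, ENNReal.ofReal (1 + ‖u‖) ≤ ENNReal.ofReal (cA θlo) * gw θ s u := by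
    intro u
    rw [gw, ← ENNReal.ofReal_mul (cA_pos hlo).le]
    refine ENNReal.ofReal_le_ofReal ?_
    have h := poly_gauss (S := ‖u‖ ^ 2) hlo one_pos le_rfl hb (norm_nonneg u)
      (by nlinarith [sq_nonneg ‖u‖])
    rw [one_rpow, mul_one, neg_mul, exp_neg, ← div_eq_mul_inv, div_le_iff₀ (exp_pos _)] at h
    refine le_trans ?_ h
    calc 1 + ‖u‖ = (1 + ‖u‖) ^ (1 : ℝ) := (rpow_one _).symm
      _ ≤ _ := rpow_le_rpow_of_exponent_le (by linarith [norm_nonneg u]) (by norm_num)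
  calc lossRate f v
      ≤ ∫⁻ p : V3 × S2, ENNReal.ofReal (1 + ‖v‖) * ENNReal.ofReal (cA θlo) *
          (gw θ s p.1 * f p.1) ∂((volume : Measure V3).prod surface) := by
        refine lintegral_mono fun p => ?_
        have h1 : ENNReal.ofReal |impact v p| ≤
            ENNReal.ofReal (1 + ‖v‖) * ENNReal.ofReal (1 + ‖p.1‖) := by
          rw [← ENNReal.ofReal_mul (by positivity)]
          refine ENNReal.ofReal_le_ofReal ((abs_real_inner_le_norm _ _).trans ?_)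
          rw [norm_omega, mul_one]
          nlinarith [norm_sub_le v p.1, norm_nonneg v, norm_nonneg p.1]
        calc ENNReal.ofReal |impact v p| * f p.1
            ≤ ENNReal.ofReal (1 + ‖v‖) * (ENNReal.ofReal (cA θlo) * gw θ s p.1) * f p.1 :=
              mul_le_mul' (h1.trans (mul_le_mul' le_rfl (hpt p.1))) le_rfl
          _ = _ := by ring
    _ = ∫⁻ u, ∫⁻ _ω, ENNReal.ofReal (1 + ‖v‖) * ENNReal.ofReal (cA θlo) *
          (gw θ s u * f u) ∂surface := lintegral_prod _ (by fun_prop)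
    _ = _ := by
        simp only [lintegral_const]
        rw [lintegral_mul_const _ (by fun_prop), lintegral_const_mul _ (by fun_prop)]
        ring

lemma loss_weight {θlo θ s t : ℝ} (hlo : 0 < θlo) (hθ : θlo ≤ θ) (hs : 0 ≤ s) (hst : s < t)
    (ht : t ≤ 1) (v : V3) :
    gw θ t v * ENNReal.ofReal (1 + ‖v‖) ≤ price θlo (t - s) * gw θ s v := by
  simp only [gw, price]
  rw [← ENNReal.ofReal_mul (exp_pos _).le,
    ← ENNReal.ofReal_mul (mul_nonneg (cA_pos hlo).le (rpow_nonneg (sub_nonneg.2 hst.le) _))]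
  refine ENNReal.ofReal_le_ofReal ?_
  have h := poly_gauss (S := ‖v‖ ^ 2) hlo (sub_pos.2 hst) (by linarith)
    (rate_gap hlo hθ ht hst.le) (norm_nonneg v) (by nlinarith [sq_nonneg ‖v‖])
  have h' : (1 + ‖v‖) * exp (-(theta θ s - theta θ t) * ‖v‖ ^ 2) ≤
      cA θlo * (t - s) ^ (-(3 / 4) : ℝ) := by
    refine le_trans (mul_le_mul_of_nonneg_right ?_ (exp_pos _).le) h
    calc 1 + ‖v‖ = (1 + ‖v‖) ^ (1 : ℝ) := (rpow_one _).symm
      _ ≤ _ := rpow_le_rpow_of_exponent_le (by linarith [norm_nonneg v]) (by norm_num)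
  calc exp (theta θ t * ‖v‖ ^ 2) * (1 + ‖v‖)
      = (1 + ‖v‖) * exp (-(theta θ s - theta θ t) * ‖v‖ ^ 2) * exp (theta θ s * ‖v‖ ^ 2) := by
        rw [mul_assoc, ← exp_add, mul_comm]; congr 2; ring
    _ ≤ _ := mul_le_mul_of_nonneg_right h' (exp_pos _).le

/-- Loss. -/
lemma loss_slice {θlo θ s t : ℝ} (hlo : 0 < θlo) (hθ : θlo ≤ θ) (hs : 0 ≤ s) (hst : s < t)
    (ht : t ≤ 1) {U : ℝ → V3 → ℝ≥0∞} (hU : Measurable (Function.uncurry U)) {M : ℝ≥0∞}
    (hM : Sl (gw θ s) M U) {ξ : ℝ → ℝ} {ψ : ℝ → ℝ≥0∞} (hξ : Measurable ξ) (hψ : Measurable ψ) :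
    ∫⁻ v, ψ (v 0) * gw θ t v * (U (ξ (v 0)) v * lossRate (U (ξ (v 0))) v) ≤
      surface Set.univ * ENNReal.ofReal (cA θlo) * price θlo (t - s) * (M * D0) * M *
        ∫⁻ a, ψ a * dec a := by
  set c := price θlo (t - s)
  set L := surface Set.univ * ENNReal.ofReal (cA θlo) * (M * D0)
  have hw : ∀ v : V3, gw θ t v * ENNReal.ofReal (1 + ‖v‖) ≤ c * gw θ s v :=
    loss_weight hlo hθ hs hst ht
  calc ∫⁻ v, ψ (v 0) * gw θ t v * (U (ξ (v 0)) v * lossRate (U (ξ (v 0))) v)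
      ≤ ∫⁻ v, c * L * (ψ (v 0) * gw θ s v * U (ξ (v 0)) v) := by
        refine lintegral_mono fun v => ?_
        have hUv : Measurable (U (ξ (v 0))) := hU.of_uncurry_left
        have hl : lossRate (U (ξ (v 0))) v ≤ ENNReal.ofReal (1 + ‖v‖) * L := by
          refine (lossRate_slice hlo hθ (hst.le.trans ht) hUv v).trans ?_
          refine (mul_le_mul' le_rfl (hM.mass (ξ (v 0)))).trans_eq ?_
          simp only [L]; ring
        calc _ ≤ ψ (v 0) * gw θ t v * (U (ξ (v 0)) v * (ENNReal.ofReal (1 + ‖v‖) * L)) :=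
              mul_le_mul' le_rfl (mul_le_mul' le_rfl hl)
          _ = ψ (v 0) * (gw θ t v * ENNReal.ofReal (1 + ‖v‖)) * U (ξ (v 0)) v * L := by ring
          _ ≤ ψ (v 0) * (c * gw θ s v) * U (ξ (v 0)) v * L :=
              mul_le_mul' (mul_le_mul' (mul_le_mul' le_rfl (hw v)) le_rfl) le_rfl
          _ = _ := by ring
    _ ≤ c * L * (M * ∫⁻ a, ψ a * dec a) := by
        rw [lintegral_const_mul]
        · exact mul_le_mul' le_rfl (hM ξ ψ hξ hψ)
        · exact ((hψ.comp measurable_coord).mul (measurable_gw θ s)).mul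
            (hU.comp ((hξ.comp measurable_coord).prodMk measurable_id))
    _ = _ := by simp only [L]; ring

/-- The constant of the time-integrated collision bound. -/
noncomputable def lam (θlo : ℝ) : ℝ≥0∞ :=
  (ENNReal.ofReal (2 * π) * (D0 * D0) + surface Set.univ * ENNReal.ofReal (cA θlo) * D0) *
    ENNReal.ofReal (4 * cA θlo)

lemma lam_ne_top (θlo : ℝ) : lam θlo ≠ ⊤ := by
  have : surface Set.univ ≠ ⊤ := measure_ne_top _ _
  have := D0_ne_top
  unfold lam; finiteness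

lemma time_price {θlo t : ℝ} (hlo : 0 < θlo) (ht : 0 ≤ t) :
    ∫⁻ s in Ioc 0 t, price θlo (t - s) = ENNReal.ofReal (4 * cA θlo * t ^ (1 / 4 : ℝ)) := by
  have hr : (-1 : ℝ) < -(3 / 4) := by norm_num
  have hi : IntervalIntegrable (fun s => cA θlo * (t - s) ^ (-(3 / 4) : ℝ)) volume 0 t := by
    have h := (intervalIntegral.intervalIntegrable_rpow' (a := t) (b := 0) hr).comp_sub_left t
    simp only [sub_self, sub_zero] at h
    exact h.const_mul _
  have hI : ∫ s in (0 : ℝ)..t, cA θlo * (t - s) ^ (-(3 / 4) : ℝ) =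
      4 * cA θlo * t ^ (1 / 4 : ℝ) := by
    rw [intervalIntegral.integral_const_mul,
      intervalIntegral.integral_comp_sub_left (fun x => x ^ (-(3 / 4) : ℝ)), sub_self, sub_zero,
      integral_rpow (Or.inl hr)]
    norm_num; ring
  rw [← hI, intervalIntegral.integral_of_le ht,
    ofReal_integral_eq_lintegral_ofReal hi.1 ?_]
  · rfl
  · refine (ae_restrict_iff' measurableSet_Ioc).2 (Filter.Eventually.of_forall fun s hs => ?_)
    exact mul_nonneg (cA_pos hlo).le (rpow_nonneg (by linarith [hs.2]) _)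

lemma measurable_graph {P : ℝ → ℝ → V3 → ℝ≥0∞}
    (hP : Measurable fun q : ℝ × ℝ × V3 => P q.1 q.2.1 q.2.2) (s : ℝ) {ξ : ℝ → ℝ}
    (hξ : Measurable ξ) : Measurable fun v : V3 => P s (ξ (v 0)) v :=
  hP.comp (measurable_const.prodMk ((hξ.comp measurable_coord).prodMk measurable_id))

/-- Gain and loss collected along lines, in the slice norm. -/
lemma line_slice (hg : PinGain) {θlo θ t : ℝ} (hlo : 0 < θlo) (hθ : θlo ≤ θ) (ht0 : 0 ≤ t)
    (ht : t ≤ 1) {U : ℝ → ℝ → V3 → ℝ≥0∞}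
    (hU : Measurable fun q : ℝ × ℝ × V3 => U q.1 q.2.1 q.2.2)
    (hgm : Measurable fun q : ℝ × ℝ × V3 => gainU U q.1 q.2.1 q.2.2)
    (hlm : Measurable fun q : ℝ × ℝ × V3 => lossU U q.1 q.2.1 q.2.2) {M : ℝ≥0∞}
    (hM : ∀ s ∈ Icc 0 t, Sl (gw θ s) M (U s)) {ζ : ℝ → ℝ} {ψ : ℝ → ℝ≥0∞} (hζ : Measurable ζ)
    (hψ : Measurable ψ) :
    ∫⁻ v, ψ (v 0) * gw θ t v * (∫⁻ s in Ioc 0 t,
        gainU U s (ζ (v 0) + s * v 0) v + lossU U s (ζ (v 0) + s * v 0) v) ≤
      lam θlo * ENNReal.ofReal (t ^ (1 / 4 : ℝ)) * (M * M) * ∫⁻ a, ψ a * dec a := by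
  set Z := ∫⁻ a, ψ a * dec a
  set L := ENNReal.ofReal (2 * π) * (D0 * D0) + surface Set.univ * ENNReal.ofReal (cA θlo) * D0
  have hmap : Measurable fun q : V3 × ℝ => (q.2, ζ (q.1 0) + q.2 * q.1 0, q.1) := by fun_prop
  have hsum : Measurable fun q : V3 × ℝ =>
      gainU U q.2 (ζ (q.1 0) + q.2 * q.1 0) q.1 + lossU U q.2 (ζ (q.1 0) + q.2 * q.1 0) q.1 :=
    (hgm.comp hmap).add (hlm.comp hmap)
  have hw : Measurable fun v : V3 => ψ (v 0) * gw θ t v := by fun_prop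
  calc ∫⁻ v, ψ (v 0) * gw θ t v * (∫⁻ s in Ioc 0 t,
        gainU U s (ζ (v 0) + s * v 0) v + lossU U s (ζ (v 0) + s * v 0) v)
      = ∫⁻ v, ∫⁻ s in Ioc 0 t, ψ (v 0) * gw θ t v *
          (gainU U s (ζ (v 0) + s * v 0) v + lossU U s (ζ (v 0) + s * v 0) v) :=
        lintegral_congr fun v => (lintegral_const_mul _ (hsum.comp measurable_prodMk_left)).symm
    _ = ∫⁻ s in Ioc 0 t, ∫⁻ v, ψ (v 0) * gw θ t v *
          (gainU U s (ζ (v 0) + s * v 0) v + lossU U s (ζ (v 0) + s * v 0) v) :=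
        lintegral_lintegral_swap ((hw.comp measurable_fst).mul hsum).aemeasurable
    _ ≤ ∫⁻ s in Ioc 0 t, L * (M * M) * Z * price θlo (t - s) := by
        refine lintegral_mono_ae ((ae_restrict_iff' measurableSet_Ioc).2 ?_)
        filter_upwards [Measure.ae_ne (volume : Measure ℝ) t] with s hne hs
        have hst : s < t := lt_of_le_of_ne hs.2 hne
        have hUs : Measurable (Function.uncurry (U s)) :=
          Measurable.of_uncurry_left (f := fun s (q : ℝ × V3) => U s q.1 q.2) hU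
        have hξ : Measurable fun a : ℝ => ζ a + s * a := by fun_prop
        have hgs : Measurable fun v : V3 =>
            ψ (v 0) * gw θ t v * gainU U s (ζ (v 0) + s * v 0) v :=
          hw.mul (measurable_graph (P := gainU U) hgm s hξ)
        simp only [mul_add]
        rw [lintegral_add_left hgs]
        refine (add_le_add
          (gain_slice hg hlo hθ hs.1.le hst ht hUs (hM s ⟨hs.1.le, hs.2⟩) hξ hψ)
          (loss_slice hlo hθ hs.1.le hst ht hUs (hM s ⟨hs.1.le, hs.2⟩) hξ hψ)).trans_eq ?_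
        simp only [L, Z]; ring
    _ = L * (M * M) * Z * ∫⁻ s in Ioc 0 t, price θlo (t - s) :=
        lintegral_const_mul _ (by unfold price; fun_prop)
    _ = _ := by
        rw [time_price hlo ht0, ENNReal.ofReal_mul (mul_nonneg (by norm_num) (cA_pos hlo).le)]
        simp only [lam, L, Z]; ring

end Vale.Agent.P140.Slab.Local
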