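import Vale.Agent.P140.Slab.LocalEst
import Vale.Agent.P140.Renorm.Existence

/-!
# Picard iteration below a monotone majorant

The iterates take the positive part of the mild formula. The majorants collect gain plus loss;
they increase, and the distance of successive iterates is below their increments, so no
contraction is needed and the slice norm only enters through the majorants.
-/

open MeasureTheory Real Filter Set
open scoped RealInnerProductSpace ENNReal Topology

namespace Vale.Agent.P140.Slab.Local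

open Vale.Agent.P140 Vale.Agent.P140.Renorm

/-- Time-dependent extended nonnegative profiles. -/
abbrev EProf := ℝ → ℝ → V3 → ℝ≥0∞

/-- Joint measurability. -/
def Meas3 (P : EProf) : Prop := Measurable fun q : ℝ × ℝ × V3 => P q.1 q.2.1 q.2.2

/-- The integral along the line that starts at `z`. -/
noncomputable def lineInt (P : EProf) (t z : ℝ) (v : V3) : ℝ≥0∞ :=
  ∫⁻ s in Ioc 0 t, P s (z + s * v 0) v

/-- The extended profiles of a real one. -/
noncomputable def slE (f : ℝ → Prof) : EProf := fun t => sl (f t)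

/-- The majorant map. -/
noncomputable def up (g : Prof) (T : ℝ) (U : EProf) (t y : ℝ) (v : V3) : ℝ≥0∞ :=
  sl g (y - t * v 0) v + (lineInt (gainU U) (Picard.cut T t) (y - t * v 0) v +
    lineInt (lossU U) (Picard.cut T t) (y - t * v 0) v)

/-- The Picard map. -/
noncomputable def stepS (g : Prof) (T : ℝ) (f : ℝ → Prof) (t y : ℝ) (v : V3) : ℝ :=
  max 0 (g (y - t * v 0) v +
    (lineInt (gainU (slE f)) (Picard.cut T t) (y - t * v 0) v).toReal -
    (lineInt (lossU (slE f)) (Picard.cut T t) (y - t * v 0) v).toReal)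

/-- The majorants. -/
noncomputable def upper (g : Prof) (T : ℝ) : ℕ → EProf
  | 0 => fun _ _ _ => 0
  | n + 1 => up g T (upper g T n)

/-- The iterates. -/
noncomputable def iterS (g : Prof) (T : ℝ) : ℕ → ℝ → Prof
  | 0 => fun _ _ _ => 0
  | n + 1 => stepS g T (iterS g T n)

lemma measurable_line {P : EProf} (hP : Meas3 P) (z : ℝ) (v : V3) :
    Measurable fun s => P s (z + s * v 0) v :=
  hP.comp (measurable_id.prodMk
    ((measurable_const.add (measurable_id.mul_const _)).prodMk measurable_const))

lemma meas3_gainU {U : EProf} (hU : Meas3 U) : Meas3 (gainU U) := by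
  have hV : Measurable fun r : (ℝ × ℝ × V3) × (V3 × S2) =>
      (r.1.1, r.1.2.1, postV r.1.2.2 r.2) := by
    unfold postV impact; fun_prop
  have hW : Measurable fun r : (ℝ × ℝ × V3) × (V3 × S2) =>
      (r.1.1, r.1.2.1, postW r.1.2.2 r.2) := by
    unfold postW impact; fun_prop
  have hI : Measurable fun r : (ℝ × ℝ × V3) × (V3 × S2) =>
      ENNReal.ofReal |impact r.1.2.2 r.2| := by
    unfold impact; fun_prop
  exact Measurable.lintegral_prod_right'
    (f := fun r : (ℝ × ℝ × V3) × (V3 × S2) => ENNReal.ofReal |impact r.1.2.2 r.2| *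
      U r.1.1 r.1.2.1 (postV r.1.2.2 r.2) * U r.1.1 r.1.2.1 (postW r.1.2.2 r.2))
    ((hI.mul (hU.comp hV)).mul (hU.comp hW))

lemma meas3_lossU {U : EProf} (hU : Meas3 U) : Meas3 (lossU U) := by
  have hS : Measurable fun r : (ℝ × ℝ × V3) × (V3 × S2) => (r.1.1, r.1.2.1, r.2.1) := by
    fun_prop
  have hI : Measurable fun r : (ℝ × ℝ × V3) × (V3 × S2) =>
      ENNReal.ofReal |impact r.1.2.2 r.2| := by
    unfold impact; fun_prop
  exact hU.mul (Measurable.lintegral_prod_right'
    (f := fun r : (ℝ × ℝ × V3) × (V3 × S2) => ENNReal.ofReal |impact r.1.2.2 r.2| *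
      U r.1.1 r.1.2.1 r.2.1) (hI.mul (hU.comp hS)))

lemma meas3_lineInt {P : EProf} (hP : Meas3 P) : Meas3 (lineInt P) := by
  have hS : MeasurableSet {r : (ℝ × ℝ × V3) × ℝ | r.2 ∈ Ioc 0 r.1.1} :=
    (measurableSet_lt measurable_const measurable_snd).inter
      (measurableSet_le measurable_snd (measurable_fst.comp measurable_fst))
  have hm : Measurable fun r : (ℝ × ℝ × V3) × ℝ =>
      (r.2, r.1.2.1 + r.2 * r.1.2.2 0, r.1.2.2) := by fun_prop
  have h := (((hP.comp hm)).indicator hS).lintegral_prod_right' (ν := (volume : Measure ℝ))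
  unfold Meas3
  convert h using 1
  funext q
  rw [lineInt, ← lintegral_indicator measurableSet_Ioc]
  exact lintegral_congr fun s => rfl

lemma measurable_slE {f : ℝ → Prof} (hf : Measurable fun q : ℝ × ℝ × V3 => f q.1 q.2.1 q.2.2) :
    Meas3 (slE f) := hf.ennreal_ofReal

lemma measurable_back :
    Measurable fun q : ℝ × ℝ × V3 => (q.2.1 - q.1 * q.2.2 0, q.2.2) := by fun_prop

lemma measurable_cut_back (T : ℝ) :
    Measurable fun q : ℝ × ℝ × V3 => (Picard.cut T q.1, q.2.1 - q.1 * q.2.2 0, q.2.2) := by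
  unfold Picard.cut; fun_prop

lemma meas3_up {g : Prof} (hg : Measurable (Function.uncurry g)) (T : ℝ) {U : EProf}
    (hU : Meas3 U) : Meas3 (up g T U) :=
  ((hg.comp measurable_back).ennreal_ofReal).add
    (((meas3_lineInt (meas3_gainU hU)).comp (measurable_cut_back T)).add
      ((meas3_lineInt (meas3_lossU hU)).comp (measurable_cut_back T)))

lemma measurable_stepS {g : Prof} (hg : Measurable (Function.uncurry g)) (T : ℝ) {f : ℝ → Prof}
    (hf : Measurable fun q : ℝ × ℝ × V3 => f q.1 q.2.1 q.2.2) :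
    Measurable fun q : ℝ × ℝ × V3 => stepS g T f q.1 q.2.1 q.2.2 :=
  measurable_const.max (((hg.comp measurable_back).add
    (((meas3_lineInt (meas3_gainU (measurable_slE hf))).comp
      (measurable_cut_back T)).ennreal_toReal)).sub
    (((meas3_lineInt (meas3_lossU (measurable_slE hf))).comp
      (measurable_cut_back T)).ennreal_toReal))

lemma meas3_upper {g : Prof} (hg : Measurable (Function.uncurry g)) (T : ℝ) :
    ∀ n, Meas3 (upper g T n)
  | 0 => measurable_const
  | n + 1 => meas3_up hg T (meas3_upper hg T n)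

lemma measurable_iterS {g : Prof} (hg : Measurable (Function.uncurry g)) (T : ℝ) :
    ∀ n, Measurable fun q : ℝ × ℝ × V3 => iterS g T n q.1 q.2.1 q.2.2
  | 0 => measurable_const
  | n + 1 => measurable_stepS hg T (measurable_iterS hg T n)

lemma up_periodic {g : Prof} {T : ℝ} {U : EProf} (hg : ∀ x v, g (x + 1) v = g x v)
    (hU : ∀ t y v, U t (y + 1) v = U t y v) (t y : ℝ) (v : V3) :
    up g T U t (y + 1) v = up g T U t y v := by
  have e : ∀ s, U s (y - t * v 0 + 1 + s * v 0) = U s (y - t * v 0 + s * v 0) := fun s =>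
    funext fun w => by rw [add_right_comm]; exact hU _ _ _
  simp only [up, lineInt, gainU, lossU, sl, add_sub_right_comm, e, hg]

lemma stepS_periodic {g : Prof} {T : ℝ} {f : ℝ → Prof} (hg : ∀ x v, g (x + 1) v = g x v)
    (hf : ∀ t y v, f t (y + 1) v = f t y v) (t y : ℝ) (v : V3) :
    stepS g T f t (y + 1) v = stepS g T f t y v := by
  have e : ∀ s, slE f s (y - t * v 0 + 1 + s * v 0) = slE f s (y - t * v 0 + s * v 0) := fun s =>
    funext fun w => by simp only [slE, sl]; rw [add_right_comm, hf]
  simp only [stepS, lineInt, gainU, lossU, add_sub_right_comm, e, hg]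

lemma periodic_upper {g : Prof} {T : ℝ} (hg : ∀ x v, g (x + 1) v = g x v) :
    ∀ n t y v, upper g T n t (y + 1) v = upper g T n t y v
  | 0 => fun _ _ _ => rfl
  | n + 1 => up_periodic hg (periodic_upper hg n)

lemma periodic_iterS {g : Prof} {T : ℝ} (hg : ∀ x v, g (x + 1) v = g x v) :
    ∀ n t y v, iterS g T n t (y + 1) v = iterS g T n t y v
  | 0 => fun _ _ _ => rfl
  | n + 1 => stepS_periodic hg (periodic_iterS hg n)

lemma gainU_mono {U U' : EProf} (h : U ≤ U') (s y : ℝ) (v : V3) :
    gainU U s y v ≤ gainU U' s y v := gain_mono (h s y) (h s y) v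

lemma lossU_mono {U U' : EProf} (h : U ≤ U') (s y : ℝ) (v : V3) :
    lossU U s y v ≤ lossU U' s y v := mul_le_mul' (h s y v) (lossRate_mono (h s y) v)

lemma up_mono {g : Prof} {T : ℝ} {U U' : EProf} (h : U ≤ U') : up g T U ≤ up g T U' :=
  fun _ _ v => add_le_add le_rfl (add_le_add (lintegral_mono fun _ => gainU_mono h _ _ v)
    (lintegral_mono fun _ => lossU_mono h _ _ v))

lemma monotone_upper (g : Prof) (T : ℝ) : Monotone (upper g T) := by
  refine monotone_nat_of_le_succ fun n => ?_
  induction n with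
  | zero => intro t y v; exact zero_le
  | succ n ih => exact up_mono ih

/-- The limit majorant. -/
noncomputable def sup (g : Prof) (T : ℝ) : EProf := fun t y v => ⨆ n, upper g T n t y v

lemma upper_le_sup (g : Prof) (T : ℝ) (n : ℕ) : upper g T n ≤ sup g T :=
  fun t y v => le_iSup (fun n => upper g T n t y v) n

lemma meas3_sup {g : Prof} (hg : Measurable (Function.uncurry g)) (T : ℝ) : Meas3 (sup g T) :=
  Measurable.iSup (meas3_upper hg T)

lemma up_sup_le {g : Prof} (hg : Measurable (Function.uncurry g)) (T : ℝ) :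
    up g T (sup g T) ≤ sup g T := by
  intro t y v
  set U := upper g T
  have hm : ∀ n, Meas3 (U n) := meas3_upper hg T
  have hmono : ∀ s x w, Monotone fun n => U n s x w := fun s x w i j hij =>
    monotone_upper g T hij s x w
  have hP : ∀ s x, gainU (sup g T) s x v ≤ ⨆ n, gainU (U n) s x v := by
    intro s x
    have hmn : ∀ n, Measurable fun p : V3 × S2 =>
        ENNReal.ofReal |impact v p| * U n s x (postV v p) * U n s x (postW v p) := fun n => by
      have h : Measurable fun w : V3 => U n s x w :=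
        (hm n).comp (measurable_const.prodMk (measurable_const.prodMk measurable_id))
      fun_prop
    refine le_of_le_of_eq (lintegral_mono fun p => ?_) (lintegral_iSup hmn fun i j hij p =>
      mul_le_mul' (mul_le_mul' le_rfl (hmono _ _ _ hij)) (hmono _ _ _ hij))
    refine (mul_assoc _ _ _).trans_le ((mul_le_mul' le_rfl (Picard.iSup_mul_iSup_le
      (hmono s x (postV v p)) (hmono s x (postW v p)))).trans_eq ?_)
    rw [ENNReal.mul_iSup]
    exact iSup_congr fun n => (mul_assoc _ _ _).symm
  have hQ : ∀ s x, lossU (sup g T) s x v ≤ ⨆ n, lossU (U n) s x v := by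
    intro s x
    have hmn : ∀ n, Measurable fun p : V3 × S2 =>
        ENNReal.ofReal |impact v p| * U n s x p.1 := fun n => by
      have h : Measurable fun w : V3 => U n s x w :=
        (hm n).comp (measurable_const.prodMk (measurable_const.prodMk measurable_id))
      fun_prop
    have e : lossRate (sup g T s x) v = ⨆ n, lossRate (U n s x) v := by
      refine (lintegral_congr fun p => ?_).trans (lintegral_iSup hmn fun i j hij p =>
        mul_le_mul' le_rfl (hmono _ _ _ hij))
      exact ENNReal.mul_iSup ..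
    simp only [lossU, e]
    exact Picard.iSup_mul_iSup_le (hmono s x v) fun i j hij => lossRate_mono
      (fun w => hmono s x w hij) v
  set z := y - t * v 0
  set c := Picard.cut T t
  have hline : ∀ P : EProf → EProf, (∀ n, Meas3 (P (U n))) →
      (∀ i j, i ≤ j → ∀ s x, P (U i) s x v ≤ P (U j) s x v) →
      (∀ s x, P (sup g T) s x v ≤ ⨆ n, P (U n) s x v) →
      lineInt (P (sup g T)) c z v ≤ ⨆ n, lineInt (P (U n)) c z v := fun P hPm hPmono hPle => by
    refine le_of_le_of_eq (lintegral_mono fun s => hPle s (z + s * v 0)) (lintegral_iSup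
      (fun n => measurable_line (hPm n) z v) fun i j hij s => hPmono i j hij _ _)
  have h1 := hline gainU (fun n => meas3_gainU (hm n))
    (fun i j hij s x => gainU_mono (monotone_upper g T hij) s x v) hP
  have h2 := hline lossU (fun n => meas3_lossU (hm n))
    (fun i j hij s x => lossU_mono (monotone_upper g T hij) s x v) hQ
  refine (add_le_add le_rfl ((add_le_add h1 h2).trans_eq
    (ENNReal.iSup_add_iSup_of_monotone ?_ ?_))).trans ?_
  · exact fun i j hij => lintegral_mono fun s => gainU_mono (monotone_upper g T hij) _ _ v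
  · exact fun i j hij => lintegral_mono fun s => lossU_mono (monotone_upper g T hij) _ _ v
  · rw [ENNReal.add_iSup]
    exact iSup_le fun n => upper_le_sup g T (n + 1) t y v

/-- `a - b` is below `A - B`, in a form without subtraction. -/
def Gap (a b : Prof) (A B : ℝ → V3 → ℝ≥0∞) : Prop :=
  ∀ y v, sl a y v ≤ A y v ∧ sl b y v ≤ B y v ∧ B y v ≤ A y v ∧
    ENNReal.ofReal |a y v - b y v| + B y v ≤ A y v

lemma sl_le_add (a b : ℝ) : ENNReal.ofReal a ≤ ENNReal.ofReal b + ENNReal.ofReal |a - b| :=
  (ENNReal.ofReal_le_ofReal (by linarith [le_abs_self (a - b)] : a ≤ b + |a - b|)).trans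
    ENNReal.ofReal_add_le

lemma prod_gap {a1 b1 A1 B1 a2 b2 A2 B2 : ℝ≥0∞} (ha1 : a1 ≤ A1) (ha2 : a2 ≤ A2) (hb1 : b1 ≤ B1)
    (hb2 : b2 ≤ B2) (hB1 : B1 ≤ A1) (hB2 : B2 ≤ A2) (h1 : a1 + B1 ≤ b1 + A1)
    (h2 : a2 + B2 ≤ b2 + A2) (k1 : b1 + B1 ≤ a1 + A1) (k2 : b2 + B2 ≤ a2 + A2) :
    a1 * a2 + B1 * B2 ≤ b1 * b2 + A1 * A2 ∧ b1 * b2 + B1 * B2 ≤ a1 * a2 + A1 * A2 := by
  rcases eq_or_ne (A1 * A2) ⊤ with h | h
  · simp [h]
  rcases eq_or_ne A1 0 with e | e1
  · simp_all
  rcases eq_or_ne A2 0 with e | e2
  · simp_all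
  have hA1 : A1 ≠ ⊤ := fun e => h (by simp [e, e2])
  have hA2 : A2 ≠ ⊤ := fun e => h (by simp [e, e1])
  lift A1 to NNReal using hA1
  lift A2 to NNReal using hA2
  lift B1 to NNReal using ne_top_of_le_ne_top ENNReal.coe_ne_top hB1
  lift B2 to NNReal using ne_top_of_le_ne_top ENNReal.coe_ne_top hB2
  lift a1 to NNReal using ne_top_of_le_ne_top ENNReal.coe_ne_top ha1
  lift a2 to NNReal using ne_top_of_le_ne_top ENNReal.coe_ne_top ha2
  lift b1 to NNReal using ne_top_of_le_ne_top ENNReal.coe_ne_top hb1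
  lift b2 to NNReal using ne_top_of_le_ne_top ENNReal.coe_ne_top hb2
  norm_cast at *
  simp only [← NNReal.coe_le_coe, NNReal.coe_add, NNReal.coe_mul] at *
  constructor
  · nlinarith [mul_le_mul_of_nonneg_right h1 a2.coe_nonneg,
      mul_le_mul_of_nonneg_left h2 b1.coe_nonneg,
      mul_nonneg (sub_nonneg.2 hB1) (sub_nonneg.2 ha2),
      mul_nonneg (sub_nonneg.2 hb1) (sub_nonneg.2 hB2)]
  · nlinarith [mul_le_mul_of_nonneg_right k1 b2.coe_nonneg,
      mul_le_mul_of_nonneg_left k2 a1.coe_nonneg,
      mul_nonneg (sub_nonneg.2 hB1) (sub_nonneg.2 hb2),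
      mul_nonneg (sub_nonneg.2 ha1) (sub_nonneg.2 hB2)]

lemma Gap.le_add {a b : Prof} {A B : ℝ → V3 → ℝ≥0∞} (h : Gap a b A B) (y : ℝ) (v : V3) :
    sl a y v + B y v ≤ sl b y v + A y v ∧ sl b y v + B y v ≤ sl a y v + A y v := by
  obtain ⟨_, _, _, h'⟩ := h y v
  constructor
  · exact (add_le_add (sl_le_add (a y v) (b y v)) le_rfl).trans
      ((add_assoc _ _ _).trans_le (add_le_add le_rfl h'))
  · refine (add_le_add (sl_le_add (b y v) (a y v)) le_rfl).trans
      ((add_assoc _ _ _).trans_le (add_le_add le_rfl ?_))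
    rwa [abs_sub_comm]

lemma gain_gap {a b : Prof} {A B : ℝ → V3 → ℝ≥0∞} (h : Gap a b A B)
    (ha : Measurable (Function.uncurry a)) (hb : Measurable (Function.uncurry b))
    (y : ℝ) (v : V3) :
    gain (sl a y) (sl a y) v + gain (B y) (B y) v ≤
        gain (sl b y) (sl b y) v + gain (A y) (A y) v ∧
      gain (sl b y) (sl b y) v + gain (B y) (B y) v ≤
        gain (sl a y) (sl a y) v + gain (A y) (A y) v := by
  have hsa : Measurable (sl a y) := (ha.comp measurable_prodMk_left).ennreal_ofReal
  have hsb : Measurable (sl b y) := (hb.comp measurable_prodMk_left).ennreal_ofReal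
  unfold gain
  constructor
  · rw [← lintegral_add_left (by fun_prop), ← lintegral_add_left (by fun_prop)]
    refine lintegral_mono fun p => ?_
    simp only [mul_assoc, ← mul_add]
    exact mul_le_mul' le_rfl (prod_gap (h y _).1 (h y _).1 (h y _).2.1 (h y _).2.1
      (h y _).2.2.1 (h y _).2.2.1 (h.le_add y _).1 (h.le_add y _).1 (h.le_add y _).2
      (h.le_add y _).2).1
  · rw [← lintegral_add_left (by fun_prop), ← lintegral_add_left (by fun_prop)]
    refine lintegral_mono fun p => ?_
    simp only [mul_assoc, ← mul_add]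
    exact mul_le_mul' le_rfl (prod_gap (h y _).1 (h y _).1 (h y _).2.1 (h y _).2.1
      (h y _).2.2.1 (h y _).2.2.1 (h.le_add y _).1 (h.le_add y _).1 (h.le_add y _).2
      (h.le_add y _).2).2

lemma loss_gap {a b : Prof} {A B : ℝ → V3 → ℝ≥0∞} (h : Gap a b A B)
    (ha : Measurable (Function.uncurry a)) (hb : Measurable (Function.uncurry b))
    (y : ℝ) (v : V3) :
    sl a y v * lossRate (sl a y) v + B y v * lossRate (B y) v ≤
        sl b y v * lossRate (sl b y) v + A y v * lossRate (A y) v ∧
      sl b y v * lossRate (sl b y) v + B y v * lossRate (B y) v ≤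
        sl a y v * lossRate (sl a y) v + A y v * lossRate (A y) v := by
  have hsa : Measurable (sl a y) := (ha.comp measurable_prodMk_left).ennreal_ofReal
  have hsb : Measurable (sl b y) := (hb.comp measurable_prodMk_left).ennreal_ofReal
  have hl : lossRate (sl a y) v + lossRate (B y) v ≤ lossRate (sl b y) v + lossRate (A y) v ∧
      lossRate (sl b y) v + lossRate (B y) v ≤ lossRate (sl a y) v + lossRate (A y) v := by
    unfold lossRate
    constructor
    · rw [← lintegral_add_left (by fun_prop), ← lintegral_add_left (by fun_prop)]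
      refine lintegral_mono fun p => ?_
      simp only [← mul_add]
      exact mul_le_mul' le_rfl (h.le_add y _).1
    · rw [← lintegral_add_left (by fun_prop), ← lintegral_add_left (by fun_prop)]
      refine lintegral_mono fun p => ?_
      simp only [← mul_add]
      exact mul_le_mul' le_rfl (h.le_add y _).2
  exact prod_gap (h y v).1 (lossRate_mono (fun w => (h y w).1) v) (h y v).2.1
    (lossRate_mono (fun w => (h y w).2.1) v) (h y v).2.2.1
    (lossRate_mono (fun w => (h y w).2.2.1) v) (h.le_add y v).1 hl.1 (h.le_add y v).2 hl.2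

lemma toReal_gap {a b A B : ℝ≥0∞} (hA : A ≠ ⊤) (hB : B ≤ A) (ha : a ≤ A) (hb : b ≤ B)
    (h1 : a + B ≤ b + A) (h2 : b + B ≤ a + A) :
    |a.toReal - b.toReal| ≤ A.toReal - B.toReal := by
  lift A to NNReal using hA
  lift B to NNReal using ne_top_of_le_ne_top ENNReal.coe_ne_top hB
  lift a to NNReal using ne_top_of_le_ne_top ENNReal.coe_ne_top ha
  lift b to NNReal using ne_top_of_le_ne_top ENNReal.coe_ne_top hb
  norm_cast at *
  simp only [← NNReal.coe_le_coe, NNReal.coe_add] at *
  simp only [ENNReal.coe_toReal]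
  rw [abs_le]; constructor <;> linarith

lemma sl_stepS_le (g : Prof) (T : ℝ) (f : ℝ → Prof) (t y : ℝ) (v : V3) :
    sl (stepS g T f t) y v ≤ sl g (y - t * v 0) v +
      lineInt (gainU (slE f)) (Picard.cut T t) (y - t * v 0) v := by
  simp only [sl, stepS]
  set G := lineInt (gainU (slE f)) (Picard.cut T t) (y - t * v 0) v
  set N := lineInt (lossU (slE f)) (Picard.cut T t) (y - t * v 0) v
  rcases max_cases 0 (g (y - t * v 0) v + G.toReal - N.toReal) with ⟨e, _⟩ | ⟨e, _⟩ <;> rw [e]
  · simp
  · refine (ENNReal.ofReal_le_ofReal (by linarith [@ENNReal.toReal_nonneg N] :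
      g (y - t * v 0) v + G.toReal - N.toReal ≤ g (y - t * v 0) v + G.toReal)).trans ?_
    exact ENNReal.ofReal_add_le.trans (add_le_add le_rfl ENNReal.ofReal_toReal_le)

lemma sl_stepS_le_up {g : Prof} {T : ℝ} {f : ℝ → Prof} {A : EProf} (h : slE f ≤ A)
    (t y : ℝ) (v : V3) : sl (stepS g T f t) y v ≤ up g T A t y v :=
  (sl_stepS_le g T f t y v).trans (add_le_add le_rfl
    (le_add_right (lintegral_mono fun _ => gainU_mono h _ _ v)))

/-- The Picard map shrinks a gap to the gap of the majorants. -/
lemma step_gap {g : Prof} (T : ℝ) {a b : ℝ → Prof} {A B : EProf}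
    (hgap : ∀ s, Gap (a s) (b s) (A s) (B s))
    (ha : Measurable fun q : ℝ × ℝ × V3 => a q.1 q.2.1 q.2.2)
    (hb : Measurable fun q : ℝ × ℝ × V3 => b q.1 q.2.1 q.2.2) (t : ℝ) :
    Gap (stepS g T a t) (stepS g T b t) (up g T A t) (up g T B t) := by
  intro y v
  have hA : slE a ≤ A := fun s y v => (hgap s y v).1
  have hB' : slE b ≤ B := fun s y v => (hgap s y v).2.1
  have hBA : B ≤ A := fun s y v => (hgap s y v).2.2.1
  refine ⟨sl_stepS_le_up hA t y v, sl_stepS_le_up hB' t y v, up_mono hBA t y v, ?_⟩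
  rcases eq_or_ne (up g T A t y v) ⊤ with htop | htop
  · rw [htop]; exact le_top
  set z := y - t * v 0
  set c := Picard.cut T t
  obtain ⟨h0, hs⟩ := ENNReal.add_ne_top.1 htop
  obtain ⟨hGA, hLA⟩ := ENNReal.add_ne_top.1 hs
  have hsa : ∀ s, Measurable (Function.uncurry (a s)) := fun s =>
    Measurable.of_uncurry_left (f := fun s (q : ℝ × V3) => a s q.1 q.2) ha
  have hsb : ∀ s, Measurable (Function.uncurry (b s)) := fun s =>
    Measurable.of_uncurry_left (f := fun s (q : ℝ × V3) => b s q.1 q.2) hb
  have hmGa := measurable_line (meas3_gainU (measurable_slE ha)) z v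
  have hmGb := measurable_line (meas3_gainU (measurable_slE hb)) z v
  have hmLa := measurable_line (meas3_lossU (measurable_slE ha)) z v
  have hmLb := measurable_line (meas3_lossU (measurable_slE hb)) z v
  have key : ∀ {P Q R S : ℝ → ℝ≥0∞}, Measurable P → Measurable R → (∀ s, P s + Q s ≤ R s + S s) →
      (∫⁻ s in Ioc 0 c, P s) + (∫⁻ s in Ioc 0 c, Q s) ≤
        (∫⁻ s in Ioc 0 c, R s) + ∫⁻ s in Ioc 0 c, S s := fun hP hR h => by
    rw [← lintegral_add_left hP, ← lintegral_add_left hR]
    exact lintegral_mono h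
  have hG := toReal_gap hGA (lintegral_mono fun _ => gainU_mono hBA _ _ v)
    (lintegral_mono fun _ => gainU_mono hA _ _ v) (lintegral_mono fun _ => gainU_mono hB' _ _ v)
    (key hmGa hmGb fun s => (gain_gap (hgap s) (hsa s) (hsb s) _ v).1)
    (key hmGb hmGa fun s => (gain_gap (hgap s) (hsa s) (hsb s) _ v).2)
  have hL := toReal_gap hLA (lintegral_mono fun _ => lossU_mono hBA _ _ v)
    (lintegral_mono fun _ => lossU_mono hA _ _ v) (lintegral_mono fun _ => lossU_mono hB' _ _ v)
    (key hmLa hmLb fun s => (loss_gap (hgap s) (hsa s) (hsb s) _ v).1)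
    (key hmLb hmLa fun s => (loss_gap (hgap s) (hsa s) (hsb s) _ v).2)
  have hGB : lineInt (gainU B) c z v ≤ lineInt (gainU A) c z v :=
    lintegral_mono fun _ => gainU_mono hBA _ _ v
  have hLB : lineInt (lossU B) c z v ≤ lineInt (lossU A) c z v :=
    lintegral_mono fun _ => lossU_mono hBA _ _ v
  have hd : |stepS g T a t y v - stepS g T b t y v| ≤
      ((lineInt (gainU A) c z v).toReal - (lineInt (gainU B) c z v).toReal) +
        ((lineInt (lossU A) c z v).toReal - (lineInt (lossU B) c z v).toReal) := by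
    refine (abs_max_sub_max_le_max _ _ _ _).trans (max_le ?_ ?_)
    · rw [sub_self, abs_zero]
      linarith [ENNReal.toReal_mono hGA hGB, ENNReal.toReal_mono hLA hLB]
    · refine le_trans (le_of_eq ?_) ((abs_sub _ _).trans (add_le_add hG hL))
      congr 1
      simp only [lineInt]
      ring
  calc ENNReal.ofReal |stepS g T a t y v - stepS g T b t y v| + up g T B t y v
      ≤ ENNReal.ofReal (((lineInt (gainU A) c z v).toReal - (lineInt (gainU B) c z v).toReal) +
          ((lineInt (lossU A) c z v).toReal - (lineInt (lossU B) c z v).toReal)) +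
            up g T B t y v := add_le_add (ENNReal.ofReal_le_ofReal hd) le_rfl
    _ ≤ (lineInt (gainU A) c z v - lineInt (gainU B) c z v +
          (lineInt (lossU A) c z v - lineInt (lossU B) c z v)) + up g T B t y v := by
        refine add_le_add (ENNReal.ofReal_add_le.trans (le_of_eq ?_)) le_rfl
        rw [← ENNReal.toReal_sub_of_le hGB hGA, ← ENNReal.toReal_sub_of_le hLB hLA,
          ENNReal.ofReal_toReal (ne_top_of_le_ne_top hGA tsub_le_self),
          ENNReal.ofReal_toReal (ne_top_of_le_ne_top hLA tsub_le_self)]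
    _ = up g T A t y v := by
        show _ + (sl g z v + (lineInt (gainU B) c z v + lineInt (lossU B) c z v)) =
          sl g z v + (lineInt (gainU A) c z v + lineInt (lossU A) c z v)
        conv_rhs => rw [← tsub_add_cancel_of_le hGB, ← tsub_add_cancel_of_le hLB]
        ring

end Vale.Agent.P140.Slab.Local
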