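import Vale.Agent.P140.Slab.Base

/-!
# Interfaces between the modules of the slab theorem
-/

open MeasureTheory Real Set
open scoped RealInnerProductSpace ENNReal

namespace Vale.Agent.P140.Slab

open Vale.Agent.P140 Vale.Agent.P140.Renorm

/-- `|v|^2`. -/
noncomputable def sqn (v : V3) : ℝ≥0∞ := ENNReal.ofReal (‖v‖ ^ 2)

/-- `1 + |v|`. -/
noncomputable def lin (v : V3) : ℝ≥0∞ := ENNReal.ofReal (1 + ‖v‖)

/-- The interval swept by the first component of a velocity after collision. -/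
noncomputable def hitSet (v u : V3) : Set ℝ :=
  Icc ((v 0 + u 0) / 2 - ‖v - u‖ / 2) ((v 0 + u 0) / 2 + ‖v - u‖ / 2)

/-- A. Angular projection: `|a| dω` pushes `a ω₀` to `2π ds` on an interval of length `|d|`. -/
def PinProj : Prop :=
  ∀ (d : V3) (Φ : ℝ → ℝ≥0∞), Measurable Φ →
    ∫⁻ ω : S2, ENNReal.ofReal |⟪d, (ω : V3)⟫| * Φ (⟪d, (ω : V3)⟫ * (ω : V3) 0) ∂surface =
      ENNReal.ofReal (2 * π) * ∫⁻ s in Icc (d 0 / 2 - ‖d‖ / 2) (d 0 / 2 + ‖d‖ / 2), Φ s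

/-- A. The gain along a graph over the first velocity component. -/
def PinGain : Prop :=
  ∀ (W : V3 → ℝ≥0∞) (K : ℝ → V3 → V3 → ℝ≥0∞) (h : ℝ → V3 → ℝ≥0∞), Measurable W →
    Measurable (fun q : ℝ × V3 × V3 => K q.1 q.2.1 q.2.2) → Measurable (Function.uncurry h) →
    (∀ v p, W (postV v p) ≤ K (postV v p 0) v p.1) →
      ∫⁻ v, W v * gain (h (v 0)) (h (v 0)) v ≤ ENNReal.ofReal (2 * π) *
        ∫⁻ s, ∫⁻ v, ∫⁻ u, (hitSet v u).indicator (fun s => K s v u * h s v * h s u) s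

/-- B. Short-time solutions with a lifespan that depends only on the rate and the norm. -/
def PinLocal : Prop :=
  ∀ (θlo : ℝ) (C : ℝ≥0∞), 0 < θlo → C ≠ ⊤ → ∃ σ : ℝ, 0 < σ ∧
    ∀ (θ : ℝ) (g : Prof), θlo ≤ θ → Measurable (Function.uncurry g) → (∀ x v, 0 ≤ g x v) →
      (∀ x v, g (x + 1) v = g x v) → SliceLE (gw θ 0) C g →
      ∃ h : ℝ → Prof, IsSlabSol θ σ h ∧ (∀ x v, h 0 x v ≤ g x v) ∧
        ∀ᵐ q : ℝ × V3, h 0 q.1 q.2 = g q.1 q.2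

/-- B. Gluing. -/
def PinGlue : Prop :=
  ∀ (θ T σ : ℝ) (f h : ℝ → Prof), 0 < θ → 0 ≤ T → 0 ≤ σ → IsSlabSol θ T f →
    IsSlabSol (theta θ T) σ h → (∀ x v, h 0 x v ≤ f T x v) →
    (∀ᵐ q : ℝ × V3, h 0 q.1 q.2 = f T q.1 q.2) →
    ∃ k : ℝ → Prof, IsSlabSol θ (T + σ) k ∧ k 0 = f 0

/-- C. The collision count up to a time is bounded by entropy, dissipation, mass and energy. -/
def PinCount : Prop :=
  ∀ (T : ℝ) (C₀ : ℝ≥0∞), 0 ≤ T → C₀ ≠ ⊤ → ∃ K : ℝ≥0∞, K ≠ ⊤ ∧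
    ∀ (θ T' : ℝ) (f : ℝ → Prof), 0 < θ → T' ∈ Icc 0 T → IsSlabSol θ T' f →
      (∀ t ∈ Icc 0 T', xint (fun _ => 1) (f t) ≤ C₀ ∧ xint sqn (f t) ≤ C₀ ∧ slabEnt (f t) ≤ C₀) →
      (∫⁻ t in Icc 0 T', slabDiss (f t)) ≤ C₀ →
      (∫⁻ t in Ioc 0 T', nrate (f t)) ≤ K

/-- D. Gain landing at a point: particles that land at once cost the envelope, the others cost a
moment of one order more. -/
def PinLand : Prop :=
  ∀ (θ T : ℝ) (f : ℝ → Prof) (W κ : V3 → ℝ≥0∞), 0 < θ → IsSlabSol θ T f → Measurable W →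
    Measurable κ →
    (∀ v u q : V3, ‖v‖ ≤ ‖u‖ → ‖q‖ ^ 2 ≤ ‖v‖ ^ 2 + ‖u‖ ^ 2 → W q ≤ κ v * W u) →
    ∀ (ε t₀ t₁ t x : ℝ) (Z : ℝ≥0∞), 0 < ε → ε ≤ 1 → 0 ≤ t₀ → t₀ ≤ t₁ → t₁ ≤ T → 0 ≤ t →
      (∀ s ∈ Ioc t₀ (min t₁ t), ∀ᵐ y : ℝ, mom κ (f s) y ≤ Z) →
      landGain W f t₀ t₁ t x ≤ 256 * Z *
        (ENNReal.ofReal ε * (⨆ x' : ℝ, ∫⁻ v, W v * env f t₁ t x' v) +
          ENNReal.ofReal ε⁻¹ *
            ∫⁻ s in Ioc t₀ (min t₁ t), xint (fun v => lin v * W v) (f s))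

/-- D. The density stays bounded while the collision count is. -/
def PinDensity : Prop :=
  ∀ (T : ℝ) (C₀ K A : ℝ≥0∞), 0 ≤ T → C₀ ≠ ⊤ → K ≠ ⊤ → A ≠ ⊤ → ∃ B : ℝ≥0∞, B ≠ ⊤ ∧
    ∀ (θ T' : ℝ) (f : ℝ → Prof), 0 < θ → T' ∈ Icc 0 T → IsSlabSol θ T' f →
      (∀ t ∈ Icc 0 T', xint (fun _ => 1) (f t) ≤ C₀ ∧ xint sqn (f t) ≤ C₀) →
      (∫⁻ t in Ioc 0 T', nrate (f t)) ≤ K →
      landSup one f T 0 ≤ A → landSup one f T T' ≤ B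

end Vale.Agent.P140.Slab
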