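import Vale.Agent.P140.Slab.Excess
import Vale.Agent.P140.Renorm.Estimates

/-!
# Polynomial moments under a density bound

The second moment along landing lines is linear in the time integral of the third global moment, and
the fourth global moment is then quadratic in it, so that this integral satisfies a linear Gronwall
inequality.
-/

open MeasureTheory Real Set Filter
open scoped RealInnerProductSpace ENNReal

namespace Vale.Agent.P140.Slab

open Vale.Agent.P140 Vale.Agent.P140.Renorm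

/-- `1 + |v|^2`. -/
noncomputable def wq (v : V3) : ℝ≥0∞ := ENNReal.ofReal (1 + ‖v‖ ^ 2)

/-- `(1 + |v|^2)^2`. -/
noncomputable def wq2 (v : V3) : ℝ≥0∞ := ENNReal.ofReal ((1 + ‖v‖ ^ 2) ^ 2)

/-- `(1 + |v|) (1 + |v|^2)`. -/
noncomputable def lw (v : V3) : ℝ≥0∞ := lin v * wq v

lemma measurable_lin : Measurable lin := by unfold lin; fun_prop
lemma measurable_wq : Measurable wq := by unfold wq; fun_prop
lemma measurable_wq2 : Measurable wq2 := by unfold wq2; fun_prop
lemma measurable_lw : Measurable lw := measurable_lin.mul measurable_wq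

lemma wq_le_pow (v : V3) : wq v ≤ ENNReal.ofReal ((1 + ‖v‖) ^ 4) := by
  refine ENNReal.ofReal_le_ofReal ?_
  have h := norm_nonneg v
  nlinarith [sq_nonneg ‖v‖, mul_nonneg h h, mul_nonneg (mul_nonneg h h) h,
    mul_nonneg (mul_nonneg h h) (mul_nonneg h h)]

lemma wq2_le_pow (v : V3) : wq2 v ≤ ENNReal.ofReal ((1 + ‖v‖) ^ 4) := by
  refine ENNReal.ofReal_le_ofReal ?_
  rw [show (1 + ‖v‖) ^ 4 = ((1 + ‖v‖) ^ 2) ^ 2 by ring]
  exact pow_le_pow_left₀ (by positivity) (by nlinarith [norm_nonneg v]) 2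

lemma lw_le_pow (v : V3) : lw v ≤ ENNReal.ofReal ((1 + ‖v‖) ^ 3) := by
  rw [lw, lin, wq, ← ENNReal.ofReal_mul (by positivity)]
  refine ENNReal.ofReal_le_ofReal ?_
  nlinarith [norm_nonneg v, sq_nonneg ‖v‖, mul_nonneg (norm_nonneg v) (sq_nonneg ‖v‖)]

lemma xint_add {g : Prof} (hg : Measurable (Function.uncurry g)) {U V : V3 → ℝ≥0∞}
    (hU : Measurable U) : xint (fun v => U v + V v) g = xint U g + xint V g := by
  unfold xint
  rw [← lintegral_add_left (measurable_mom hg hU)]
  refine lintegral_congr fun y => ?_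
  unfold mom
  rw [← lintegral_add_left (f := fun v => U v * sl g y v) (hU.mul (measurable_sl_at hg y))]
  exact lintegral_congr fun v => add_mul _ _ _

lemma xint_const_mul {g : Prof} (hg : Measurable (Function.uncurry g)) (c : ℝ≥0∞)
    {U : V3 → ℝ≥0∞} (hU : Measurable U) : xint (fun v => c * U v) g = c * xint U g := by
  unfold xint
  rw [← lintegral_const_mul _ (measurable_mom hg hU)]
  refine lintegral_congr fun y => ?_
  unfold mom
  rw [← lintegral_const_mul c (f := fun v => U v * sl g y v) (hU.mul (measurable_sl_at hg y))]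
  exact lintegral_congr fun v => mul_assoc _ _ _

lemma xint_mono {g : Prof} {U V : V3 → ℝ≥0∞} (h : ∀ v, U v ≤ V v) : xint U g ≤ xint V g :=
  lintegral_mono fun _ => lintegral_mono fun v => mul_le_mul' (h v) le_rfl

variable {θ T : ℝ} {f : ℝ → Prof}

lemma measurable_xint (h : IsSlabSol θ T f) {W : ℝ → V3 → ℝ≥0∞}
    (hW : Measurable (Function.uncurry W)) : Measurable fun s => xint (W s) (f s) := by
  have h1 : Measurable fun w : ℝ × ℝ × V3 => W w.1 w.2.2 * sl (f w.1) w.2.1 w.2.2 :=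
    (hW.comp (measurable_fst.prodMk (measurable_snd.comp measurable_snd))).mul
      h.measurable.ennreal_ofReal
  have h2 : Measurable fun w : ℝ × ℝ => mom (W w.1) (f w.1) w.2 :=
    Measurable.lintegral_prod_right' (f := fun w : (ℝ × ℝ) × V3 =>
      W w.1.1 w.2 * sl (f w.1.1) w.1.2 w.2)
      (h1.comp (f := fun w : (ℝ × ℝ) × V3 => (w.1.1, w.1.2, w.2)) (by fun_prop))
  exact Measurable.lintegral_prod_right' (f := fun w : ℝ × ℝ => mom (W w.1) (f w.1) w.2) h2

/-- The time integral of a global moment below the current Gaussian is finite. -/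
lemma xint_integral_finite (h : IsSlabSol θ T f) {W : ℝ → V3 → ℝ≥0∞}
    {c : ℝ≥0∞} (hc : c ≠ ⊤) (hW : ∀ s ∈ Ioc 0 T, ∀ v, W s v ≤ c * gw θ s v) :
    (∫⁻ s in Ioc 0 T, xint (W s) (f s)) ≠ ⊤ := by
  obtain ⟨K, hK, hKb⟩ := mom_bdd_gw h
  refine ne_top_of_le_ne_top (b := ∫⁻ _ in Ioc 0 T, c * K) ?_
    (lintegral_mono_ae ((ae_restrict_iff' measurableSet_Ioc).2
      (Eventually.of_forall fun s hs => ?_)))
  · rw [setLIntegral_const]
    exact ENNReal.mul_ne_top (ENNReal.mul_ne_top hc hK) measure_Ioc_lt_top.ne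
  refine le_trans (lintegral_mono fun y => ?_) (b := ∫⁻ _ in Ioc (0 : ℝ) 1, c * K) (by simp)
  exact (mom_le_mul (V := gw θ s) (measurable_gexp _) (h.measurable_time s) (hW s hs) y).trans
    (mul_le_mul' le_rfl (hKb s (Ioc_subset_Icc_self hs) y))

lemma wq2_excess (v : V3) (p : V3 × S2) :
    wq2 (postV v p) + wq2 (postW v p) ≤
      wq2 v + wq2 p.1 + ENNReal.ofReal (2 * (‖v‖ ^ 2 * ‖p.1‖ ^ 2)) := by
  simp only [wq2]
  rw [← ENNReal.ofReal_add (sq_nonneg _) (sq_nonneg _),
    ← ENNReal.ofReal_add (sq_nonneg _) (sq_nonneg _),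
    ← ENNReal.ofReal_add (by positivity) (by positivity)]
  refine ENNReal.ofReal_le_ofReal ?_
  have e := energy_post v p
  nlinarith [mul_nonneg (sq_nonneg ‖postV v p‖) (sq_nonneg ‖postW v p‖)]

lemma pair_weight_le (v u : V3) :
    ENNReal.ofReal (‖v‖ + ‖u‖) * ENNReal.ofReal (2 * (‖v‖ ^ 2 * ‖u‖ ^ 2)) ≤
      2 * (lw v * wq u + wq v * lw u) := by
  simp only [lw, lin, wq]
  rw [← ENNReal.ofReal_mul (by positivity), ← ENNReal.ofReal_mul (by positivity),
    ← ENNReal.ofReal_mul (by positivity), ← ENNReal.ofReal_mul (by positivity),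
    ← ENNReal.ofReal_mul (by positivity), ← ENNReal.ofReal_add (by positivity) (by positivity)]
  refine le_trans (ENNReal.ofReal_le_ofReal (q := 2 * ((1 + ‖v‖) * (1 + ‖v‖ ^ 2) * (1 + ‖u‖ ^ 2) +
      (1 + ‖v‖ ^ 2) * ((1 + ‖u‖) * (1 + ‖u‖ ^ 2)))) ?_)
    (by rw [ENNReal.ofReal_mul zero_le_two, ENNReal.ofReal_ofNat])
  have hv := norm_nonneg v
  have hu := norm_nonneg u
  have h1 : ‖v‖ ^ 2 * ‖u‖ ^ 2 ≤ (1 + ‖v‖ ^ 2) * (1 + ‖u‖ ^ 2) :=
    mul_le_mul (by linarith) (by linarith) (sq_nonneg _) (by positivity)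
  nlinarith [mul_le_mul_of_nonneg_left h1 (add_nonneg hv hu),
    mul_nonneg (sq_nonneg ‖v‖) (sq_nonneg ‖u‖)]

lemma lw_le_split {η : ℝ} (hη : 0 < η) (v : V3) :
    lw v ≤ ENNReal.ofReal η * wq2 v + ENNReal.ofReal η⁻¹ * wq v := by
  simp only [lw, lin, wq, wq2]
  rw [← ENNReal.ofReal_mul (by positivity), ← ENNReal.ofReal_mul hη.le,
    ← ENNReal.ofReal_mul (by positivity), ← ENNReal.ofReal_add (by positivity) (by positivity)]
  refine ENNReal.ofReal_le_ofReal ?_
  set r := ‖v‖
  have hw : 0 < 1 + r ^ 2 := by positivity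
  have hη2 : η * η⁻¹ = 1 := mul_inv_cancel₀ hη.ne'
  have hi : 0 < η⁻¹ := inv_pos.2 hη
  have key : 1 + r ≤ η * (1 + r ^ 2) + η⁻¹ := by
    nlinarith [sq_nonneg (2 * η * (1 + r ^ 2) - (1 + r)), sq_nonneg (r - 1), mul_pos hη hw,
      mul_pos hi hw, sq_nonneg (η * (1 + r ^ 2) - η⁻¹)]
  nlinarith [mul_le_mul_of_nonneg_right key hw.le]

/-- The time integral of the third global moment is bounded. -/
theorem poly_bound (hP : PinGain) (hL : PinLand) (T : ℝ) (C₀ B A M : ℝ≥0∞) (hT : 0 ≤ T)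
    (hC : C₀ ≠ ⊤) (hB : B ≠ ⊤) (hA : A ≠ ⊤) (hM : M ≠ ⊤) :
    ∃ G : ℝ≥0∞, G ≠ ⊤ ∧ ∀ (θ T' : ℝ) (f : ℝ → Prof), 0 < θ → T' ∈ Icc 0 T →
      IsSlabSol θ T' f → xint (fun _ => 1) (f 0) ≤ C₀ → xint sqn (f 0) ≤ C₀ →
      landSup one f T T' ≤ B → landSup (fun _ => wq) f T 0 ≤ A → xint wq2 (f 0) ≤ M →
      (∫⁻ s in Ioc 0 T', xint lw (f s)) ≤ G := by
  set ε : ℝ := 1 / (1024 * (B.toReal + 1)) with hεdef
  have hε : 0 < ε := by positivity
  have hε1 : ε ≤ 1 := by
    rw [hεdef, div_le_one (by positivity)]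
    nlinarith [ENNReal.toReal_nonneg (a := B)]
  set CB := 2 * (256 * (2 * B) * ENNReal.ofReal ε⁻¹) with hCB
  set S := surface (univ : Set S2) with hS
  set P := M + 2 * S * (2 * A + CB) + (2 * C₀) with hPdef
  have hCB' : CB ≠ ⊤ := by simp [hCB, ENNReal.mul_eq_top, hB]
  have hPt : P ≠ ⊤ := by
    simp [hPdef, ENNReal.mul_eq_top, hM, hA, hCB', hC, measure_ne_top surface univ, hS]
  set p := P.toReal
  set bound := 2 * p * T * exp (2 * p * T) with hbound
  refine ⟨P * (1 + ENNReal.ofReal bound) * ENNReal.ofReal T, ENNReal.mul_ne_top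
    (ENNReal.mul_ne_top hPt (ENNReal.add_ne_top.2 ⟨ENNReal.one_ne_top, ENNReal.ofReal_ne_top⟩))
    ENNReal.ofReal_ne_top, ?_⟩
  intro θ T' f hθ hT' h hm he hBs hA0 hM0
  set G : ℝ → ℝ≥0∞ := fun t => ∫⁻ s in Ioc 0 t, xint lw (f s) with hGdef
  set ρ := theta θ T' / 2
  have hρ0 : 0 ≤ ρ := (half_pos (theta_pos hθ T')).le
  have hρ : ρ < theta θ T' := half_lt_self (theta_pos hθ T')
  obtain ⟨c, hc, hcb⟩ := pow_le_gexp (half_pos (theta_pos hθ T')) 5
  have hwq : ∀ v, wq v ≤ c * gexp ρ v := fun v => (wq_le_pow v).trans (le_trans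
    (ENNReal.ofReal_le_ofReal (pow_le_pow_right₀ (by linarith [norm_nonneg v]) (by norm_num)))
    (hcb v))
  have hgw : ∀ s ≤ T', ∀ v, gexp ρ v ≤ gw θ s v := fun s hs v =>
    (gexp_mono hρ.le v).trans (gexp_le_gw hθ.le hs v)
  have hwq2 : ∀ s ≤ T', ∀ v, wq2 v * lin v ≤ c * gw θ s v := fun s hs v => by
    refine le_trans ((mul_le_mul' (wq2_le_pow v) le_rfl).trans (le_trans ?_ (hcb v)))
      (mul_le_mul' le_rfl (hgw s hs v))
    simp only [lin]
    rw [← ENNReal.ofReal_mul (by positivity)]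
    exact le_of_eq (by ring_nf)
  have hGtop : G T' ≠ ⊤ := xint_integral_finite h (W := fun _ => lw) hc
    (fun s hs v => ((lw_le_pow v).trans (le_trans (ENNReal.ofReal_le_ofReal
      (pow_le_pow_right₀ (by linarith [norm_nonneg v]) (by norm_num))) (hcb v))).trans
        (mul_le_mul' le_rfl (hgw s hs.2 v)))
  have hGmono : ∀ {a b : ℝ}, a ≤ b → G a ≤ G b := fun hab =>
    lintegral_mono_set (Ioc_subset_Ioc le_rfl hab)
  obtain ⟨K, hK, hKl⟩ := landSup_lipschitz hP hθ h (W := fun _ => wq) (ρ := fun _ => ρ) (δ := ρ)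
    (T₀ := T) (half_pos (theta_pos hθ T')) (fun _ _ => hρ0)
    (fun t _ => (le_of_eq (add_halves _)).trans (theta_ge hθ.le (min_le_left _ _))) hc
    (fun _ => measurable_wq) (fun _ _ v => hwq v)
  have hY : ∀ t ∈ Icc 0 T', landSup (fun _ => wq) f T t ≤ 2 * A + CB * G t := by
    intro t ht
    have hYt : landSup (fun _ => wq) f T t ≠ ⊤ := ne_top_of_le_ne_top
      (ENNReal.add_ne_top.2 ⟨ne_top_of_le_ne_top hA hA0,
        ENNReal.mul_ne_top hK ENNReal.ofReal_ne_top⟩) (hKl 0 t le_rfl ht.1 ht.2)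
    set Y := landSup (fun _ => wq) f T t with hYdef
    have hstep : Y ≤ A + (ENNReal.ofReal (1 / 2) * Y + 256 * (2 * B) * ENNReal.ofReal ε⁻¹ * G t) := by
      refine (landSup_le_add h.measurable (fun _ => measurable_wq) fun t' ht' x => ?_).trans
        (add_le_add hA0 le_rfl)
      refine (hL θ T' f wq (fun _ => 2) hθ h measurable_wq measurable_const ?_ ε 0 t t' x (2 * B)
        hε hε1 le_rfl ht.1 ht.2 ht'.1 fun s hs => Eventually.of_forall fun y => ?_).trans ?_
      · intro v u q hvu hq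
        simp only [wq]
        refine le_trans (ENNReal.ofReal_le_ofReal (q := 2 * (1 + ‖u‖ ^ 2)) ?_)
          (by rw [ENNReal.ofReal_mul zero_le_two, ENNReal.ofReal_ofNat])
        nlinarith [norm_nonneg v]
      · have hsT : s ∈ Icc 0 T' :=
          ⟨hs.1.le, hs.2.trans ((min_le_left _ _).trans ht.2)⟩
        have e : mom (fun _ => (2 : ℝ≥0∞)) (f s) y = 2 * mom (one s) (f s) y := by
          simp [mom, one, lintegral_const_mul' _ _ ENNReal.ofNat_ne_top]
        rw [e]
        exact mul_le_mul' le_rfl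
          ((mom_le_landSup h hsT (hsT.2.trans hT'.2) hsT.2 y).trans hBs)
      rw [mul_add, ← mul_assoc (256 * (2 * B)), ← mul_assoc (256 * (2 * B))]
      refine add_le_add (mul_le_mul' ?_ (iSup_le fun x' =>
        lintegral_env_le_landSup (W := fun _ => wq) ht' t x'))
        (mul_le_mul' le_rfl (lintegral_mono_set (Ioc_subset_Ioc le_rfl (min_le_left _ _))))
      rw [← ENNReal.ofReal_toReal hB, show (256 : ℝ≥0∞) = ENNReal.ofReal 256 by simp,
        show (2 : ℝ≥0∞) = ENNReal.ofReal 2 by simp, ← ENNReal.ofReal_mul (by norm_num),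
        ← ENNReal.ofReal_mul (by norm_num), ← ENNReal.ofReal_mul (by positivity)]
      refine ENNReal.ofReal_le_ofReal ?_
      rw [hεdef, mul_one_div, div_le_div_iff₀ (by positivity) (by norm_num)]
      nlinarith [ENNReal.toReal_nonneg (a := B)]
    have h2 : 2 * Y ≤ (2 * A + CB * G t) + Y := by
      calc 2 * Y ≤ 2 * (A + (ENNReal.ofReal (1 / 2) * Y +
            256 * (2 * B) * ENNReal.ofReal ε⁻¹ * G t)) := mul_le_mul' le_rfl hstep
        _ = (2 * A + CB * G t) + (2 * ENNReal.ofReal (1 / 2)) * Y := by rw [hCB]; ring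
        _ = _ := by
            rw [show (2 : ℝ≥0∞) * ENNReal.ofReal (1 / 2) = 1 by
              rw [show (2 : ℝ≥0∞) = ENNReal.ofReal 2 by simp, ← ENNReal.ofReal_mul (by norm_num)]
              norm_num, one_mul]
    rw [two_mul] at h2
    exact (ENNReal.add_le_add_iff_right hYt).1 h2
  have hM4 : ∀ t ∈ Icc 0 T', xint wq2 (f t) ≤ (M + 2 * S * (2 * A + CB)) * (1 + G t) ^ 2 := by
    intro t ht
    set Y := landSup (fun _ => wq) f T t with hYdef
    have hex := excess hθ h (a := fun _ => wq2) (b := fun _ _ => 0)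
      (D := fun _ v u => ENNReal.ofReal (2 * (‖v‖ ^ 2 * ‖u‖ ^ 2))) hc
      (measurable_wq2.comp measurable_snd) measurable_const (fun _ => by fun_prop) ht
      (fun s hs => hwq2 s (hs.2.trans ht.2)) (fun s _ v => by simp) (fun _ _ => wq2_excess)
    have hD : (∫⁻ s in Ioc 0 t, ∫⁻ y in Ioc (0 : ℝ) 1, ∫⁻ v, ∫⁻ u, ENNReal.ofReal (‖v‖ + ‖u‖) *
        ENNReal.ofReal (2 * (‖v‖ ^ 2 * ‖u‖ ^ 2)) * sl (f s) y v * sl (f s) y u) ≤
        4 * Y * G t := by
      rw [hGdef, ← lintegral_const_mul _ (measurable_xint h (W := fun _ => lw)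
        (measurable_lw.comp measurable_snd))]
      refine lintegral_mono_ae ((ae_restrict_iff' measurableSet_Ioc).2
        (Eventually.of_forall fun s hs => ?_))
      have hsm := h.measurable_time s
      have hsT : s ∈ Icc 0 T' := ⟨hs.1.le, hs.2.trans ht.2⟩
      unfold xint
      rw [← lintegral_const_mul _ (measurable_mom hsm measurable_lw)]
      refine lintegral_mono fun y => ?_
      set g := sl (f s) y
      have hgm : Measurable g := measurable_sl_at hsm y
      have m1 : Measurable fun v => lw v * g v := measurable_lw.mul hgm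
      have m2 : Measurable fun v => wq v * g v := measurable_wq.mul hgm
      calc ∫⁻ v, ∫⁻ u, ENNReal.ofReal (‖v‖ + ‖u‖) *
              ENNReal.ofReal (2 * (‖v‖ ^ 2 * ‖u‖ ^ 2)) * g v * g u
          ≤ ∫⁻ v, ∫⁻ u, (2 * (lw v * g v) * (wq u * g u) + 2 * (wq v * g v) * (lw u * g u)) :=
            lintegral_mono fun v => lintegral_mono fun u =>
              (mul_le_mul' (mul_le_mul' (pair_weight_le v u) le_rfl) le_rfl).trans_eq (by ring)
        _ = 4 * mom wq (f s) y * mom lw (f s) y := by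
            have e : ∀ v, ∫⁻ u, (2 * (lw v * g v) * (wq u * g u) +
                2 * (wq v * g v) * (lw u * g u)) =
                2 * mom wq (f s) y * (lw v * g v) + 2 * mom lw (f s) y * (wq v * g v) := fun v => by
              rw [lintegral_add_left (m2.const_mul _), lintegral_const_mul _ m2,
                lintegral_const_mul _ m1]
              simp only [mom]
              ring
            rw [lintegral_congr e, lintegral_add_left (m1.const_mul _), lintegral_const_mul _ m1,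
              lintegral_const_mul _ m2]
            simp only [mom]
            ring
        _ ≤ _ := mul_le_mul' (mul_le_mul' le_rfl
            (mom_le_landSup (W := fun _ => wq) h hsT (hsT.2.trans hT'.2) hs.2 y)) le_rfl
    have h1 : 2 * xint wq2 (f t) ≤ 2 * (M + 2 * S * Y * G t) := by
      refine le_trans (mul_le_mul' le_rfl le_self_add) (hex.trans ?_)
      calc 2 * xint wq2 (f 0) + S * _ ≤ 2 * M + S * (4 * Y * G t) :=
            add_le_add (mul_le_mul' le_rfl hM0) (mul_le_mul' le_rfl hD)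
        _ = _ := by ring
    refine ((ENNReal.mul_le_mul_iff_right two_ne_zero ENNReal.ofNat_ne_top).1 h1).trans ?_
    have g1 : G t ≤ 1 + G t := le_add_self
    have g2 : (1 : ℝ≥0∞) ≤ 1 + G t := le_self_add
    calc M + 2 * S * Y * G t ≤ M * (1 + G t) ^ 2 +
          2 * S * ((2 * A + CB) * (1 + G t)) * (1 + G t) := by
          refine add_le_add (le_mul_of_one_le_right' (one_le_pow₀ g2))
            (mul_le_mul' (mul_le_mul' le_rfl ((hY t ht).trans ?_)) g1)
          calc 2 * A + CB * G t ≤ 2 * A * (1 + G t) + CB * (1 + G t) :=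
                add_le_add (le_mul_of_one_le_right' g2) (mul_le_mul' le_rfl g1)
            _ = _ := (add_mul _ _ _).symm
      _ = _ := by ring
  have hJ : ∀ t ∈ Icc 0 T', xint lw (f t) ≤ P * (1 + G t) := by
    intro t ht
    have hg : 1 + G t ≠ ⊤ := ENNReal.add_ne_top.2
      ⟨ENNReal.one_ne_top, ne_top_of_le_ne_top hGtop (hGmono ht.2)⟩
    set η := ((1 + G t).toReal)⁻¹ with hη
    have hpos : 0 < (1 + G t).toReal := ENNReal.toReal_pos
      (ne_of_gt (lt_of_lt_of_le zero_lt_one le_self_add)) hg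
    have hη0 : 0 < η := inv_pos.2 hpos
    have e1 : ENNReal.ofReal η = (1 + G t)⁻¹ := by
      rw [hη, ENNReal.ofReal_inv_of_pos hpos, ENNReal.ofReal_toReal hg]
    have e2 : ENNReal.ofReal η⁻¹ = 1 + G t := by
      rw [hη, inv_inv, ENNReal.ofReal_toReal hg]
    have hwsum : xint wq (f t) ≤ 2 * C₀ := by
      have : wq = fun v => (1 : ℝ≥0∞) + sqn v := funext fun v => by
        simp only [wq, sqn]
        rw [ENNReal.ofReal_add zero_le_one (sq_nonneg _), ENNReal.ofReal_one]
      rw [this, xint_add (h.measurable_time t) measurable_const, xint_one_const hθ h ht,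
        xint_sqn_const hθ h ht, two_mul]
      exact add_le_add hm he
    calc xint lw (f t) ≤ xint (fun v => ENNReal.ofReal η * wq2 v + ENNReal.ofReal η⁻¹ * wq v) (f t) :=
          xint_mono (lw_le_split hη0)
      _ = ENNReal.ofReal η * xint wq2 (f t) + ENNReal.ofReal η⁻¹ * xint wq (f t) := by
          rw [xint_add (h.measurable_time t) (measurable_wq2.const_mul _),
            xint_const_mul (h.measurable_time t) _ measurable_wq2,
            xint_const_mul (h.measurable_time t) _ measurable_wq]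
      _ ≤ (1 + G t)⁻¹ * ((M + 2 * S * (2 * A + CB)) * (1 + G t) ^ 2) + (1 + G t) * (2 * C₀) := by
          rw [e1, e2]
          exact add_le_add (mul_le_mul' le_rfl (hM4 t ht)) (mul_le_mul' le_rfl hwsum)
      _ = (M + 2 * S * (2 * A + CB)) * ((1 + G t)⁻¹ * (1 + G t)) * (1 + G t) +
            (1 + G t) * (2 * C₀) := by ring
      _ = _ := by
          rw [ENNReal.inv_mul_cancel (ne_of_gt (lt_of_lt_of_le zero_lt_one le_self_add)) hg,
            hPdef]
          ring
  have hp : ENNReal.ofReal p = P := ENNReal.ofReal_toReal hPt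
  have hint : ∀ t ∈ Icc 0 T', G t ≤ ∫⁻ s in Ioc 0 t, (P * G s + P) := fun t ht =>
    lintegral_mono_ae ((ae_restrict_iff' measurableSet_Ioc).2
      (Eventually.of_forall fun s hs => (hJ s ⟨hs.1.le, hs.2.trans ht.2⟩).trans_eq (by ring)))
  have hgr := gronwall_bound (y := G) (b := p) (c := p) hT'.1 ENNReal.toReal_nonneg
    ENNReal.toReal_nonneg hGtop (fun t ht => hGmono ht.2)
    ((ae_restrict_iff' measurableSet_Ioc).2 (Eventually.of_forall fun t ht => by
      rw [hp]; exact hint t (Ioc_subset_Icc_self ht)))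
  refine (hint T' ⟨hT'.1, le_rfl⟩).trans ?_
  calc ∫⁻ s in Ioc 0 T', (P * G s + P) ≤ ∫⁻ _ in Ioc 0 T', P * (1 + ENNReal.ofReal bound) := by
        refine lintegral_mono_ae ?_
        filter_upwards [hgr] with s hs
        rw [mul_add, mul_one, add_comm P]
        refine add_le_add (mul_le_mul' le_rfl (hs.trans (ENNReal.ofReal_le_ofReal ?_))) le_rfl
        rw [hbound, sub_zero]
        have : (0 : ℝ) ≤ p := ENNReal.toReal_nonneg
        gcongr
        · exact hT'.2
        · exact hT'.2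
    _ ≤ _ := by
        rw [setLIntegral_const, Real.volume_Ioc]
        exact mul_le_mul' le_rfl (ENNReal.ofReal_le_ofReal (by linarith [hT'.2]))

end Vale.Agent.P140.Slab
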